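import Vale.Agent.P361.LRO.Ind.GeoC
import Vale.Agent.P361.LRO.Fam

/-!
P361 LRO, block (6): the bumped profiles (helper660).
-/

namespace Vale.Agent.P361.LRO.Ind

open Finset Vale.Agent.P361.LRO

noncomputable section

section gm

variable {n : ℕ} [NeZero n]

theorem gm_bump_pos (lam : ℝ) (o : Tor n) (r : ℕ) (x : Tor n) : 0 < bump n lam o r x := Real.exp_pos _

theorem gm_bump_le {lam : ℝ} (hl : 0 ≤ lam) (o : Tor n) (r : ℕ) (x : Tor n) :
    bump n lam o r x ≤ 1 := by
  unfold bump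
  rw [Real.exp_le_one_iff]
  have : 0 ≤ lam * dist n o r x := mul_nonneg hl (Nat.cast_nonneg _)
  linarith

theorem gm_bump_mono {lam : ℝ} (hl : 0 ≤ lam) {r r' : ℕ} (h : r ≤ r') (o x : Tor n) :
    bump n lam o r x ≤ bump n lam o r' x := by
  unfold bump
  apply Real.exp_le_exp.2
  have h1 : (dist n o r' x : ℝ) ≤ dist n o r x := by exact_mod_cast gm_dist_anti h o x
  have := mul_le_mul_of_nonneg_left h1 hl
  linarith

theorem gm_lipN {lam : ℝ} (hl : 0 ≤ lam) {r : ℕ} (hr : 1 ≤ r) (o : Tor n) :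
    LipN n lam (bump n lam o r) := by
  intro x i
  obtain ⟨h1, h2⟩ := gm_dist_step hr o x i
  have h1' : (dist n o r (x + Pi.single i 1) : ℝ) ≤ dist n o r x + 1 := by exact_mod_cast h1
  have h2' : (dist n o r x : ℝ) ≤ dist n o r (x + Pi.single i 1) + 1 := by exact_mod_cast h2
  have k1 := mul_le_mul_of_nonneg_left h1' hl
  have k2 := mul_le_mul_of_nonneg_left h2' hl
  unfold bump
  rw [← Real.exp_add, ← Real.exp_add]
  exact ⟨Real.exp_le_exp.2 (by linarith), Real.exp_le_exp.2 (by linarith)⟩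

theorem gm_bump_cube {lam : ℝ} {o x : Tor n} {r : ℕ} (hr : r ≤ n) (hx : x ∈ cube n o r) :
    bump n lam o r x = 1 := by
  unfold bump
  rw [gm_dist_cube hr hx]
  simp

theorem gm_bump_ground {lam : ℝ} (hl : 0 ≤ lam) {o x : Tor n} {r s : ℕ} (hrs : r ≤ s)
    (hs : 8 * s ≤ n) (hx : x ∈ cube n (pt n o (4 * s) 0 0) s) :
    bump n lam o r x ≤ Real.exp (-(3 * lam * s)) := by
  unfold bump
  apply Real.exp_le_exp.2
  have h1 : ((3 * s : ℕ) : ℝ) ≤ dist n o r x := by exact_mod_cast gm_dist_ground hrs hs hx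
  have := mul_le_mul_of_nonneg_left h1 hl
  push_cast at this
  linarith

/-- the weight of the sites lowered in `HH r' → HH r` -/
theorem gm_lowered {lam : ℝ} (hl : 0 < lam) (o : Tor n) (h : Tor n → ℝ) {r r' : ℕ} (hr : r ≤ r') :
    ∑ x, (if HH n lam o r h x = HH n lam o r' h x then 0 else HH n lam o r' h x) ≤
      (r' + 2 / lam) ^ 3 := by
  refine le_trans (Finset.sum_le_sum fun x _ => ?_) (sum_bump hl o r')
  split_ifs with hx
  · exact (gm_bump_pos lam o r' x).le
  · unfold HH at hx ⊢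
    rcases le_total (h x) (bump n lam o r' x) with h2 | h2
    · rw [max_eq_right h2]
    · exact absurd (by
        rw [max_eq_left h2, max_eq_left ((gm_bump_mono hl.le hr o x).trans h2)]) hx

/-- the weight of the sites lowered in `HH r' → h` -/
theorem gm_lowered' {lam : ℝ} (hl : 0 < lam) (o : Tor n) (h : Tor n → ℝ) (r' : ℕ) :
    ∑ x, (if h x = HH n lam o r' h x then 0 else HH n lam o r' h x) ≤
      (r' + 2 / lam) ^ 3 := by
  refine le_trans (Finset.sum_le_sum fun x _ => ?_) (sum_bump hl o r')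
  split_ifs with hx
  · exact (gm_bump_pos lam o r' x).le
  · unfold HH at hx ⊢
    rcases le_total (h x) (bump n lam o r' x) with h2 | h2
    · rw [max_eq_right h2]
    · exact absurd (max_eq_left h2).symm hx

end gm

/-! ### The statements of PLAN.txt -/

theorem Fam_HH {n : ℕ} [NeZero n] {h0 lam : ℝ} (hlam : 0 ≤ lam) (o : Tor n)
    {r : ℕ} (hr : 0 < r) {h : Tor n → ℝ} (hh : Fam n h0 lam h) :
    Fam n h0 lam (HH n lam o r h) :=
  hh.sup' (gm_lipN hlam hr o) (gm_bump_le hlam o r)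

theorem Fam_one {n : ℕ} [NeZero n] {h0 lam : ℝ} (h1 : h0 ≤ 1) (hlam : 0 ≤ lam) :
    Fam n h0 lam (fun _ => 1) :=
  fam_const h1 le_rfl zero_le_one hlam

theorem HH_one {n : ℕ} [NeZero n] {h0 lam : ℝ} (hlam : 0 ≤ lam) (o : Tor n)
    {r : ℕ} (hr : r ≤ n) {h : Tor n → ℝ} (hh : Fam n h0 lam h) {x : Tor n} (hx : x ∈ cube n o r) :
    HH n lam o r h x = 1 := by
  unfold HH
  rw [gm_bump_cube hr hx]
  exact max_eq_right (hh.le_one x)

theorem HH_mono {n : ℕ} [NeZero n] {lam : ℝ} (hlam : 0 ≤ lam) (o : Tor n)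
    {r s : ℕ} (hr : r ≤ s) (h : Tor n → ℝ) (x : Tor n) :
    HH n lam o r h x ≤ HH n lam o s h x :=
  max_le_max le_rfl (gm_bump_mono hlam hr o x)

/-- total field of the lowered sites, from radius `s` to radius `r`. -/
theorem sum_lowered {n : ℕ} [NeZero n] {lam : ℝ} (hlam : 0 < lam) (o : Tor n)
    {r s : ℕ} (hr : r ≤ s) (h : Tor n → ℝ) :
    ∑ x, (if HH n lam o r h x = HH n lam o s h x then 0 else HH n lam o s h x)
      ≤ (s + 2 / lam) ^ 3 := gm_lowered hlam o h hr

/-- total field of the lowered sites, from radius `s` to `h`. -/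
theorem sum_lowered' {n : ℕ} [NeZero n] {lam : ℝ} (hlam : 0 < lam) (o : Tor n)
    (s : ℕ) (h : Tor n → ℝ) :
    ∑ x, (if h x = HH n lam o s h x then 0 else HH n lam o s h x)
      ≤ (s + 2 / lam) ^ 3 := gm_lowered' hlam o h s

/-- nothing is changed on the ground cube. -/
theorem HH_ground {n : ℕ} [NeZero n] {h0 lam : ℝ} (hlam : 0 ≤ lam) (o : Tor n)
    {r s : ℕ} (hrs : r ≤ s) (hs : 8 * s ≤ n) {h : Tor n → ℝ} (hh : Fam n h0 lam h)
    (hsm : Real.exp (-(lam * (3 * s))) ≤ h0)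
    {x : Tor n} (hx : x ∈ cube n (pt n o (4 * s) 0 0) s) : HH n lam o r h x = h x := by
  refine max_eq_left (((gm_bump_ground hlam hrs hs hx).trans ?_).trans (hh.ge x))
  have e : 3 * lam * (s : ℝ) = lam * (3 * s) := by ring
  rw [e]
  exact hsm

theorem disj_EG {n N : ℕ} [NeZero n] (o : Tor n) (b : Finset (Tor n)) {r s : ℕ} (hrs : r ≤ s)
    (hs : 8 * s ≤ n) : Disjoint (EE6 n N o b r) (GG6 n N o s) := by
  rw [Finset.disjoint_left]
  rintro ⟨k, x⟩ h1 h2
  unfold GG6 at h2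
  rw [mem_product, mem_filter] at h2
  obtain ⟨⟨-, hk⟩, hx⟩ := h2
  unfold EE6 at h1
  rw [mem_union, mem_product, mem_filter] at h1
  rcases h1 with h1 | ⟨-, h1⟩
  · unfold hatb at h1
    rw [mem_product, mem_singleton] at h1
    exact hk h1.1
  · have h3 := gm_dist_ground hrs hs hx
    rw [gm_dist_cube (by omega) h1] at h3
    have hs0 : s = 0 := by omega
    subst hs0
    rw [gm_mem_cube (by omega)] at hx
    exact absurd (hx 0) (by omega)

theorem disj_hat {n N : ℕ} [NeZero n] (o : Tor n) (b : Finset (Tor n)) (s : ℕ) :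
    Disjoint (hatb N b) (GG6 n N o s) := by
  rw [Finset.disjoint_left]
  rintro ⟨k, x⟩ h1 h2
  unfold GG6 at h2
  rw [mem_product, mem_filter] at h2
  unfold hatb at h1
  rw [mem_product, mem_singleton] at h1
  exact h2.1.2 h1.1

end

end Vale.Agent.P361.LRO.Ind
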