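import Mathlib

/-!
# P361 LRO, block (6): numerical lemmas for the ladder of scales
-/

namespace Vale.Agent.P361.LRO.Ind

private theorem nm_log_le {y : ℝ} (hy : 0 < y) : 5 * Real.log y ≤ 3 * y := by
  have h1 : Real.log (y / 2) ≤ y / 2 - 1 := Real.log_le_sub_one_of_pos (by positivity)
  rw [Real.log_div hy.ne' (by norm_num)] at h1
  have h2 := Real.log_two_lt_d9
  linarith

/-- the ground is out of reach of the bumps. -/
theorem num_ground : ∃ β0 : ℝ, 10 ≤ β0 ∧ ∀ (β h0 lam : ℝ) (s : ℕ), β0 ≤ β → 0 < h0 →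
    1 / β ≤ lam → β ^ 10 ≤ (3 : ℝ) ^ s → h0⁻¹ ≤ ((3 : ℝ) ^ s) ^ (5 / 2 : ℝ) →
    Real.exp (-(lam * (3 * (3 : ℝ) ^ s))) ≤ h0 := by
  refine ⟨10, le_refl _, ?_⟩
  intro β h0 lam s hβ hh0 hlam hs hh
  set X : ℝ := (3 : ℝ) ^ s with hX
  have hXpos : 0 < X := by positivity
  have hβpos : 0 < β := by linarith
  have hβ2 : β ^ 2 ≤ X := le_trans (pow_le_pow_right₀ (by linarith) (by norm_num)) hs
  have hβs : β ≤ Real.sqrt X := by
    rw [Real.le_sqrt hβpos.le hXpos.le]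
    exact hβ2
  have hsq : Real.sqrt X * Real.sqrt X = X := Real.mul_self_sqrt hXpos.le
  have hsqpos : 0 < Real.sqrt X := Real.sqrt_pos.2 hXpos
  have h1 : Real.sqrt X ≤ lam * X := by
    calc Real.sqrt X = (1 / β) * (β * Real.sqrt X) := by field_simp
      _ ≤ (1 / β) * (Real.sqrt X * Real.sqrt X) := by
          apply mul_le_mul_of_nonneg_left _ (by positivity)
          exact mul_le_mul_of_nonneg_right hβs hsqpos.le
      _ = (1 / β) * X := by rw [hsq]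
      _ ≤ lam * X := mul_le_mul_of_nonneg_right hlam hXpos.le
  have h2 : (5 / 2) * Real.log X ≤ 3 * Real.sqrt X := by
    have h3 := nm_log_le hsqpos
    rw [Real.log_sqrt hXpos.le] at h3
    linarith
  have h4 : Real.exp (-(5 / 2 * Real.log X)) ≤ h0 := by
    rw [Real.rpow_def_of_pos hXpos] at hh
    rw [Real.exp_neg]
    have h5 : h0⁻¹ ≤ Real.exp (5 / 2 * Real.log X) := by
      rw [mul_comm]; exact hh
    have := inv_anti₀ (inv_pos.2 hh0) h5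
    rwa [inv_inv] at this
  refine le_trans (Real.exp_le_exp.2 ?_) h4
  have : lam * (3 * X) = 3 * (lam * X) := by ring
  rw [this]
  linarith

/-- the ladder of scales `r0 * 4 ^ i`. -/
theorem num_ladder : ∃ β0 : ℝ, 10 ≤ β0 ∧ ∀ β : ℝ, β0 ≤ β → ∃ n0 : ℕ, ∀ (n : ℕ) (h0 : ℝ),
    n0 ≤ n → (n : ℝ) ^ (-(1 / 4 : ℝ)) ≤ h0 → h0 ≤ 1 →
    ∃ r0 I : ℕ, β ^ 10 ≤ (3 : ℝ) ^ r0 ∧ (3 : ℝ) ^ r0 ≤ 3 * β ^ 10 ∧
      h0⁻¹ ≤ ((3 : ℝ) ^ (4 ^ I * r0)) ^ (5 / 2 : ℝ) ∧ 8 * 3 ^ (4 ^ I * r0) < n := by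
  refine ⟨10, le_refl _, ?_⟩
  intro β hβ
  have hβ1 : (1 : ℝ) ≤ β ^ 10 := one_le_pow₀ (by linarith)
  obtain ⟨k, hk1, hk2⟩ := exists_nat_pow_near hβ1 (show (1 : ℝ) < 3 by norm_num)
  refine ⟨max (⌈24 * β ^ 10⌉₊ + 1) 100, ?_⟩
  intro n h0 hn hh0 hh1
  have hn1 : 24 * β ^ 10 < n := by
    have h1 : ⌈24 * β ^ 10⌉₊ + 1 ≤ n := le_trans (le_max_left _ _) hn
    have h2 : 24 * β ^ 10 ≤ (⌈24 * β ^ 10⌉₊ : ℝ) := Nat.le_ceil _
    have h3 : ((⌈24 * β ^ 10⌉₊ + 1 : ℕ) : ℝ) ≤ n := by exact_mod_cast h1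
    push_cast at h3
    linarith
  have hn2 : 100 ≤ n := le_trans (le_max_right _ _) hn
  have hnpos : (0 : ℝ) < n := by
    have : (100 : ℝ) ≤ n := by exact_mod_cast hn2
    linarith
  have hh0pos : 0 < h0 := lt_of_lt_of_le (Real.rpow_pos_of_pos hnpos _) hh0
  have hinv : h0⁻¹ ≤ (n : ℝ) ^ (1 / 4 : ℝ) := by
    have h1 := inv_anti₀ (Real.rpow_pos_of_pos hnpos _) hh0
    rwa [← Real.rpow_neg hnpos.le, neg_neg] at h1
  -- existence of a large rung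
  have hex : ∃ I : ℕ, h0⁻¹ ≤ ((3 : ℝ) ^ (4 ^ I * (k + 1))) ^ (5 / 2 : ℝ) := by
    obtain ⟨I, hI⟩ := pow_unbounded_of_one_lt h0⁻¹ (show (1 : ℝ) < 3 by norm_num)
    refine ⟨I, ?_⟩
    have h1 : (3 : ℝ) ^ I ≤ (3 : ℝ) ^ (4 ^ I * (k + 1)) := by
      apply pow_le_pow_right₀ (by norm_num)
      have h2 : I ≤ 4 ^ I := (Nat.lt_pow_self (by norm_num)).le
      calc I ≤ 4 ^ I := h2
        _ ≤ 4 ^ I * (k + 1) := Nat.le_mul_of_pos_right _ (by omega)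
    have h3 : (1 : ℝ) ≤ (3 : ℝ) ^ (4 ^ I * (k + 1)) := one_le_pow₀ (by norm_num)
    calc h0⁻¹ ≤ (3 : ℝ) ^ I := hI.le
      _ ≤ (3 : ℝ) ^ (4 ^ I * (k + 1)) := h1
      _ = ((3 : ℝ) ^ (4 ^ I * (k + 1))) ^ (1 : ℝ) := (Real.rpow_one _).symm
      _ ≤ _ := Real.rpow_le_rpow_of_exponent_le h3 (by norm_num)
  classical
  refine ⟨k + 1, Nat.find hex, hk2.le, ?_, Nat.find_spec hex, ?_⟩
  · rw [pow_succ]
    linarith
  · rcases hI : Nat.find hex with _ | J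
    · rw [pow_zero, one_mul]
      have h1 : (8 * 3 ^ (k + 1) : ℝ) < n := by
        rw [pow_succ]
        linarith
      exact_mod_cast h1
    · have hJ := Nat.find_min hex (m := J) (by omega)
      push Not at hJ
      set Y : ℝ := (3 : ℝ) ^ (4 ^ J * (k + 1)) with hY
      have hYpos : 0 < Y := by positivity
      have h1 : Y ^ (5 / 2 : ℝ) < (n : ℝ) ^ (1 / 4 : ℝ) := lt_of_lt_of_le hJ hinv
      have h2 : Y ^ 4 < (n : ℝ) ^ (2 / 5 : ℝ) := by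
        have h3 := Real.rpow_lt_rpow (by positivity) h1 (show (0 : ℝ) < 8 / 5 by norm_num)
        rw [← Real.rpow_mul hYpos.le, ← Real.rpow_mul hnpos.le] at h3
        have e1 : (5 / 2 * (8 / 5) : ℝ) = ((4 : ℕ) : ℝ) := by norm_num
        have e2 : (1 / 4 * (8 / 5) : ℝ) = 2 / 5 := by norm_num
        rw [e1, e2, Real.rpow_natCast] at h3
        exact h3
      have h4 : 8 * (n : ℝ) ^ (2 / 5 : ℝ) ≤ n := by
        have h5 : (n : ℝ) = (n : ℝ) ^ (2 / 5 : ℝ) * (n : ℝ) ^ (3 / 5 : ℝ) := by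
          rw [← Real.rpow_add hnpos]; norm_num
        have h6 : (8 : ℝ) ≤ (n : ℝ) ^ (3 / 5 : ℝ) := by
          have h7 : (32 : ℝ) ≤ n := by
            have : (100 : ℝ) ≤ n := by exact_mod_cast hn2
            linarith
          have h8 := Real.rpow_le_rpow (by norm_num) h7 (show (0 : ℝ) ≤ 3 / 5 by norm_num)
          have h9 : (32 : ℝ) ^ (3 / 5 : ℝ) = 8 := by
            rw [show (32 : ℝ) = (2 : ℝ) ^ (5 : ℝ) by norm_num, ← Real.rpow_mul (by norm_num)]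
            norm_num
          linarith
        calc 8 * (n : ℝ) ^ (2 / 5 : ℝ) ≤ (n : ℝ) ^ (3 / 5 : ℝ) * (n : ℝ) ^ (2 / 5 : ℝ) :=
              mul_le_mul_of_nonneg_right h6 (by positivity)
          _ = n := by rw [mul_comm]; exact h5.symm
      have h10 : (3 : ℝ) ^ (4 ^ (J + 1) * (k + 1)) = Y ^ 4 := by
        rw [hY, ← pow_mul]
        congr 1
        ring
      have h11 : (8 * 3 ^ (4 ^ (J + 1) * (k + 1)) : ℝ) < n := by
        rw [h10]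
        linarith
      exact_mod_cast h11

end Vale.Agent.P361.LRO.Ind
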