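import Vale.Agent.P361.LRO.Ind.StepLast
import Vale.Agent.P361.LRO.Ind.Family
import Vale.Agent.P361.LRO.Ind.Num

/-!
# P361 LRO, block (6), package L3: the last rung of the ladder
-/

namespace Vale.Agent.P361.LRO.Ind

open Finset Vale.Agent.P361.LRO _root_.P361.LRO

theorem ladlast_num_a {C β K : ℝ} {a r : ℕ} (hC : 0 < C) (hβ : 10 ≤ β) (hβC : C ^ 3 ≤ β)
    (ha : (3 : ℝ) ^ a ≤ β) (hK : 1 ≤ K) (hKa : K * β ≤ 27 ^ a) (hr : β ^ 10 ≤ (3 : ℝ) ^ r) :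
    C * β ^ 2 * K ≤ β * ((3 : ℝ) ^ r) ^ (1 / 3 : ℝ) ∧
    C * K ^ 3 ≤ β * ((3 : ℝ) ^ r) ^ (1 / 3 : ℝ) * β ^ 2 := by
  have hβ0 : 0 < β := by linarith
  have hK2 : K ≤ β ^ 2 := by
    have h1 : (27 : ℝ) ^ a = ((3 : ℝ) ^ a) ^ 3 := by
      rw [← pow_mul, mul_comm a 3, pow_mul]; norm_num
    have h2 : ((3 : ℝ) ^ a) ^ 3 ≤ β ^ 3 := pow_le_pow_left₀ (by positivity) ha 3
    have h3 : K * β ≤ β ^ 2 * β := by
      calc K * β ≤ 27 ^ a := hKa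
        _ ≤ β ^ 3 := by rw [h1]; exact h2
        _ = β ^ 2 * β := by ring
    exact le_of_mul_le_mul_right h3 hβ0
  have ht : C ≤ β ^ (1 / 3 : ℝ) := by
    have h1 : (C ^ 3) ^ (1 / 3 : ℝ) ≤ β ^ (1 / 3 : ℝ) :=
      Real.rpow_le_rpow (by positivity) hβC (by norm_num)
    have h2 : (C ^ 3) ^ (1 / 3 : ℝ) = C := by
      rw [← Real.rpow_natCast, ← Real.rpow_mul hC.le]
      norm_num
    rw [h2] at h1
    exact h1
  have hA : β ^ 3 * β ^ (1 / 3 : ℝ) ≤ ((3 : ℝ) ^ r) ^ (1 / 3 : ℝ) := by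
    have h1 : (β ^ 10) ^ (1 / 3 : ℝ) ≤ ((3 : ℝ) ^ r) ^ (1 / 3 : ℝ) :=
      Real.rpow_le_rpow (by positivity) hr (by norm_num)
    have h2 : (β ^ 10) ^ (1 / 3 : ℝ) = β ^ 3 * β ^ (1 / 3 : ℝ) := by
      rw [← Real.rpow_natCast, ← Real.rpow_natCast, ← Real.rpow_mul hβ0.le,
        ← Real.rpow_add hβ0]
      norm_num
    rw [h2] at h1
    exact h1
  have hCA : C * β ^ 4 ≤ β * ((3 : ℝ) ^ r) ^ (1 / 3 : ℝ) := by
    calc C * β ^ 4 ≤ β ^ (1 / 3 : ℝ) * β ^ 4 := by gcongr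
      _ = β * (β ^ 3 * β ^ (1 / 3 : ℝ)) := by ring
      _ ≤ _ := by gcongr
  constructor
  · calc C * β ^ 2 * K ≤ C * β ^ 2 * β ^ 2 := by gcongr
      _ = C * β ^ 4 := by ring
      _ ≤ _ := hCA
  · calc C * K ^ 3 ≤ C * (β ^ 2) ^ 3 := by gcongr
      _ = C * β ^ 4 * β ^ 2 := by ring
      _ ≤ _ := by gcongr

theorem ladlast_num_b {β lam ε : ℝ} {r : ℕ} (hβ : 10 ≤ β) (hr : (3 : ℝ) ^ r ≤ 3 * β ^ 10)
    (hlam : 1 / β ≤ lam) (hε : 0 ≤ ε) (hεβ : ε * Real.log β ≤ 1 / 280) :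
    1 / 2 ≤ (β * ((3 : ℝ) ^ r + 2 / lam) ^ 3) ^ (-(4 * ε)) := by
  have hβ0 : 0 < β := by linarith
  have hlam0 : 0 < lam := lt_of_lt_of_le (by positivity) hlam
  have h2 : 2 / lam ≤ 2 * β := by
    rw [div_le_iff₀ hlam0]
    have : 1 ≤ β * lam := by
      have := mul_le_mul_of_nonneg_left hlam hβ0.le
      rwa [mul_one_div_cancel hβ0.ne'] at this
    nlinarith
  have h3 : β ≤ β ^ 10 := by
    calc β = β ^ 1 := (pow_one β).symm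
      _ ≤ β ^ 10 := pow_le_pow_right₀ (by linarith) (by norm_num)
  have h4 : (3 : ℝ) ^ r + 2 / lam ≤ 5 * β ^ 10 := by linarith
  have hpos : 0 < (3 : ℝ) ^ r + 2 / lam := by positivity
  have h1r : (1 : ℝ) ≤ 3 ^ r := one_le_pow₀ (by norm_num)
  have h5 : ((3 : ℝ) ^ r + 2 / lam) ^ 3 ≤ (5 * β ^ 10) ^ 3 := pow_le_pow_left₀ hpos.le h4 3
  have h6 : β * ((3 : ℝ) ^ r + 2 / lam) ^ 3 ≤ β ^ 34 := by
    calc β * ((3 : ℝ) ^ r + 2 / lam) ^ 3 ≤ β * (5 * β ^ 10) ^ 3 := by gcongr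
      _ = 125 * β ^ 31 := by ring
      _ ≤ β ^ 3 * β ^ 31 := by
        gcongr
        calc (125 : ℝ) ≤ 10 ^ 3 := by norm_num
          _ ≤ β ^ 3 := pow_le_pow_left₀ (by norm_num) hβ 3
      _ = β ^ 34 := by ring
  have hpos2 : 0 < β * ((3 : ℝ) ^ r + 2 / lam) ^ 3 := by positivity
  have h7 : Real.log (β * ((3 : ℝ) ^ r + 2 / lam) ^ 3) ≤ 34 * Real.log β := by
    have := Real.log_le_log hpos2 h6
    rwa [Real.log_pow] at this
  rw [Real.rpow_def_of_pos hpos2]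
  have h8 : -(1 / 2 : ℝ) ≤ Real.log (β * ((3 : ℝ) ^ r + 2 / lam) ^ 3) * -(4 * ε) := by
    have h9 : Real.log (β * ((3 : ℝ) ^ r + 2 / lam) ^ 3) * ε ≤ 34 * Real.log β * ε :=
      mul_le_mul_of_nonneg_right h7 hε
    nlinarith
  have h10 := Real.add_one_le_exp (Real.log (β * ((3 : ℝ) ^ r + 2 / lam) ^ 3) * -(4 * ε))
  linarith

/-- The last rung. -/
theorem lad_last (c1 : ℝ) (hc1 : 0 < c1) : ∃ β0 c3 c4 : ℝ, 10 ≤ β0 ∧ 0 < c3 ∧ 0 < c4 ∧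
    ∀ (n N W m : ℕ) [NeZero n]
    (β K h0 lam ε : ℝ) (o : Tor n) (a : ℕ) (h : Tor n → ℝ)
    (c : (Tor n → ℝ) → Nd n N → Nd n N → ℝ) (r S : ℕ),
    β0 ≤ β → 0 < W → N = m * W → Win β m → r ≤ S → 8 * 3 ^ S < n →
    (3 : ℝ) ^ a ≤ β → 1 ≤ K → K * β ≤ 27 ^ a →
    0 < h0 → h0 ≤ 1 → 1 / β ≤ lam → 0 ≤ ε → ε * Real.log β ≤ c4 →
    β ^ 10 ≤ (3 : ℝ) ^ r → (3 : ℝ) ^ r ≤ 3 * β ^ 10 → h0⁻¹ ≤ ((3 : ℝ) ^ S) ^ (5 / 2 : ℝ) →
    (∀ g, Fam n h0 lam g → Local n N W β K c1 (cube n o (3 ^ a)) g (c g)) →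
    Low n N β h0 lam ε c →
    Fam n h0 lam h →
    LBn (c (HH n lam o (3 ^ r) h)) (EE6 n N o (cube n o (3 ^ a)) (3 ^ r)) (GG6 n N o (3 ^ S))
      (β * ((3 : ℝ) ^ r) ^ (1 / 3 : ℝ)) →
    LBn (c h) (hatb N (cube n o (3 ^ a))) (GG6 n N o (3 ^ S)) (c3 * K) := by
  obtain ⟨C, hC, hstep⟩ := step_last c1 hc1
  obtain ⟨β1, hβ1, hground⟩ := num_ground
  refine ⟨max β1 (C ^ 3), 1 / (4 * C), min (1 / 280) (1 / (8 * C)), hβ1.trans (le_max_left _ _),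
    by positivity, by positivity, ?_⟩
  intro n N W m _ β K h0 lam ε o a h c r S hβ hW hN hwin hrS hSn ha hK hKa hh0 hh01 hlam hε hεβ
    hr hr' hS hloc hlow hfam hLB
  have hβ1' : β1 ≤ β := (le_max_left _ _).trans hβ
  have hβC : C ^ 3 ≤ β := (le_max_right _ _).trans hβ
  have hβ10 : 10 ≤ β := hβ1.trans hβ1'
  have hβ0 : 0 < β := by linarith
  have hlam0 : 0 < lam := lt_of_lt_of_le (by positivity) hlam
  have hK0 : 0 < K := by linarith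
  have h3rS : (3 : ℕ) ^ r ≤ 3 ^ S := Nat.pow_le_pow_right (by norm_num) hrS
  have h3rn : (3 : ℕ) ^ r < n := by
    have : (3 : ℕ) ^ S ≤ 8 * 3 ^ S := by omega
    omega
  have har : a ≤ r := by
    have h1 : (3 : ℝ) ^ a ≤ 3 ^ r := by
      calc (3 : ℝ) ^ a ≤ β := ha
        _ = β ^ 1 := (pow_one β).symm
        _ ≤ β ^ 10 := pow_le_pow_right₀ (by linarith) (by norm_num)
        _ ≤ _ := hr
    exact (pow_le_pow_iff_right₀ (by norm_num)).1 h1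
  have hfamH : Fam n h0 lam (HH n lam o (3 ^ r) h) := Fam_HH hlam0.le o (by positivity) hfam
  obtain ⟨hA1, hA2⟩ := ladlast_num_a hC hβ10 hβC ha hK hKa hr
  have hstep1 := hstep n N W m β K o a (HH n lam o (3 ^ r) h) (c (HH n lam o (3 ^ r) h)) r
    (GG6 n N o (3 ^ S)) (β * ((3 : ℝ) ^ r) ^ (1 / 3 : ℝ)) hβ10 hW hN hwin har h3rn ha hK0 hKa
    (fun x => (hfamH.1 x).2) (fun x hx => HH_one hlam0.le o h3rn.le hfam hx) (hloc _ hfamH)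
    (disj_EG o _ h3rS hSn.le) hLB hA1 hA2
  have hβS : β ^ 10 ≤ (3 : ℝ) ^ S := hr.trans (pow_le_pow_right₀ (by norm_num) hrS)
  have hsm := hground β h0 lam S hβ1' hh0 hlam hβS hS
  have hlow1 := hlow.prim (HH n lam o (3 ^ r) h) h hfamH hfam (fun x => le_max_left _ _)
    (hatb N (cube n o (3 ^ a))) (GG6 n N o (3 ^ S)) (disj_hat o _ _) (by
      intro z hz hz0
      rcases mem_union.1 hz with hz | hz
      · exfalso
        apply hz0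
        unfold hatb at hz
        exact mem_singleton.1 (mem_product.1 hz).1
      · unfold GG6 at hz
        symm
        exact HH_ground hlam0.le o h3rS hSn.le hfam (by push_cast; exact hsm)
          (mem_product.1 hz).2)
    (((3 ^ r : ℕ) + 2 / lam) ^ 3) (by
      have h1r : (1 : ℝ) ≤ ((3 ^ r : ℕ) : ℝ) := by
        push_cast; exact one_le_pow₀ (by norm_num)
      have h2 : (1 : ℝ) ≤ ((3 ^ r : ℕ) : ℝ) + 2 / lam := by
        have : 0 ≤ 2 / lam := by positivity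
        linarith
      have h3 : (1 : ℝ) ≤ (((3 ^ r : ℕ) : ℝ) + 2 / lam) ^ 3 := one_le_pow₀ h2
      nlinarith)
    (sum_lowered' hlam0 o (3 ^ r) h) (K / C) (by positivity) hstep1
  have hhalf := ladlast_num_b hβ10 hr' hlam hε (hεβ.trans (min_le_left _ _))
  intro f hf hg
  refine le_trans ?_ (hlow1 f hf hg)
  push_cast
  have hlogβ : 1 ≤ Real.log β := by
    rw [Real.le_log_iff_exp_le hβ0]
    have := Real.exp_one_lt_d9
    linarith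
  have hε1 : ε ≤ 1 / (8 * C) := by
    have h1 : ε * 1 ≤ ε * Real.log β := mul_le_mul_of_nonneg_left hlogβ hε
    have h2 := hεβ.trans (min_le_right _ _)
    linarith
  have h1 : 1 / 2 * (K / C) ≤ (β * ((3 : ℝ) ^ r + 2 / lam) ^ 3) ^ (-(4 * ε)) * (K / C) :=
    mul_le_mul_of_nonneg_right hhalf (by positivity)
  have h2 : 2 * ε ≤ K / (4 * C) := by
    calc 2 * ε ≤ 2 * (1 / (8 * C)) := by linarith
      _ = 1 / (4 * C) := by field_simp; norm_num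
      _ ≤ K / (4 * C) := by gcongr
  have h3 : 1 / (4 * C) * K = 1 / 2 * (K / C) - K / (4 * C) := by field_simp; norm_num
  linarith

end Vale.Agent.P361.LRO.Ind
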