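import Vale.Agent.P361.LRO.Ind.StepMid
import Vale.Agent.P361.LRO.Ind.Family
import Vale.Agent.P361.LRO.Ind.Num

/-!
# P361 LRO, block (6), package L2: one rung of the ladder
-/

namespace Vale.Agent.P361.LRO.Ind

open Finset Vale.Agent.P361.LRO _root_.P361.LRO

theorem ladmid_num_a {C β X : ℝ} (hC : 0 < C) (hβ : 10 ≤ β) (hX : β ^ 10 ≤ X) :
    C * (β * X ^ (4 / 9 : ℝ) / (1 + C)) ≤ β * X ∧
    C * β ^ 2 * (β * X ^ (4 / 9 : ℝ) / (1 + C)) ≤ β * X ^ (4 / 3 : ℝ) ∧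
    C * (β * X ^ (4 / 9 : ℝ) / (1 + C)) ^ 3 ≤ β * X ^ (4 / 3 : ℝ) * β ^ 2 := by
  have hβ0 : 0 < β := by linarith
  have hβ1 : 1 ≤ β := by linarith
  have hX1 : 1 ≤ X := le_trans (one_le_pow₀ hβ1) hX
  have hX0 : 0 < X := by linarith
  have hC1 : C / (1 + C) ≤ 1 := by rw [div_le_one (by positivity)]; linarith
  have hC0 : 0 ≤ C / (1 + C) := by positivity
  refine ⟨?_, ?_, ?_⟩
  · have h1 : X ^ (4 / 9 : ℝ) ≤ X := by
      conv_rhs => rw [← Real.rpow_one X]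
      exact Real.rpow_le_rpow_of_exponent_le hX1 (by norm_num)
    calc C * (β * X ^ (4 / 9 : ℝ) / (1 + C)) = C / (1 + C) * (β * X ^ (4 / 9 : ℝ)) := by ring
      _ ≤ 1 * (β * X) := mul_le_mul hC1 (by gcongr) (by positivity) zero_le_one
      _ = β * X := one_mul _
  · have h2 : β ^ 2 * X ^ (4 / 9 : ℝ) ≤ X ^ (4 / 3 : ℝ) := by
      have h3 : β ^ 2 ≤ X ^ (1 / 5 : ℝ) := by
        have h4 := Real.rpow_le_rpow (by positivity) hX (show (0 : ℝ) ≤ 1 / 5 by norm_num)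
        rw [← Real.rpow_natCast β 10, ← Real.rpow_mul hβ0.le] at h4
        have e : ((10 : ℕ) : ℝ) * (1 / 5) = ((2 : ℕ) : ℝ) := by norm_num
        rw [e, Real.rpow_natCast] at h4
        exact h4
      have h5 : X ^ (1 / 5 : ℝ) ≤ X ^ (8 / 9 : ℝ) :=
        Real.rpow_le_rpow_of_exponent_le hX1 (by norm_num)
      calc β ^ 2 * X ^ (4 / 9 : ℝ) ≤ X ^ (8 / 9 : ℝ) * X ^ (4 / 9 : ℝ) :=
            mul_le_mul_of_nonneg_right (h3.trans h5) (by positivity)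
        _ = X ^ (4 / 3 : ℝ) := by rw [← Real.rpow_add hX0]; norm_num
    calc C * β ^ 2 * (β * X ^ (4 / 9 : ℝ) / (1 + C))
        = C / (1 + C) * (β * (β ^ 2 * X ^ (4 / 9 : ℝ))) := by ring
      _ ≤ 1 * (β * X ^ (4 / 3 : ℝ)) := mul_le_mul hC1 (by gcongr) (by positivity) zero_le_one
      _ = _ := one_mul _
  · have h6 : (X ^ (4 / 9 : ℝ)) ^ 3 = X ^ (4 / 3 : ℝ) := by
      rw [← Real.rpow_natCast, ← Real.rpow_mul hX0.le]; norm_num
    have h7 : C / (1 + C) ^ 3 ≤ 1 := by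
      rw [div_le_one (by positivity)]
      nlinarith [sq_nonneg C, pow_pos hC 3]
    calc C * (β * X ^ (4 / 9 : ℝ) / (1 + C)) ^ 3
        = C / (1 + C) ^ 3 * (β ^ 3 * (X ^ (4 / 9 : ℝ)) ^ 3) := by
          rw [div_pow, mul_pow]; field_simp
      _ = C / (1 + C) ^ 3 * (β ^ 3 * X ^ (4 / 3 : ℝ)) := by rw [h6]
      _ ≤ 1 * (β ^ 3 * X ^ (4 / 3 : ℝ)) := mul_le_mul_of_nonneg_right h7 (by positivity)
      _ = β * X ^ (4 / 3 : ℝ) * β ^ 2 := by ring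

theorem ladmid_num_b {C β X lam ε : ℝ} (hC : 0 < C) (hβ : 10 ≤ β)
    (hβC : 4 * (1 + C) ^ 2 ≤ β) (hX : β ^ 10 ≤ X)
    (hlam : 1 / β ≤ lam) (hε : 0 ≤ ε) (hε1 : ε ≤ 1 / 1000) :
    β * X ^ (1 / 3 : ℝ) ≤
      (β * (X ^ 4 + 2 / lam) ^ 3) ^ (-(4 * ε)) * (β * X ^ (4 / 9 : ℝ) / (1 + C)) - 2 * ε := by
  have hβ0 : 0 < β := by linarith
  have hβ1 : 1 ≤ β := by linarith
  have hX1 : 1 ≤ X := le_trans (one_le_pow₀ hβ1) hX
  have hX0 : 0 < X := by linarith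
  have hlam0 : 0 < lam := lt_of_lt_of_le (by positivity) hlam
  have hβX : 8 * β ≤ X := by
    have h1 : (8 : ℝ) ≤ β ^ 9 := by
      calc (8 : ℝ) ≤ 10 := by norm_num
        _ ≤ β := hβ
        _ = β ^ 1 := (pow_one β).symm
        _ ≤ β ^ 9 := pow_le_pow_right₀ hβ1 (by norm_num)
    calc 8 * β ≤ β ^ 9 * β := mul_le_mul_of_nonneg_right h1 hβ0.le
      _ = β ^ 10 := by ring
      _ ≤ X := hX
  have h2l : 2 / lam ≤ X ^ 4 := by
    have h1 : 2 / lam ≤ 2 * β := by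
      rw [div_le_iff₀ hlam0]
      have := mul_le_mul_of_nonneg_left hlam (show 0 ≤ 2 * β by positivity)
      have e : 2 * β * (1 / β) = 2 := by field_simp
      linarith
    have h2 : X ≤ X ^ 4 := by
      calc X = X ^ 1 := (pow_one X).symm
        _ ≤ X ^ 4 := pow_le_pow_right₀ hX1 (by norm_num)
    linarith
  have hpos : 0 < β * (X ^ 4 + 2 / lam) ^ 3 := by positivity
  have hle : β * (X ^ 4 + 2 / lam) ^ 3 ≤ X ^ 13 := by
    calc β * (X ^ 4 + 2 / lam) ^ 3 ≤ β * (2 * X ^ 4) ^ 3 := by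
          gcongr
          linarith
      _ = (8 * β) * X ^ 12 := by ring
      _ ≤ X * X ^ 12 := by gcongr
      _ = X ^ 13 := by ring
  have h1 : X ^ (-(52 / 1000) : ℝ) ≤ (β * (X ^ 4 + 2 / lam) ^ 3) ^ (-(4 * ε)) := by
    calc X ^ (-(52 / 1000) : ℝ) ≤ X ^ (-(52 * ε)) :=
          Real.rpow_le_rpow_of_exponent_le hX1 (by linarith)
      _ = (X ^ 13) ^ (-(4 * ε)) := by
          rw [← Real.rpow_natCast X 13, ← Real.rpow_mul hX0.le]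
          congr 1
          push_cast
          ring
      _ ≤ _ := Real.rpow_le_rpow_of_nonpos hpos hle (by linarith)
  have h3 : 2 * (1 + C) ≤ X ^ (1 / 20 : ℝ) := by
    have h4 := Real.rpow_le_rpow (by positivity) hX (show (0 : ℝ) ≤ 1 / 20 by norm_num)
    rw [← Real.rpow_natCast β 10, ← Real.rpow_mul hβ0.le] at h4
    have e : ((10 : ℕ) : ℝ) * (1 / 20) = 1 / 2 := by norm_num
    rw [e, ← Real.sqrt_eq_rpow] at h4
    have h5 : 2 * (1 + C) ≤ Real.sqrt β := by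
      apply Real.le_sqrt_of_sq_le
      calc (2 * (1 + C)) ^ 2 = 4 * (1 + C) ^ 2 := by ring
        _ ≤ β := hβC
    exact h5.trans h4
  have h6 : 2 * (β * X ^ (1 / 3 : ℝ)) ≤
      X ^ (-(52 / 1000) : ℝ) * (β * X ^ (4 / 9 : ℝ) / (1 + C)) := by
    have h7 : X ^ (1 / 3 : ℝ) * X ^ (1 / 20 : ℝ) ≤ X ^ (-(52 / 1000) : ℝ) * X ^ (4 / 9 : ℝ) := by
      rw [← Real.rpow_add hX0, ← Real.rpow_add hX0]
      exact Real.rpow_le_rpow_of_exponent_le hX1 (by norm_num)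
    have h8 : 2 * (1 + C) * X ^ (1 / 3 : ℝ) ≤ X ^ (-(52 / 1000) : ℝ) * X ^ (4 / 9 : ℝ) := by
      calc 2 * (1 + C) * X ^ (1 / 3 : ℝ) ≤ X ^ (1 / 20 : ℝ) * X ^ (1 / 3 : ℝ) :=
            mul_le_mul_of_nonneg_right h3 (by positivity)
        _ = X ^ (1 / 3 : ℝ) * X ^ (1 / 20 : ℝ) := mul_comm _ _
        _ ≤ _ := h7
    have e1 : X ^ (-(52 / 1000) : ℝ) * (β * X ^ (4 / 9 : ℝ) / (1 + C)) =
        β * (X ^ (-(52 / 1000) : ℝ) * X ^ (4 / 9 : ℝ)) / (1 + C) := by ring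
    rw [e1, le_div_iff₀ (by positivity)]
    calc 2 * (β * X ^ (1 / 3 : ℝ)) * (1 + C) = β * (2 * (1 + C) * X ^ (1 / 3 : ℝ)) := by ring
      _ ≤ _ := mul_le_mul_of_nonneg_left h8 hβ0.le
  have h9 : X ^ (-(52 / 1000) : ℝ) * (β * X ^ (4 / 9 : ℝ) / (1 + C)) ≤
      (β * (X ^ 4 + 2 / lam) ^ 3) ^ (-(4 * ε)) * (β * X ^ (4 / 9 : ℝ) / (1 + C)) :=
    mul_le_mul_of_nonneg_right h1 (by positivity)
  have h10 : 1 ≤ β * X ^ (1 / 3 : ℝ) := by
    have : 1 ≤ X ^ (1 / 3 : ℝ) := Real.one_le_rpow hX1 (by norm_num)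
    nlinarith
  linarith

/-- One rung of the ladder. `S` is the ground scale. -/
theorem lad_mid (c1 : ℝ) (hc1 : 0 < c1) : ∃ β0 : ℝ, 10 ≤ β0 ∧ ∀ (n N W m : ℕ) [NeZero n]
    (β K h0 lam ε : ℝ) (o : Tor n) (b : Finset (Tor n)) (h : Tor n → ℝ)
    (c : (Tor n → ℝ) → Nd n N → Nd n N → ℝ) (r S : ℕ),
    β0 ≤ β → 0 < W → N = m * W → Win β m → 4 * r ≤ S → 8 * 3 ^ S < n →
    0 < h0 → h0 ≤ 1 → 1 / β ≤ lam → 0 ≤ ε → ε ≤ 1 / 1000 →
    β ^ 10 ≤ (3 : ℝ) ^ r → h0⁻¹ ≤ ((3 : ℝ) ^ S) ^ (5 / 2 : ℝ) →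
    (∀ g, Fam n h0 lam g → Local n N W β K c1 b g (c g)) → Low n N β h0 lam ε c →
    Fam n h0 lam h →
    LBn (c (HH n lam o (3 ^ (4 * r)) h)) (EE6 n N o b (3 ^ (4 * r))) (GG6 n N o (3 ^ S))
      (β * ((3 : ℝ) ^ (4 * r)) ^ (1 / 3 : ℝ)) →
    LBn (c (HH n lam o (3 ^ r) h)) (EE6 n N o b (3 ^ r)) (GG6 n N o (3 ^ S))
      (β * ((3 : ℝ) ^ r) ^ (1 / 3 : ℝ)) := by
  obtain ⟨C, hC, hstep⟩ := step_mid c1 hc1
  obtain ⟨β1, hβ1, hground⟩ := num_ground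
  refine ⟨max β1 (4 * (1 + C) ^ 2), hβ1.trans (le_max_left _ _), ?_⟩
  intro n N W m _ β K h0 lam ε o b h c r S hβ hW hN hwin hrS hSn hh0 hh01 hlam hε hε1
    hr hS hloc hlow hfam hLB
  have hβ1' : β1 ≤ β := (le_max_left _ _).trans hβ
  have hβC : 4 * (1 + C) ^ 2 ≤ β := (le_max_right _ _).trans hβ
  have hβ10 : 10 ≤ β := hβ1.trans hβ1'
  have hβ0 : 0 < β := by linarith
  have hlam0 : 0 < lam := lt_of_lt_of_le (by positivity) hlam
  have h4rS : (3 : ℕ) ^ (4 * r) ≤ 3 ^ S := Nat.pow_le_pow_right (by norm_num) hrS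
  have hrr : (3 : ℕ) ^ r ≤ 3 ^ (4 * r) := Nat.pow_le_pow_right (by norm_num) (by omega)
  have h8 : (3 : ℕ) ^ S ≤ 8 * 3 ^ S := by omega
  have h4rn : (3 : ℕ) ^ (4 * r) < n := by omega
  have hrn : (3 : ℕ) ^ r ≤ n := by omega
  have hfam4 : Fam n h0 lam (HH n lam o (3 ^ (4 * r)) h) := Fam_HH hlam0.le o (by positivity) hfam
  have hfam1 : Fam n h0 lam (HH n lam o (3 ^ r) h) := Fam_HH hlam0.le o (by positivity) hfam
  have hXe : ((3 : ℝ) ^ (4 * r)) ^ (1 / 3 : ℝ) = ((3 : ℝ) ^ r) ^ (4 / 3 : ℝ) := by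
    rw [mul_comm 4 r, pow_mul, ← Real.rpow_natCast ((3 : ℝ) ^ r) 4,
      ← Real.rpow_mul (by positivity)]
    norm_num
  obtain ⟨hB1, hB2, hB3⟩ := ladmid_num_a hC hβ10 hr
  rw [hXe] at hLB
  have hstep1 := hstep n N W m β K o b (HH n lam o (3 ^ (4 * r)) h)
    (c (HH n lam o (3 ^ (4 * r)) h)) r (4 * r) (GG6 n N o (3 ^ S))
    (β * ((3 : ℝ) ^ r) ^ (4 / 3 : ℝ)) (β * ((3 : ℝ) ^ r) ^ (4 / 9 : ℝ) / (1 + C))
    hβ10 hW hN hwin (by omega) h4rn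
    (fun x => (hfam4.1 x).2) (fun x hx => HH_one hlam0.le o h4rn.le hfam hx) (hloc _ hfam4)
    (disj_EG o _ h4rS hSn.le) hLB (by positivity) hB1 hB2 hB3
  have hβS : β ^ 10 ≤ (3 : ℝ) ^ S := hr.trans (pow_le_pow_right₀ (by norm_num) (by omega))
  have hsm := hground β h0 lam S hβ1' hh0 hlam hβS hS
  have hlow1 := hlow.prim (HH n lam o (3 ^ (4 * r)) h) (HH n lam o (3 ^ r) h) hfam4 hfam1
    (fun x => HH_mono hlam0.le o hrr h x)
    (EE6 n N o b (3 ^ r)) (GG6 n N o (3 ^ S)) (disj_EG o _ (hrr.trans h4rS) hSn.le) (by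
      intro z hz hz0
      rcases mem_union.1 hz with hz | hz
      · unfold EE6 at hz
        rcases mem_union.1 hz with hz | hz
        · exfalso
          apply hz0
          unfold hatb at hz
          exact mem_singleton.1 (mem_product.1 hz).1
        · have hx := (mem_product.1 hz).2
          rw [HH_one hlam0.le o hrn hfam hx]
          have hx4 : z.2 ∈ cube n o (3 ^ (4 * r)) := by
            unfold cube at hx ⊢
            rw [mem_image] at hx ⊢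
            obtain ⟨y, -, hy⟩ := hx
            exact ⟨fun i => ⟨(y i : ℕ), lt_of_lt_of_le (y i).2 hrr⟩, mem_univ _, hy⟩
          rw [HH_one hlam0.le o h4rn.le hfam hx4]
      · unfold GG6 at hz
        have hx := (mem_product.1 hz).2
        rw [HH_ground hlam0.le o (hrr.trans h4rS) hSn.le hfam (by push_cast; exact hsm) hx,
          HH_ground hlam0.le o h4rS hSn.le hfam (by push_cast; exact hsm) hx])
    (((3 ^ (4 * r) : ℕ) + 2 / lam) ^ 3) (by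
      have h1r : (1 : ℝ) ≤ ((3 ^ (4 * r) : ℕ) : ℝ) := by
        push_cast; exact one_le_pow₀ (by norm_num)
      have h2 : (1 : ℝ) ≤ ((3 ^ (4 * r) : ℕ) : ℝ) + 2 / lam := by
        have : 0 ≤ 2 / lam := by positivity
        linarith
      have h3 : (1 : ℝ) ≤ (((3 ^ (4 * r) : ℕ) : ℝ) + 2 / lam) ^ 3 := one_le_pow₀ h2
      nlinarith)
    (sum_lowered hlam0 o hrr h) (β * ((3 : ℝ) ^ r) ^ (4 / 9 : ℝ) / (1 + C)) (by positivity)
    hstep1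
  have hnum := ladmid_num_b hC hβ10 hβC hr hlam hε hε1
  intro f hf hg
  refine le_trans hnum ?_
  have h5 := hlow1 f hf hg
  have e : ((3 ^ (4 * r) : ℕ) : ℝ) = ((3 : ℝ) ^ r) ^ 4 := by
    push_cast
    rw [mul_comm 4 r, pow_mul]
  rw [e] at h5
  exact h5

end Vale.Agent.P361.LRO.Ind
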