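import Vale.Agent.P361.LRO.Ind.LadTop
import Vale.Agent.P361.LRO.Ind.LadMid
import Vale.Agent.P361.LRO.Ind.LadLast
import Vale.Agent.P361.LRO.Ind.Num
import Vale.Agent.P361.LRO.Net.IndHyp

/-!
# P361 LRO, block (6): the outside-in induction over scales, assembly
-/

namespace Vale.Agent.P361.LRO.Ind

open Finset Vale.Agent.P361.LRO _root_.P361.LRO

/-- **Block (6).** -/
theorem block6 (c1 : ℝ) (hc1 : 0 < c1) : ∃ β0 c3 c4 : ℝ, 10 ≤ β0 ∧ 0 < c3 ∧ 0 < c4 ∧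
    ∀ (β : ℝ), β0 ≤ β → ∃ n0 : ℕ, ∀ (n N W m : ℕ) [NeZero n]
    (K h0 lam ε : ℝ) (o : Tor n) (a : ℕ) (h : Tor n → ℝ)
    (c : (Tor n → ℝ) → Nd n N → Nd n N → ℝ),
    n0 ≤ n → 0 < W → N = m * W → Win β m →
    (3 : ℝ) ^ a ≤ β → 1 ≤ K → K * β ≤ 27 ^ a →
    (n : ℝ) ^ (-(1 / 4 : ℝ)) ≤ h0 → h0 ≤ 1 → 1 / β ≤ lam → 0 ≤ ε → ε * Real.log β ≤ c4 →
    (∀ g, Fam n h0 lam g → Local n N W β K c1 (cube n o (3 ^ a)) g (c g)) →
    Low n N β h0 lam ε c →
    Fam n h0 lam h →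
    c3 * K ≤ netK (c h) (fun z => if z ∈ hatb N (cube n o (3 ^ a)) then 1 else 0) := by
  obtain ⟨b1, hb1, H1⟩ := lad_top c1 hc1
  obtain ⟨b2, hb2, H2⟩ := lad_mid c1 hc1
  obtain ⟨b3, c3, c4, hb3, hc3, hc4, H3⟩ := lad_last c1 hc1
  obtain ⟨b4, hb4, H4⟩ := num_ladder
  refine ⟨max (max b1 b2) (max b3 b4), c3, min c4 (1 / 1000), ?_, hc3, ?_, ?_⟩
  · exact le_trans hb1 (le_trans (le_max_left _ _) (le_max_left _ _))
  · exact lt_min hc4 (by norm_num)
  intro β hβ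
  have hβ1 : b1 ≤ β := le_trans (le_trans (le_max_left _ _) (le_max_left _ _)) hβ
  have hβ2 : b2 ≤ β := le_trans (le_trans (le_max_right _ _) (le_max_left _ _)) hβ
  have hβ3 : b3 ≤ β := le_trans (le_trans (le_max_left _ _) (le_max_right _ _)) hβ
  have hβ4 : b4 ≤ β := le_trans (le_trans (le_max_right _ _) (le_max_right _ _)) hβ
  obtain ⟨n0, hn0⟩ := H4 β hβ4
  refine ⟨n0, ?_⟩
  intro n N W m _ K h0 lam ε o a h c hn hW hN hwin ha hK hKβ hh0 hh1 hlam hε hεl hloc hlow hfam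
  have hβ10 : 10 ≤ β := le_trans hb1 hβ1
  have hnpos : (0 : ℝ) < n := by exact_mod_cast Nat.pos_of_ne_zero (NeZero.ne n)
  have hh0pos : 0 < h0 := lt_of_lt_of_le (Real.rpow_pos_of_pos hnpos _) hh0
  have hlog : 1 ≤ Real.log β := by
    rw [Real.le_log_iff_exp_le (by linarith)]
    have := Real.exp_one_lt_d9
    linarith
  have hε1 : ε ≤ 1 / 1000 := by
    have h1 : ε * Real.log β ≤ 1 / 1000 := le_trans hεl (min_le_right _ _)
    nlinarith
  have hε4 : ε * Real.log β ≤ c4 := le_trans hεl (min_le_left _ _)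
  obtain ⟨r0, I, hr0, hr0', hI, hIn⟩ := hn0 n h0 hn hh0 hh1
  have hpow : ∀ i : ℕ, r0 ≤ 4 ^ i * r0 := fun i => Nat.le_mul_of_pos_left _ (by positivity)
  have hbig : ∀ i : ℕ, β ^ 10 ≤ (3 : ℝ) ^ (4 ^ i * r0) := fun i =>
    le_trans hr0 (pow_le_pow_right₀ (by norm_num) (hpow i))
  -- downward induction
  have key : ∀ k i : ℕ, i + k = I →
      LBn (c (HH n lam o (3 ^ (4 ^ i * r0)) h)) (EE6 n N o (cube n o (3 ^ a)) (3 ^ (4 ^ i * r0)))
        (GG6 n N o (3 ^ (4 ^ I * r0))) (β * ((3 : ℝ) ^ (4 ^ i * r0)) ^ (1 / 3 : ℝ)) := by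
    intro k
    induction k with
    | zero =>
      intro i hi
      have : i = I := by omega
      subst this
      exact H1 n N W m β K h0 lam ε o _ h c _ hβ1 hW hN hwin hIn hh0pos hh1 hlam hε hε1
        (hbig _) hI hloc hlow hfam
    | succ k ih =>
      intro i hi
      have h1 := ih (i + 1) (by omega)
      have e : 4 ^ (i + 1) * r0 = 4 * (4 ^ i * r0) := by ring
      rw [e] at h1
      have hle : 4 * (4 ^ i * r0) ≤ 4 ^ I * r0 := by
        rw [← e]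
        exact Nat.mul_le_mul_right _ (Nat.pow_le_pow_right (by norm_num) (by omega))
      exact H2 n N W m β K h0 lam ε o _ h c _ _ hβ2 hW hN hwin hle hIn hh0pos hh1 hlam hε hε1
        (hbig _) hI hloc hlow hfam h1
  have h0' := key I 0 (by omega)
  simp only [pow_zero, one_mul] at h0'
  have hfin := H3 n N W m β K h0 lam ε o a h c r0 (4 ^ I * r0) hβ3 hW hN hwin (hpow I) hIn ha hK
    hKβ hh0pos hh1 hlam hε hε4 hr0 hr0' hI hloc hlow hfam h0'
  apply hfin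
  · intro x hx
    simp [hx]
  · intro x hx
    have hx0 : x.1 ≠ 0 := by
      simp only [GG6, mem_product, mem_filter, mem_univ, true_and] at hx
      exact hx.1
    have : x ∉ hatb N (cube n o (3 ^ a)) := by
      intro h
      simp only [hatb, mem_product, mem_singleton] at h
      exact hx0 h.1
    simp [this]

theorem indMain : IndMain := by
  intro c1 hc1
  obtain ⟨b0, c3, c4, hb0, hc3, hc4, H⟩ := block6 c1 hc1
  refine ⟨c3, hc3, ?_⟩
  intro A B hA hB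
  -- the eventual inequalities
  have e1 : ∀ᶠ β : ℝ in Filter.atTop, 1 ≤ A * β ^ (1 / 100 : ℝ) := by
    have h := (tendsto_rpow_atTop (y := (1 / 100 : ℝ)) (by norm_num)).const_mul_atTop hA
    exact h.eventually_ge_atTop 1
  have e2 : ∀ᶠ β : ℝ in Filter.atTop, A * β ^ (-(1 / 25) : ℝ) ≤ 1 := by
    have h := (tendsto_rpow_neg_atTop (y := (1 / 25 : ℝ)) (by norm_num)).const_mul A
    rw [mul_zero] at h
    exact h.eventually_le_const (by norm_num)
  have e3 : ∀ᶠ β : ℝ in Filter.atTop, B * (β ^ (-(1 / 200) : ℝ) * Real.log β) ≤ c4 := by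
    have h1 : Filter.Tendsto (fun β : ℝ => β ^ (-(1 / 200) : ℝ) * Real.log β) Filter.atTop
        (nhds 0) := by
      have h2 := (isLittleO_log_rpow_atTop (r := (1 / 200 : ℝ)) (by norm_num)).tendsto_div_nhds_zero
      refine h2.congr' ?_
      filter_upwards [Filter.eventually_gt_atTop 0] with x hx
      rw [Real.rpow_neg hx.le, div_eq_inv_mul]
    have h := h1.const_mul B
    rw [mul_zero] at h
    exact h.eventually_le_const hc4
  have e4 : ∀ᶠ β : ℝ in Filter.atTop, (3 : ℝ) * β ^ (7 / 20 : ℝ) ≤ β := by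
    have h := (tendsto_rpow_neg_atTop (y := (13 / 20 : ℝ)) (by norm_num)).const_mul 3
    rw [mul_zero] at h
    filter_upwards [h.eventually_le_const (show (0 : ℝ) < 1 by norm_num),
      Filter.eventually_gt_atTop 0] with x hx hx0
    have h5 : x ^ (7 / 20 : ℝ) = x ^ (-(13 / 20) : ℝ) * x := by
      nth_rw 3 [← Real.rpow_one x]
      rw [← Real.rpow_add hx0]
      norm_num
    rw [h5]
    nlinarith
  obtain ⟨b1, hb1⟩ := Filter.eventually_atTop.1 (e1.and (e2.and (e3.and e4)))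
  refine ⟨max b0 b1, ?_⟩
  intro β hβ a ha1 ha2 lam hlam hlam1
  have hβ0 : b0 ≤ β := le_trans (le_max_left _ _) hβ
  obtain ⟨f1, f2, f3, f4⟩ := hb1 β (le_trans (le_max_right _ _) hβ)
  have hβpos : 0 < β := by linarith
  obtain ⟨n0, hn0⟩ := H β hβ0
  refine ⟨n0, ?_⟩
  intro n _ hn h0 hh0 hh1 x0 Mw W hW hlo hhi ε hε hεB c hloc hlow h hfam
  have hMw : 0 < Mw := by
    rcases Nat.eq_zero_or_pos Mw with h | h
    · subst h
      simp at hlo
      norm_num at hlo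
    · exact h
  refine hn0 n (Mw * W) W Mw (A * β ^ (1 / 100 : ℝ)) h0 lam ε x0 a h c hn hW rfl
    ⟨hMw, hlo, hhi⟩ (le_trans ha2 f4) f1 ?_ hh0 hh1 ?_ hε ?_ hloc hlow hfam
  · -- `K β ≤ 27 ^ a`
    have h27 : (27 : ℝ) ^ a = ((3 : ℝ) ^ a) ^ 3 := by
      rw [← pow_mul, mul_comm, pow_mul]; norm_num
    have h3 : (β ^ (7 / 20 : ℝ)) ^ 3 ≤ ((3 : ℝ) ^ a) ^ 3 :=
      pow_le_pow_left₀ (by positivity) ha1 3
    have h4 : (β ^ (7 / 20 : ℝ)) ^ 3 = β ^ (21 / 20 : ℝ) := by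
      rw [← Real.rpow_natCast, ← Real.rpow_mul hβpos.le]; norm_num
    have h5 : A * β ^ (1 / 100 : ℝ) * β = A * β ^ (-(1 / 25) : ℝ) * β ^ (21 / 20 : ℝ) := by
      rw [mul_assoc, mul_assoc, ← Real.rpow_add hβpos]
      congr 1
      nth_rw 2 [← Real.rpow_one β]
      rw [← Real.rpow_add hβpos]
      norm_num
    rw [h27, h5]
    calc A * β ^ (-(1 / 25) : ℝ) * β ^ (21 / 20 : ℝ) ≤ 1 * β ^ (21 / 20 : ℝ) :=
          mul_le_mul_of_nonneg_right f2 (by positivity)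
      _ = (β ^ (7 / 20 : ℝ)) ^ 3 := by rw [one_mul, h4]
      _ ≤ _ := h3
  · rw [one_div]; exact hlam
  · have hlogpos : 0 ≤ Real.log β := Real.log_nonneg (by linarith)
    calc ε * Real.log β ≤ (B * β ^ (-(1 / 200) : ℝ)) * Real.log β :=
          mul_le_mul_of_nonneg_right hεB hlogpos
      _ = B * (β ^ (-(1 / 200) : ℝ) * Real.log β) := by ring
      _ ≤ c4 := f3

end Vale.Agent.P361.LRO.Ind
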