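import Vale.Agent.P361.LRO.Ind.Defs

/-!
# P361 LRO, block (6), package GEOA: points and cubes of the torus (helper515)
-/

namespace Vale.Agent.P361.LRO.Ind

open Finset Vale.Agent.P361.LRO _root_.P361.LRO

/-- the three offsets as natural numbers -/
private theorem gA_eq {n : ℕ} (o : Tor n) (r : ℕ) (y : Fin 3 → Fin r) :
    (o + fun i => ((y i : ℕ) : ZMod n)) = pt n o (y 0) (y 1) (y 2) := by
  unfold pt
  congr 1
  funext i
  fin_cases i <;> simp

theorem mem_cube_iff {n : ℕ} [NeZero n] (o x : Tor n) (r : ℕ) :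
    x ∈ cube n o r ↔ ∃ a < r, ∃ b < r, ∃ c < r, x = pt n o a b c := by
  unfold cube
  constructor
  · intro h
    rw [Finset.mem_image] at h
    obtain ⟨y, -, rfl⟩ := h
    exact ⟨y 0, (y 0).isLt, y 1, (y 1).isLt, y 2, (y 2).isLt, gA_eq o r y⟩
  · rintro ⟨a, ha, b, hb, c, hc, rfl⟩
    rw [Finset.mem_image]
    refine ⟨![⟨a, ha⟩, ⟨b, hb⟩, ⟨c, hc⟩], Finset.mem_univ _, ?_⟩
    rw [gA_eq]
    simp

theorem pt_inj {n : ℕ} [NeZero n] (o : Tor n) {a b c a' b' c' : ℕ} (ha : a < n) (hb : b < n)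
    (hc : c < n) (ha' : a' < n) (hb' : b' < n) (hc' : c' < n)
    (h : pt n o a b c = pt n o a' b' c') : a = a' ∧ b = b' ∧ c = c' := by
  unfold pt at h
  have h' := add_left_cancel h
  have key : ∀ {u v : ℕ}, u < n → v < n → ((u : ZMod n) = (v : ZMod n)) → u = v := by
    intro u v hu hv e
    have := congrArg ZMod.val e
    rwa [ZMod.val_natCast_of_lt hu, ZMod.val_natCast_of_lt hv] at this
  refine ⟨key ha ha' ?_, key hb hb' ?_, key hc hc' ?_⟩
  · have := congrFun h' 0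
    simpa using this
  · have := congrFun h' 1
    simpa using this
  · have := congrFun h' 2
    simpa using this

/-- the parametrization of a cube is injective -/
theorem gA_cube_eq {n : ℕ} [NeZero n] (o : Tor n) (r : ℕ) :
    cube n o r = (range r ×ˢ range r ×ˢ range r).image fun t => pt n o t.1 t.2.1 t.2.2 := by
  ext x
  rw [mem_cube_iff, Finset.mem_image]
  constructor
  · rintro ⟨a, ha, b, hb, c, hc, rfl⟩
    exact ⟨(a, b, c), by simp [ha, hb, hc], rfl⟩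
  · rintro ⟨⟨a, b, c⟩, ht, rfl⟩
    simp only [Finset.mem_product, Finset.mem_range] at ht
    exact ⟨a, ht.1, b, ht.2.1, c, ht.2.2, rfl⟩

theorem gA_injOn {n : ℕ} [NeZero n] (o : Tor n) (r : ℕ) (hr : r ≤ n) :
    Set.InjOn (fun t : ℕ × ℕ × ℕ => pt n o t.1 t.2.1 t.2.2)
      ((range r ×ˢ range r ×ˢ range r : Finset (ℕ × ℕ × ℕ)) : Set (ℕ × ℕ × ℕ)) := by
  rintro ⟨a, b, c⟩ ht ⟨a', b', c'⟩ ht' h
  simp only [Finset.coe_product, Finset.coe_range, Set.mem_prod, Set.mem_Iio] at ht ht'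
  obtain ⟨h1, h2, h3⟩ := pt_inj o (lt_of_lt_of_le ht.1 hr) (lt_of_lt_of_le ht.2.1 hr)
    (lt_of_lt_of_le ht.2.2 hr) (lt_of_lt_of_le ht'.1 hr) (lt_of_lt_of_le ht'.2.1 hr)
    (lt_of_lt_of_le ht'.2.2 hr) h
  rw [h1, h2, h3]

theorem sum_cube {n : ℕ} [NeZero n] (o : Tor n) (r : ℕ) (hr : r ≤ n) (f : Tor n → ℝ) :
    ∑ x ∈ cube n o r, f x = ∑ a ∈ range r, ∑ b ∈ range r, ∑ c ∈ range r, f (pt n o a b c) := by
  rw [gA_cube_eq, Finset.sum_image (gA_injOn o r hr), Finset.sum_product]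
  refine Finset.sum_congr rfl fun a _ => ?_
  rw [Finset.sum_product]

theorem card_cube {n : ℕ} [NeZero n] (o : Tor n) (r : ℕ) (hr : r ≤ n) :
    (cube n o r).card = r ^ 3 := by
  rw [gA_cube_eq, Finset.card_image_of_injOn (gA_injOn o r hr), Finset.card_product,
    Finset.card_product, Finset.card_range]
  ring

theorem pt_succ {n : ℕ} (o : Tor n) (a b c : ℕ) :
    pt n o (a + 1) b c = pt n o a b c + Pi.single 0 1 ∧
    pt n o a (b + 1) c = pt n o a b c + Pi.single 1 1 ∧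
    pt n o a b (c + 1) = pt n o a b c + Pi.single 2 1 := by
  unfold pt
  refine ⟨?_, ?_, ?_⟩ <;>
  · rw [add_assoc]
    congr 1
    funext i
    fin_cases i <;> simp

theorem pt_pt {n : ℕ} (o : Tor n) (a b c a' b' c' : ℕ) :
    pt n (pt n o a b c) a' b' c' = pt n o (a + a') (b + b') (c + c') := by
  unfold pt
  rw [add_assoc]
  congr 1
  funext i
  fin_cases i <;> simp

/-- the coordinates of a point -/
theorem gA_sub {n : ℕ} (o : Tor n) (a b c : ℕ) :
    (pt n o a b c) 0 - o 0 = a ∧ (pt n o a b c) 1 - o 1 = b ∧ (pt n o a b c) 2 - o 2 = c := by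
  unfold pt
  simp

end Vale.Agent.P361.LRO.Ind
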