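import Vale.Agent.P361.LRO.Ind.Defs

/-!
# P361 LRO, block (6), V1: the number of nodes with `a < 1/2` over a cube (helper655)
-/

namespace Vale.Agent.P361.LRO.Ind

open Finset Vale.Agent.P361.LRO _root_.P361.LRO

/-- every physical node over the cube is a window node -/
theorem va655_node {n N W m : ℕ} [NeZero n] (hW : 0 < W) (hN : N = m * W) (o : Tor n) (S : ℕ)
    {z : Nd n N} (hz : z ∈ ((univ.filter fun k => k ≠ 0) ×ˢ cube n o S : Finset (Nd n N))) :
    ∃ x < S, ∃ y < S, ∃ c < S, ∃ w < m, ∃ j < W, z = (lay N W w j, pt n o x y c) := by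
  obtain ⟨k, p⟩ := z
  rw [Finset.mem_product] at hz
  obtain ⟨hk, hp⟩ := hz
  have hk0 : k ≠ 0 := by simpa using hk
  have hk1 : 1 ≤ (k : ℕ) := Nat.one_le_iff_ne_zero.2 fun h => hk0 (Fin.ext h)
  have hkN : (k : ℕ) ≤ m * W := by
    have := k.isLt
    omega
  have hp' : p ∈ cube n o S := hp
  unfold cube at hp'
  rw [Finset.mem_image] at hp'
  obtain ⟨y, -, hy⟩ := hp'
  have hmod := Nat.div_add_mod ((k : ℕ) - 1) W
  have hlt : ((k : ℕ) - 1) / W < m := by
    rw [Nat.div_lt_iff_lt_mul hW]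
    omega
  have hj : ((k : ℕ) - 1) % W < W := Nat.mod_lt _ hW
  have he : 1 + ((k : ℕ) - 1) / W * W + ((k : ℕ) - 1) % W = k := by
    rw [mul_comm (((k : ℕ) - 1) / W) W]
    omega
  refine ⟨y 0, (y 0).isLt, y 1, (y 1).isLt, y 2, (y 2).isLt, ((k : ℕ) - 1) / W, hlt, ((k : ℕ) - 1) % W, hj, ?_⟩
  refine Prod.ext ?_ ?_
  · unfold lay
    rw [dif_pos (by rw [he]; exact k.isLt)]
    exact Fin.ext he.symm
  · change p = pt n o (y 0) (y 1) (y 2)
    rw [← hy]
    unfold pt
    congr 1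
    funext i
    fin_cases i <;> rfl

theorem va655_pt {α U : ℝ} : (if α < 1 / 2 then (1 : ℝ) else 0) ≤ 64 * (α - U) ^ 2 + if U < 5 / 8 then 1 else 0 := by
  by_cases h1 : α < 1 / 2
  · rw [if_pos h1]
    by_cases h2 : U < 5 / 8
    · rw [if_pos h2]
      have := sq_nonneg (α - U)
      linarith
    · rw [if_neg h2]
      push Not at h2
      nlinarith
  · rw [if_neg h1]
    have := sq_nonneg (α - U)
    split_ifs <;> positivity

/-- The number of nodes with `a < 1/2` over a cube. -/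
theorem card_low_le {n N W m : ℕ} [NeZero n] (hW : 0 < W) (hm : 0 < m) (hN : N = m * W)
    (o : Tor n) (S : ℕ) (hS : S ≤ n) (a : Nd n N → ℝ) :
    ((((univ.filter fun k => k ≠ 0) ×ˢ cube n o S : Finset (Nd n N)).filter
      fun z => a z < 1 / 2).card : ℝ) ≤
    64 * (∑ x ∈ range S, ∑ y ∈ range S, ∑ z ∈ range S, ∑ w ∈ range m,
      ∑ j ∈ range W, (a (lay N W w j, pt n o x y z) - UU n N W o a x y z w) ^ 2) +
    W * cnt S m (5 / 8) (UU n N W o a) := by
  classical
  set I : Finset (ℕ × ℕ × ℕ × ℕ × ℕ) := range S ×ˢ range S ×ˢ range S ×ˢ range m ×ˢ range W with hI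
  set F : ℕ × ℕ × ℕ × ℕ × ℕ → Nd n N := fun p => (lay N W p.2.2.2.1 p.2.2.2.2, pt n o p.1 p.2.1 p.2.2.1) with hF
  have hsub : (((univ.filter fun k => k ≠ 0) ×ˢ cube n o S : Finset (Nd n N)).filter fun z => a z < 1 / 2) ⊆
      (I.filter fun p => a (F p) < 1 / 2).image F := by
    intro z hz
    rw [Finset.mem_filter] at hz
    obtain ⟨x, hx, y, hy, c, hc, w, hw, j, hj, rfl⟩ := va655_node hW hN o S hz.1
    rw [Finset.mem_image]
    refine ⟨(x, y, c, w, j), ?_, rfl⟩
    rw [Finset.mem_filter]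
    refine ⟨?_, hz.2⟩
    simp only [hI, Finset.mem_product, Finset.mem_range]
    exact ⟨hx, hy, hc, hw, hj⟩
  have hcard : ((((univ.filter fun k => k ≠ 0) ×ˢ cube n o S : Finset (Nd n N)).filter
      fun z => a z < 1 / 2).card : ℝ) ≤ ∑ p ∈ I, if a (F p) < 1 / 2 then (1 : ℝ) else 0 := by
    have h1 := (Finset.card_le_card hsub).trans Finset.card_image_le
    rw [Finset.sum_boole]
    exact_mod_cast h1
  refine hcard.trans ?_
  have hle : ∑ p ∈ I, (if a (F p) < 1 / 2 then (1 : ℝ) else 0) ≤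
      ∑ p ∈ I, (64 * (a (F p) - UU n N W o a p.1 p.2.1 p.2.2.1 p.2.2.2.1) ^ 2 +
        if UU n N W o a p.1 p.2.1 p.2.2.1 p.2.2.2.1 < 5 / 8 then 1 else 0) :=
    Finset.sum_le_sum fun p _ => va655_pt
  refine hle.trans (le_of_eq ?_)
  rw [hI, Finset.sum_product]
  simp only [Finset.sum_product]
  unfold cnt
  rw [Finset.mul_sum, Finset.mul_sum, ← Finset.sum_add_distrib]
  refine Finset.sum_congr rfl fun x _ => ?_
  rw [Finset.mul_sum, Finset.mul_sum, ← Finset.sum_add_distrib]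
  refine Finset.sum_congr rfl fun y _ => ?_
  rw [Finset.mul_sum, Finset.mul_sum, ← Finset.sum_add_distrib]
  refine Finset.sum_congr rfl fun z _ => ?_
  rw [Finset.mul_sum, Finset.mul_sum, ← Finset.sum_add_distrib]
  refine Finset.sum_congr rfl fun w _ => ?_
  rw [Finset.sum_add_distrib, Finset.mul_sum]
  congr 1
  by_cases h : UU n N W o a x y z w < 5 / 8
  · simp [h]
  · simp [h]

end Vale.Agent.P361.LRO.Ind
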