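import Vale.Agent.P361.LRO.Ind.LocalInst
import Vale.Agent.P361.LRO.Fam

/-!
P361 LRO: the physical network satisfies `Ind.Low` (block (3) → block (6)).
-/

namespace Vale.Agent.P361.LRO.Ind

open Finset Vale.Agent.P361.LRO _root_.P361.LRO

noncomputable section

theorem LBn_iff {n N : ℕ} [NeZero n] {β K : ℝ} {b : Finset (Tor n)} {h : Tor n → ℝ}
    {E G : Finset (Nd n N)} {A : ℝ} :
    LBn (physC n N β K b h) E G A ↔ LB (phys (edges n) β N) (th β N h (blk K b)) E G A := by
  unfold LBn LB physC
  constructor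
  · intro H a h1 h2; rw [← Net.netK_c0]; exact H a h1 h2
  · intro H a h1 h2; rw [Net.netK_c0]; exact H a h1 h2

theorem RBn_iff {n N : ℕ} [NeZero n] {β K : ℝ} {b : Finset (Tor n)} {h : Tor n → ℝ}
    {E : Finset (Nd n N)} {q : Nd n N → ℝ} {R : ℝ} :
    RBn (physC n N β K b h) E q R ↔ RB (phys (edges n) β N) (th β N h (blk K b)) E q R := by
  unfold RBn RB physC
  constructor
  · intro H a h1; rw [← Net.netK_c0]; exact H a h1
  · intro H a h1; rw [Net.netK_c0]; exact H a h1

/-- the path of node parameters is the path of profiles -/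
theorem path_th {V : Type} [Fintype V] [DecidableEq V] {β : ℝ} {N : ℕ} (hβ : 0 ≤ β)
    {h h' T : V → ℝ} (hT : ∀ x, 0 ≤ T x) {s : ℝ} (hs : 0 ≤ s) (z : Fin (N + 1) × V) :
    max (th β N h' T z) (Real.exp (-s) * th β N h T z) =
      th β N (fun x => max (h' x) (Real.exp (-s) * h x)) T z := by
  unfold th
  by_cases hz : z.1 = 0
  · rw [if_pos hz, if_pos hz, if_pos hz]
    apply max_eq_left
    have : Real.exp (-s) ≤ 1 := Real.exp_le_one_iff.2 (by linarith)
    have h2 := mul_le_mul_of_nonneg_right this (hT z.2)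
    linarith
  · rw [if_neg hz, if_neg hz, if_neg hz]
    have hc : 0 ≤ β / (2 * N) := by positivity
    have e1 : β * h' z.2 / (2 * N) = β / (2 * N) * h' z.2 := by ring
    have e2 : Real.exp (-s) * (β * h z.2 / (2 * N)) = β / (2 * N) * (Real.exp (-s) * h z.2) := by
      ring
    have e3 : β * max (h' z.2) (Real.exp (-s) * h z.2) / (2 * N) =
        β / (2 * N) * max (h' z.2) (Real.exp (-s) * h z.2) := by ring
    rw [e1, e2, e3, mul_max_of_nonneg _ _ hc]

theorem sum_layers {n N : ℕ} [NeZero n] (f : Tor n → ℝ) :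
    ∑ z : Nd n N, (if z.1 ≠ 0 then f z.2 else 0) = N * ∑ x, f x := by
  rw [Fintype.sum_prod_type, Fin.sum_univ_succ]
  simp only [ne_eq, not_true_eq_false, if_false, Finset.sum_const_zero, zero_add,
    Fin.succ_ne_zero, not_false_eq_true, if_true]
  rw [Finset.sum_const, Finset.card_univ, Fintype.card_fin, nsmul_eq_mul]

theorem low_inst {n N : ℕ} [NeZero n] {β K h0 lam ε : ℝ} (b : Finset (Tor n)) (hβ : 0 < β)
    (hN : β ≤ N) (hK : 0 ≤ K) (hh0 : 0 < h0) (hlam : 0 ≤ lam) (hε : 0 ≤ ε) (hε2 : ε ≤ 1 / 2)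
    (hgood : Net.Good (phys (edges n) β N))
    (hmag : ∀ g : Tor n → ℝ, Fam n h0 lam g → ∀ z : Nd n N, z.1 ≠ 0 →
      1 - ε ^ 2 ≤ mag (phys (edges n) β N) (th β N g (blk K b)) z) :
    Low n N β h0 lam ε (physC n N β K b) := by
  have hNp : (0:ℝ) < N := by linarith
  have hT : ∀ x, 0 ≤ blk K b x ∧ blk K b x ≤ 1 := blk_mem hK b
  have hp : 0 < β / (2 * N) := by positivity
  have thval : ∀ (g : Tor n → ℝ) (z : Nd n N), z.1 ≠ 0 →
      th β N g (blk K b) z = β / (2 * N) * g z.2 := by
    intro g z hz; unfold th; rw [if_neg hz]; ring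
  have th0 : ∀ (g : Tor n → ℝ) (z : Nd n N), z.1 = 0 →
      th β N g (blk K b) z = blk K b z.2 := by
    intro g z hz; unfold th; rw [if_pos hz]
  have thmem : ∀ (g : Tor n → ℝ), Fam n h0 lam g → ∀ z : Nd n N,
      0 ≤ th β N g (blk K b) z ∧ th β N g (blk K b) z ≤ 1 := by
    intro g hg z
    exact Loc.th_mem hβ.le hN (fun x => ⟨hh0.le.trans (hg.ge x), hg.le_one x⟩) hT z
  have thmono : ∀ (g g' : Tor n → ℝ), (∀ x, g' x ≤ g x) → ∀ z : Nd n N,
      th β N g' (blk K b) z ≤ th β N g (blk K b) z := by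
    intro g g' hle z
    by_cases hz : z.1 = 0
    · rw [th0 g z hz, th0 g' z hz]
    · rw [thval g z hz, thval g' z hz]
      exact mul_le_mul_of_nonneg_left (hle _) hp.le
  have thpos : ∀ (g : Tor n → ℝ), Fam n h0 lam g → ∀ z : Nd n N, z.1 ≠ 0 →
      0 < th β N g (blk K b) z := by
    intro g hg z hz
    rw [thval g z hz]; exact mul_pos hp (hh0.trans_le (hg.ge _))
  have thlt : ∀ (g g' : Tor n → ℝ) (z : Nd n N),
      th β N g' (blk K b) z < th β N g (blk K b) z → z.1 ≠ 0 ∧ g' z.2 < g z.2 := by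
    intro g g' z hlt
    have hz : z.1 ≠ 0 := by
      intro hz; rw [th0 g z hz, th0 g' z hz] at hlt; exact lt_irrefl _ hlt
    refine ⟨hz, ?_⟩
    rw [thval g z hz, thval g' z hz] at hlt
    exact lt_of_mul_lt_mul_left hlt hp.le
  have magpath : ∀ (g g' : Tor n → ℝ), Fam n h0 lam g → Fam n h0 lam g' → ∀ s : ℝ, 0 ≤ s →
      ∀ z : Nd n N, z.1 ≠ 0 → 1 - ε ^ 2 ≤ mag (phys (edges n) β N)
        (fun x => max (th β N g' (blk K b) x) (Real.exp (-s) * th β N g (blk K b) x)) z := by
    intro g g' hg hg' s hs z hz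
    have e : (fun x : Nd n N => max (th β N g' (blk K b) x)
        (Real.exp (-s) * th β N g (blk K b) x)) =
        th β N (fun x => max (g' x) (Real.exp (-s) * g x)) (blk K b) := by
      funext x; exact path_th hβ.le (fun x => (hT x).1) hs x
    rw [e]
    refine hmag _ ?_ z hz
    exact Fam.max_smul hg' hg.lip hg.le_one (fun x => hh0.le.trans (hg.ge x))
      (Real.exp_pos _).le (Real.exp_le_one_iff.2 (by linarith))
  refine ⟨?_, ?_⟩
  · intro h h' hh hh' hle E G hEG heq S hS hsum A hA hLB
    rw [LBn_iff] at hLB ⊢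
    have hSp : 0 < S := by
      by_contra hc; push Not at hc
      have : β * S ≤ 0 := mul_nonpos_of_nonneg_of_nonpos hβ.le hc
      linarith
    have heqθ : ∀ z ∈ E ∪ G, th β N h' (blk K b) z = th β N h (blk K b) z := by
      intro z hz
      by_cases hz0 : z.1 = 0
      · rw [th0 h z hz0, th0 h' z hz0]
      · rw [thval h z hz0, thval h' z hz0, heq z hz hz0]
    have hB : ∑ z : Nd n N, (if th β N h' (blk K b) z < th β N h (blk K b) z
        then th β N h (blk K b) z else 0) ≤ β / 2 * S := by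
      have h1 : ∑ z : Nd n N, (if th β N h' (blk K b) z < th β N h (blk K b) z
          then th β N h (blk K b) z else 0) ≤
          ∑ z : Nd n N, (if z.1 ≠ 0 then
            (β / (2 * N) * (if h' z.2 = h z.2 then 0 else h z.2)) else 0) := by
        refine Finset.sum_le_sum fun z _ => ?_
        by_cases hz : z.1 ≠ 0
        · rw [if_pos hz, thval h z hz, thval h' z hz]
          by_cases hlt : β / (2 * N) * h' z.2 < β / (2 * N) * h z.2
          · rw [if_pos hlt, if_neg (by intro he; rw [he] at hlt; exact lt_irrefl _ hlt)]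
          · rw [if_neg hlt]
            refine mul_nonneg hp.le ?_
            split_ifs
            · exact le_refl _
            · exact hh0.le.trans (hh.ge _)
        · push Not at hz
          rw [th0 h z hz, th0 h' z hz, if_neg (lt_irrefl _), if_neg (by simp [hz])]
      refine h1.trans ?_
      rw [sum_layers (fun x => β / (2 * N) * (if h' x = h x then 0 else h x)), ← Finset.mul_sum]
      calc (N:ℝ) * (β / (2 * N) * ∑ x, (if h' x = h x then 0 else h x))
          = β / 2 * ∑ x, (if h' x = h x then 0 else h x) := by field_simp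
        _ ≤ β / 2 * S := mul_le_mul_of_nonneg_left hsum (by positivity)
    have key := Net.LB_lower hgood (ε := ε) (S := Real.log (β * S)) (B := β / 2 * S) hε
      (fun z => (thmem h' hh' z).1) (thmono h h' hle) (fun z => (thmem h hh z).2)
      (fun z hz => heqθ z (Finset.mem_union_left _ hz))
      (fun z hz => heqθ z (Finset.mem_union_right _ hz)) hEG
      (fun z hz => thpos h' hh' z (thlt h h' z hz).1)
      (fun s hs z hz => magpath h h' hh hh' s hs z (thlt h h' z hz).1)
      (Real.log_nonneg hS) hB hLB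
    intro a h1 h2
    refine le_trans ?_ (key a h1 h2)
    have hβS : 0 < β * S := by positivity
    have e1 : Real.exp (-(4 * ε * Real.log (β * S))) = (β * S) ^ (-(4 * ε)) := by
      rw [Real.rpow_def_of_pos hβS]; congr 1; ring
    have e2 : Real.exp (-Real.log (β * S)) = (β * S)⁻¹ := by
      rw [Real.exp_neg, Real.exp_log hβS]
    rw [e1, e2]
    have e3 : 2 * ε * (β / 2 * S) * (β * S)⁻¹ = ε := by field_simp
    rw [e3]; linarith
  · intro hh0' hh01 h' hh' E q hE1 hqE hq0 hqn hq1 R hR hRB
    rw [RBn_iff] at hRB ⊢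
    have hone : Fam n h0 lam (fun _ => 1) := fam_const hh01 le_rfl (by norm_num) hlam
    have hle : ∀ x, h' x ≤ (fun _ => (1:ℝ)) x := fun x => hh'.le_one x
    have hEθ : ∀ z ∈ E, th β N h' (blk K b) z = th β N (fun _ => 1) (blk K b) z := by
      intro z hz
      by_cases hz0 : z.1 = 0
      · rw [th0 _ z hz0, th0 _ z hz0]
      · rw [thval _ z hz0, thval _ z hz0, hE1 z hz hz0]
    have hS0 : 0 ≤ Real.log (1 / h0) := by
      apply Real.log_nonneg; rw [le_div_iff₀ hh0]; linarith
    have hexpS : Real.exp (Real.log (1 / h0)) = 1 / h0 := Real.exp_log (by positivity)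
    have key := Net.ode_RB hgood (θ0 := th β N h' (blk K b)) (θ1 := th β N (fun _ => 1) (blk K b))
      (fun z => (thmem h' hh' z).1) (thmono _ h' hle) (fun z => (thmem _ hone z).2)
      hEθ hq1 (τ := 2 * ε) (by positivity)
      (fun s hs z hz => ⟨Net.sqrt_mag_le hε (magpath _ h' hone hh' s hs z (thlt _ h' z hz).1), by
        have := magpath _ h' hone hh' s hs z (thlt _ h' z hz).1
        nlinarith⟩) hR hRB hS0 (by
        intro z
        rw [hexpS]
        by_cases hz0 : z.1 = 0
        · rw [th0 _ z hz0, th0 _ z hz0]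
          have h1 : 1 ≤ 1 / h0 := by rw [le_div_iff₀ hh0]; linarith
          exact le_mul_of_one_le_left (hT _).1 h1
        · rw [thval _ z hz0, thval _ z hz0]
          have h2 := hh'.ge z.2
          have h3 : 1 ≤ h' z.2 / h0 := by rw [le_div_iff₀ hh0]; linarith
          calc β / (2 * N) * 1 ≤ β / (2 * N) * (h' z.2 / h0) :=
                mul_le_mul_of_nonneg_left h3 hp.le
            _ = 1 / h0 * (β / (2 * N) * h' z.2) := by ring)
    intro a h1
    refine (key a h1).trans ?_
    have hKK : 0 ≤ KK (phys (edges n) β N) (th β N h' (blk K b)) a := by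
      rw [← Net.netK_c0]
      apply P361.LRO.netK_nonneg
      intro u v
      unfold Net.c0
      split_ifs with huv
      · exact le_refl _
      · exact hgood.ccnn _ (thmem h' hh') u v huv
    refine mul_le_mul_of_nonneg_right ?_ hKK
    have e1 : Real.exp (2 * (2 * ε) * Real.log (1 / h0)) = h0 ^ (-(4 * ε)) := by
      rw [Real.rpow_def_of_pos hh0, one_div, Real.log_inv]; congr 1; ring
    rw [e1]
    refine mul_le_mul_of_nonneg_left ?_ (Real.rpow_nonneg hh0.le _)
    have hsumle : ∑ z ∈ univ.filter (fun z => th β N h' (blk K b) z <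
        th β N (fun _ => 1) (blk K b) z), q z ^ 2 / th β N (fun _ => 1) (blk K b) z ≤
        (2 * N / β) * ∑ z, (q z) ^ 2 := by
      rw [Finset.mul_sum, Finset.sum_filter]
      refine Finset.sum_le_sum fun z _ => ?_
      split_ifs with hz
      · rw [thval _ z (thlt _ h' z hz).1]
        apply le_of_eq
        field_simp
      · positivity
    have h3 : 0 ≤ ∑ z ∈ univ.filter (fun z => th β N h' (blk K b) z <
        th β N (fun _ => 1) (blk K b) z), q z ^ 2 / th β N (fun _ => 1) (blk K b) z :=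
      Finset.sum_nonneg fun z _ => div_nonneg (sq_nonneg _) (thmem _ hone z).1
    rw [hexpS]
    have h4 : 4 * (1 / h0 - 1) * ∑ z ∈ univ.filter (fun z => th β N h' (blk K b) z <
        th β N (fun _ => 1) (blk K b) z), q z ^ 2 / th β N (fun _ => 1) (blk K b) z ≤
        4 * (1 / h0) * ((2 * N / β) * ∑ z, (q z) ^ 2) := by
      refine mul_le_mul (by linarith) hsumle h3 (by positivity)
    have h5 : 4 * (1 / h0) * ((2 * N / β) * ∑ z, (q z) ^ 2) =
        8 * N / (β * h0) * ∑ z, (q z) ^ 2 := by field_simp; ring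
    linarith

end

end Vale.Agent.P361.LRO.Ind
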