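import Vale.Agent.P361.LRO.Ind.Defs
import Vale.Agent.P361.LRO.Loc.LowLoc
import Vale.Agent.P361.LRO.Net.Lower

/-!
P361 LRO: the physical network satisfies `Ind.Local` (block (4) → block (6)).
-/

namespace Vale.Agent.P361.LRO.Ind

open Finset Vale.Agent.P361.LRO _root_.P361.LRO

noncomputable section

/-- the physical network, zero on the diagonal -/
def physC (n N : ℕ) [NeZero n] (β K : ℝ) (b : Finset (Tor n)) (h : Tor n → ℝ) :
    Nd n N → Nd n N → ℝ :=
  Net.c0 (phys (edges n) β N) (th β N h (blk K b))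

theorem isLaw_phys' {V : Type} [Fintype V] [DecidableEq V] (L : List (V × V)) {β : ℝ}
    (hβ : 0 ≤ β) {N : ℕ} (hN : β ≤ N) : IsLaw (phys L β N) := by
  refine ⟨gates L N (β / (2 * N)), base N, ?_, rfl⟩
  intro g hg
  unfold gates at hg
  rw [List.mem_flatMap] at hg
  obtain ⟨k, _, hk⟩ := hg
  rw [List.mem_map] at hk
  obtain ⟨e, _, rfl⟩ := hk
  refine ⟨by positivity, ?_⟩
  by_cases hN0 : (N : ℝ) = 0
  · rw [hN0]; simp
  · have hNp : (0:ℝ) < N := lt_of_le_of_ne (Nat.cast_nonneg N) (Ne.symm hN0)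
    rw [div_le_div_iff₀ (by positivity) (by norm_num)]
    linarith

theorem deg_edges (n : ℕ) [NeZero n] (x : Tor n) :
    ((edges n).filter fun e => e.1 = x ∨ e.2 = x).length ≤ 6 := by
  unfold edges
  rw [List.filter_map, List.length_map]
  have h1 : (((Finset.univ : Finset (Tor n × Fin 3)).toList).filter
      ((fun e : Tor n × Tor n => decide (e.1 = x ∨ e.2 = x)) ∘
        fun z : Tor n × Fin 3 => (z.1, z.1 + Pi.single z.2 1))).length =
      ((Finset.univ : Finset (Tor n × Fin 3)).filter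
        fun z => z.1 = x ∨ z.1 + Pi.single z.2 1 = x).card := by
    rw [← Finset.length_toList]
    apply List.Perm.length_eq
    rw [List.perm_ext_iff_of_nodup ((Finset.nodup_toList _).filter _) (Finset.nodup_toList _)]
    intro z
    simp
  rw [h1]
  have h2 : ((Finset.univ : Finset (Tor n × Fin 3)).filter
      fun z => z.1 = x ∨ z.1 + Pi.single z.2 1 = x) ⊆
      ((Finset.univ : Finset (Fin 3)).image fun i => (x, i)) ∪
      ((Finset.univ : Finset (Fin 3)).image fun i => (x - Pi.single i 1, i)) := by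
    rintro ⟨y, i⟩ hy
    simp only [Finset.mem_filter, Finset.mem_univ, true_and] at hy
    simp only [Finset.mem_union, Finset.mem_image, Finset.mem_univ, true_and, Prod.mk.injEq]
    rcases hy with rfl | hy
    · exact Or.inl ⟨i, rfl, rfl⟩
    · refine Or.inr ⟨i, ?_, rfl⟩
      rw [← hy]; simp
  refine (Finset.card_le_card h2).trans ((Finset.card_union_le _ _).trans ?_)
  have h3 := Finset.card_image_le (s := (Finset.univ : Finset (Fin 3))) (f := fun i => (x, i))
  have h4 := Finset.card_image_le (s := (Finset.univ : Finset (Fin 3)))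
    (f := fun i => (x - Pi.single i 1, i))
  simp only [Finset.card_univ, Fintype.card_fin] at h3 h4
  omega

theorem mem_edges (n : ℕ) [NeZero n] (x : Tor n) (i : Fin 3) :
    (x, x + Pi.single i 1) ∈ edges n := by
  unfold edges
  rw [List.mem_map]
  exact ⟨(x, i), by simp, rfl⟩

theorem ne_add (n : ℕ) [NeZero n] (hn : 2 ≤ n) (x : Tor n) (i : Fin 3) :
    x ≠ x + Pi.single i 1 := by
  intro h
  have h1 := congrFun h i
  simp only [Pi.add_apply, Pi.single_eq_same] at h1
  have h2 : (1 : ZMod n) = 0 := by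
    have := congrArg (fun t => t - x i) h1
    simpa using this.symm
  have : Fact (1 < n) := ⟨by omega⟩
  exact one_ne_zero h2

theorem tanh_ge (y : ℝ) (h0 : 0 ≤ y) (h1 : y ≤ 1) : y / 2 ≤ Real.tanh y := by
  rw [Real.tanh_eq_sinh_div_cosh, div_le_div_iff₀ (by norm_num) (Real.cosh_pos y)]
  have h2 : y ≤ Real.sinh y := Real.self_le_sinh_iff.2 h0
  have h3 : Real.cosh y ≤ 2 := by
    have h4 : Real.cosh y ≤ Real.cosh 1 := by
      rw [Real.cosh_le_cosh, abs_of_nonneg h0, abs_of_nonneg (by norm_num)]; exact h1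
    have h5 : Real.cosh 1 ≤ 2 := by
      rw [Real.cosh_eq]
      have := Real.exp_one_lt_d9
      have h6 : Real.exp (-1) ≤ 1 := by
        rw [Real.exp_le_one_iff]; norm_num
      linarith
    linarith
  nlinarith [Real.cosh_pos y]

theorem blk_mem {V : Type} [Fintype V] [DecidableEq V] {K : ℝ} (hK : 0 ≤ K) (b : Finset V)
    (x : V) : 0 ≤ blk K b x ∧ blk K b x ≤ 1 := by
  unfold blk
  split_ifs
  · have h0 : 0 ≤ K / (2 * b.card) := by positivity
    refine ⟨?_, (Real.tanh_lt_one _).le⟩
    rw [Real.tanh_eq_sinh_div_cosh]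
    exact div_nonneg (Real.sinh_nonneg_iff.2 h0) (Real.cosh_pos _).le
  · norm_num

theorem local_inst
    (hS : ∀ (V : Type) [Fintype V] [DecidableEq V] (L : List (V × V)), Loc.LocSame V L 6)
    (hNN : ∀ (V : Type) [Fintype V] [DecidableEq V] (L : List (V × V)), Loc.LocNN V L 6)
    (hNet : Loc.NetStmt) :
    ∃ c1 : ℝ, 0 < c1 ∧ ∀ (n N W m : ℕ) [NeZero n] (β K : ℝ) (b : Finset (Tor n))
      (h : Tor n → ℝ), 2 ≤ n → 1 ≤ β → 8 * β ≤ N → 0 < W → N = m * W → Win β m →
      0 < K → K ≤ b.card → (∀ x, 0 ≤ h x ∧ h x ≤ 1) →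
      Local n N W β K c1 b h (physC n N β K b h) := by
  obtain ⟨c0, hc0, hloc⟩ := Loc.loc_of hS hNN
  refine ⟨c0 / 16, by positivity, ?_⟩
  intro n N W m _ β K b h hn hβ hN hW hNm hwin hK hKb hh
  have hβ0 : (0:ℝ) < β := by linarith
  have hNp : (0:ℝ) < N := by linarith
  have hβN : β ≤ N := by linarith
  have hT : ∀ x, 0 ≤ blk K b x ∧ blk K b x ≤ 1 := blk_mem hK.le b
  have hlaw := isLaw_phys' (edges n) hβ0.le hβN
  have hθ := fun z => Loc.th_mem (h := h) (T := blk K b) hβ0.le hβN hh hT z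
  obtain ⟨hZ, hccn, hccs, hsum, hKK, hvv⟩ := hNet _ _ hlaw _ hθ
  obtain ⟨l1, l2, l3⟩ := hloc (edges n) (deg_edges n) β hβ N hN h (blk K b) hh hT
  have hmW : (N : ℝ) = m * W := by rw [hNm]; push_cast; ring
  have hWp : (0:ℝ) < W := by exact_mod_cast hW
  have hmp : (0:ℝ) < m := by exact_mod_cast hwin.pos
  have hWβ : (W:ℝ) * β / N = β / m := by rw [hmW]; field_simp
  refine ⟨?_, ?_, ?_, ?_, ?_, ?_⟩
  · intro u v
    unfold physC Net.c0
    by_cases huv : u = v
    · rw [if_pos huv, if_pos huv.symm]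
    · rw [if_neg huv, if_neg (Ne.symm huv), hccs]
  · intro u v
    unfold physC Net.c0
    by_cases huv : u = v
    · rw [if_pos huv]
    · rw [if_neg huv]; exact hccn u v huv
  · intro k x hk
    have h1 : ∑ v, physC n N β K b h (k, x) v =
        ∑ v ∈ univ.erase (k, x), cc (phys (edges n) β N) (th β N h (blk K b)) (k, x) v := by
      unfold physC Net.c0
      rw [← Finset.add_sum_erase Finset.univ _ (Finset.mem_univ (k, x))]
      rw [if_pos rfl, zero_add]
      refine Finset.sum_congr rfl fun v hv => ?_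
      rw [if_neg (Ne.symm (Finset.ne_of_mem_erase hv))]
    rw [h1, hsum]
    refine (hvv _).trans ?_
    unfold th; rw [if_neg hk]
  · intro k l x hk hkl hl hx
    have hk0 : 0 < k := Fin.pos_of_ne_zero hk
    have hne : (k, x) ≠ (l, x) := fun h => (ne_of_lt hkl) (congrArg Prod.fst h)
    unfold physC Net.c0; rw [if_neg hne]
    have hd : ((l : ℝ) - (k : ℝ)) * β / N ≤ 1 := by
      have h2 : ((l : ℝ) - (k : ℝ)) ≤ 3 * W := by
        have : ((l : ℕ) : ℝ) ≤ ((k : ℕ) + 3 * W : ℕ) := by exact_mod_cast hl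
        push_cast at this; linarith
      calc ((l : ℝ) - (k : ℝ)) * β / N ≤ (3 * W) * β / N := by
            apply div_le_div_of_nonneg_right _ hNp.le
            exact mul_le_mul_of_nonneg_right h2 hβ0.le
        _ = 3 * (W * β / N) := by ring
        _ ≤ 1 := by rw [hWβ]; have := hwin.hi; linarith
    have h1 := l1 k l x hk0 hkl hd
    rw [hx] at h1
    refine le_trans ?_ h1
    have : c0 * (β * 1 / (2 * N)) ^ 2 = c0 / 4 * (β / N) ^ 2 := by field_simp; ring
    rw [this]
    have h5 : 0 ≤ c0 * (β / N) ^ 2 := by positivity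
    nlinarith
  · intro k l x i hk hl hkl h3 h4 hx hx'
    have hk0 : 0 < k := Fin.pos_of_ne_zero hk
    have hl0 : 0 < l := Fin.pos_of_ne_zero hl
    have hxne := ne_add n hn x i
    have hne : (k, x) ≠ (l, x + Pi.single i 1) := fun h => hxne (congrArg Prod.snd h)
    unfold physC Net.c0; rw [if_neg hne]
    have hfin : c0 / 16 * (β / N) ^ 2 ≤ c0 * (β * 1 / (2 * N)) * (β * 1 / (2 * N)) := by
      have : c0 * (β * 1 / (2 * N)) * (β * 1 / (2 * N)) = c0 / 4 * (β / N) ^ 2 := by
        field_simp; ring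
      rw [this]
      have h5 : 0 ≤ c0 * (β / N) ^ 2 := by positivity
      nlinarith
    have upper : ∀ k l : Fin (N + 1), (l : ℕ) ≤ k + 3 * W → ((l : ℝ) - (k : ℝ)) * β / N ≤ 1 := by
      intro k l hl
      have h2 : ((l : ℝ) - (k : ℝ)) ≤ 3 * W := by
        have : ((l : ℕ) : ℝ) ≤ ((k : ℕ) + 3 * W : ℕ) := by exact_mod_cast hl
        push_cast at this; linarith
      calc ((l : ℝ) - (k : ℝ)) * β / N ≤ (3 * W) * β / N := by
            apply div_le_div_of_nonneg_right _ hNp.le
            exact mul_le_mul_of_nonneg_right h2 hβ0.le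
        _ = 3 * (W * β / N) := by ring
        _ ≤ 1 := by rw [hWβ]; have := hwin.hi; linarith
    have lower : ∀ k l : Fin (N + 1), (k : ℕ) + W ≤ l → 1 / 4 ≤ ((l : ℝ) - (k : ℝ)) * β / N := by
      intro k l hl
      have h2 : (W : ℝ) ≤ ((l : ℝ) - (k : ℝ)) := by
        have : (((k : ℕ) + W : ℕ) : ℝ) ≤ ((l : ℕ) : ℝ) := by exact_mod_cast hl
        push_cast at this; linarith
      calc (1:ℝ) / 4 ≤ W * β / N := by rw [hWβ]; exact hwin.lo
        _ ≤ _ := by
            apply div_le_div_of_nonneg_right _ hNp.le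
            exact mul_le_mul_of_nonneg_right h2 hβ0.le
    rcases hkl with hkl | hkl
    · have hlt : k < l := by
        rw [Fin.lt_def]; omega
      have h1 := l2 k l x (x + Pi.single i 1) hk0 hlt (lower k l hkl) (upper k l h3)
        (Or.inl (mem_edges n x i)) hxne
      rw [hx, hx'] at h1
      exact hfin.trans h1
    · have hlt : l < k := by
        rw [Fin.lt_def]; omega
      have h1 := l2 l k (x + Pi.single i 1) x hl0 hlt (lower l k hkl) (upper l k h4)
        (Or.inr (mem_edges n x i)) (Ne.symm hxne)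
      rw [hx, hx'] at h1
      rw [hccs]
      exact hfin.trans h1
  · intro k x hk hkW hxb hx
    have hk0 : 0 < k := Fin.pos_of_ne_zero hk
    have hne : ((0 : Fin (N + 1)), x) ≠ (k, x) := fun h => hk (congrArg Prod.fst h).symm
    unfold physC Net.c0; rw [if_neg hne]
    have hd : (k : ℝ) * β / N ≤ 1 := by
      have h2 : (k : ℝ) ≤ W := by exact_mod_cast hkW
      calc (k : ℝ) * β / N ≤ W * β / N := by
            apply div_le_div_of_nonneg_right _ hNp.le
            exact mul_le_mul_of_nonneg_right h2 hβ0.le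
        _ ≤ 1 := by rw [hWβ]; have := hwin.hi; linarith
    have h1 := l3 k x hk0 hd
    rw [hx] at h1
    refine le_trans ?_ h1
    have hbp : (0:ℝ) < b.card := by
      have : 0 < b.card := Finset.card_pos.2 ⟨x, hxb⟩
      exact_mod_cast this
    have ht : K / b.card / 4 ≤ blk K b x := by
      unfold blk; rw [if_pos hxb]
      have h6 : K / (2 * b.card) ≤ 1 := by
        rw [div_le_one (by positivity)]; linarith
      have := tanh_ge (K / (2 * b.card)) (by positivity) h6
      refine le_trans ?_ this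
      apply le_of_eq; field_simp; ring
    have h7 : c0 * (K / b.card / 4) * (β * 1 / (2 * N)) ≤ c0 * blk K b x * (β * 1 / (2 * N)) := by
      have : 0 ≤ β * 1 / (2 * N) := by positivity
      exact mul_le_mul_of_nonneg_right (mul_le_mul_of_nonneg_left ht hc0.le) this
    refine le_trans ?_ h7
    have : c0 * (K / b.card / 4) * (β * 1 / (2 * N)) = 2 * (c0 / 16 * (K / b.card) * (β / N)) := by
      field_simp; ring
    rw [this]
    have h8 : 0 ≤ c0 / 16 * (K / b.card) * (β / N) := by positivity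
    linarith

end

end Vale.Agent.P361.LRO.Ind
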