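import Vale.Agent.P361.LRO.Ind.Defs

/-!
P361 LRO, block (6), energy form of the local input: used for all spins.  The copies of a layer are
slots of the layer, and the same-site conductances are not needed.
-/

namespace Vale.Agent.P361.LRO.Ind

open Finset Vale.Agent.P361.LRO _root_.P361.LRO

noncomputable section

/-- Local information on the network, energy form (the conclusions of `E4_le`, `dev_le`,
`contact_le`). -/
structure LocalE (n N W m : ℕ) [NeZero n] (β K c1 : ℝ) (b : Finset (Tor n)) (h : Tor n → ℝ)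
    (c : Nd n N → Nd n N → ℝ) : Prop where
  symm : ∀ u v, c u v = c v u
  nonneg : ∀ u v, 0 ≤ c u v
  tot : ∀ (k : Fin (N + 1)) (x : Tor n), k ≠ 0 → ∑ v, c (k, x) v ≤ β * h x / (2 * N)
  e4 : ∀ (o : Tor n) (S : ℕ), 2 ≤ S → S < n → (∀ x ∈ cube n o S, h x = 1) → ∀ a : Nd n N → ℝ,
    c1 * (β / m) ^ 2 * E4 S m (UU n N W o a) ≤ 100 * netK c a
  dev : ∀ (o : Tor n) (S : ℕ), 2 ≤ S → S < n → (∀ x ∈ cube n o S, h x = 1) → ∀ a : Nd n N → ℝ,
    c1 * (β / m) * (β / N) * (∑ x ∈ range S, ∑ y ∈ range S, ∑ z ∈ range S, ∑ w ∈ range m,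
      ∑ j ∈ range W, (a (lay N W w j, pt n o x y z) - UU n N W o a x y z w) ^ 2) ≤ netK c a
  contact : b.Nonempty → (∀ x ∈ b, h x = 1) → ∀ a : Nd n N → ℝ, (∀ x ∈ b, a (0, x) = 1) →
    c1 * K * (β / N) * (1 / b.card) * (∑ x ∈ b, ∑ j ∈ range W, (1 - a (lay N W 0 j, x)) ^ 2)
      ≤ netK c a

/-- Local information without same-site conductances. -/
structure LocalN (n N W : ℕ) [NeZero n] (β K c1 : ℝ) (b : Finset (Tor n)) (h : Tor n → ℝ)
    (c : Nd n N → Nd n N → ℝ) : Prop where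
  symm : ∀ u v, c u v = c v u
  nonneg : ∀ u v, 0 ≤ c u v
  tot : ∀ (k : Fin (N + 1)) (x : Tor n), k ≠ 0 → ∑ v, c (k, x) v ≤ β * h x / (2 * N)
  nbr : ∀ (k l : Fin (N + 1)) (x : Tor n) (i : Fin 3), k ≠ 0 → l ≠ 0 →
    ((k : ℕ) + W ≤ l ∨ (l : ℕ) + W ≤ k) → (l : ℕ) ≤ k + 3 * W → (k : ℕ) ≤ l + 3 * W →
    h x = 1 → h (x + Pi.single i 1) = 1 →
    c1 * (β / N) ^ 2 ≤ c (k, x) (l, x + Pi.single i 1)
  contact : ∀ (k : Fin (N + 1)) (x : Tor n), k ≠ 0 → (k : ℕ) ≤ W → x ∈ b → h x = 1 →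
    c1 * (K / b.card) * (β / N) ≤ c (0, x) (k, x)

end

end Vale.Agent.P361.LRO.Ind
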