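import Vale.Agent.P361.LRO.Ind.StepLast
import Vale.Agent.P361.LRO.Ind.LocalE

/-!
# P361 LRO, block (6), energy form (all spins): last step
-/

namespace Vale.Agent.P361.LRO.Ind

open Finset Vale.Agent.P361.LRO _root_.P361.LRO

/-- the cost of the modified nodes -/
lemma sl_costE {n N W m : ℕ} [NeZero n] {β K c1 : ℝ} {b' b : Finset (Tor n)} {h : Tor n → ℝ}
    {c : Nd n N → Nd n N → ℝ} (hloc : LocalE n N W m β K c1 b' h c) (o : Tor n) (S : ℕ)
    (hh : ∀ x ∈ cube n o S, h x = 1) (u : Nd n N → ℝ) :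
    ∑ z ∈ ((EE6 n N o b S) \ (hatb N b)).filter (fun z => u z < 1 / 2), ∑ v, c z v ≤
      ((((univ.filter fun k => k ≠ 0) ×ˢ cube n o S : Finset (Nd n N)).filter
        fun z => u z < 1 / 2).card : ℝ) * (β / (2 * N)) := by
  have hsub : ((EE6 n N o b S) \ (hatb N b)).filter (fun z => u z < 1 / 2) ⊆
      (((univ.filter fun k => k ≠ 0) ×ˢ cube n o S : Finset (Nd n N)).filter
        fun z => u z < 1 / 2) := by
    intro z hz
    rw [Finset.mem_filter, Finset.mem_sdiff, EE6, Finset.mem_union] at hz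
    rw [Finset.mem_filter]
    exact ⟨hz.1.1.resolve_left hz.1.2, hz.2⟩
  have hnn : ∀ z : Nd n N, 0 ≤ ∑ v, c z v := fun z => Finset.sum_nonneg fun v _ => hloc.nonneg z v
  refine (Finset.sum_le_sum_of_subset_of_nonneg hsub fun z _ _ => hnn z).trans ?_
  rw [← nsmul_eq_mul]
  refine Finset.sum_le_card_nsmul _ _ _ fun z hz => ?_
  rw [Finset.mem_filter, Finset.mem_product, Finset.mem_filter] at hz
  have h1 := hloc.tot z.1 z.2 hz.1.1.2
  refine h1.trans ?_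
  rw [hh z.2 hz.1.2, mul_one]

/-- (6c), before lowering. -/
theorem step_lastE (c1 : ℝ) (hc1 : 0 < c1) : ∃ C : ℝ, 0 < C ∧ ∀ (n N W m : ℕ) [NeZero n]
    (β K : ℝ) (o : Tor n) (a : ℕ) (h : Tor n → ℝ) (c : Nd n N → Nd n N → ℝ)
    (s : ℕ) (G : Finset (Nd n N)) (A : ℝ),
    10 ≤ β → 0 < W → N = m * W → Win β m → 0 < s → a ≤ s → 3 ^ s < n → (3 : ℝ) ^ a ≤ β →
    0 < K → K * β ≤ 27 ^ a →
    (∀ x, h x ≤ 1) → (∀ x ∈ cube n o (3 ^ s), h x = 1) →
    LocalE n N W m β K c1 (cube n o (3 ^ a)) h c →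
    Disjoint (EE6 n N o (cube n o (3 ^ a)) (3 ^ s)) G →
    LBn c (EE6 n N o (cube n o (3 ^ a)) (3 ^ s)) G A →
    C * β ^ 2 * K ≤ A → C * K ^ 3 ≤ A * β ^ 2 →
    LBn c (hatb N (cube n o (3 ^ a))) G (K / C) := by
  obtain ⟨Cs, hCs, hstart⟩ := start3
  obtain ⟨Cc, hCc, hchain⟩ := chain3
  obtain ⟨P, hP⟩ : ∃ P : ℝ, P = 4 + 128 / c1 + 5000 * Cc / c1 := ⟨_, rfl⟩
  obtain ⟨Q, hQ⟩ : ∃ Q : ℝ, Q = Cc * (1600 / c1) ^ 3 := ⟨_, rfl⟩
  have hP0 : 0 < P := by rw [hP]; positivity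
  have hQ0 : 0 < Q := by rw [hQ]; positivity
  obtain ⟨C, hC⟩ : ∃ C : ℝ, C = 1 + 2 * P + 2 * Q + 6400 * Cs / c1 + 1600 * Cc / c1 := ⟨_, rfl⟩
  have q1 : 0 < 6400 * Cs / c1 := by positivity
  have q2 : 0 < 1600 * Cc / c1 := by positivity
  have hC1 : 1 ≤ C := by rw [hC]; linarith
  have hCP : 2 * P < C := by rw [hC]; linarith
  have hCQ : 2 * Q ≤ C := by rw [hC]; linarith
  have hCs' : 6400 * Cs ≤ c1 * C := by
    have : 6400 * Cs / c1 ≤ C := by rw [hC]; linarith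
    rw [div_le_iff₀ hc1] at this
    linarith
  have hCc' : 1600 * Cc ≤ c1 * C := by
    have : 1600 * Cc / c1 ≤ C := by rw [hC]; linarith
    rw [div_le_iff₀ hc1] at this
    linarith
  have hC0 : 0 < C := by linarith
  refine ⟨C, hC0, ?_⟩
  intro n N W m _ β K o a h c s G A hβ hW hN hwin hs0 has hsn h3a hK hKβ hh1 hh hloc hdis hLB hA1 hA2
  refine LBn_of_trunc hloc.nonneg fun u hu huE huG => ?_
  by_contra hcon
  rw [not_le] at hcon
  obtain ⟨κ, hκ⟩ : ∃ κ : ℝ, κ = netK c u := ⟨_, rfl⟩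
  rw [← hκ] at hcon
  have hκ0 : 0 ≤ κ := by rw [hκ]; exact netK_nonneg hloc.nonneg u
  have hκC : κ * C < K := by rwa [lt_div_iff₀ hC0] at hcon
  have hκK : κ ≤ K := (le_mul_of_one_le_right hκ0 hC1).trans hκC.le
  have hβ0 : 0 < β := by linarith
  have hm0 : (0 : ℝ) < m := Nat.cast_pos.2 hwin.pos
  have hm1 : 3 * β ≤ m := by
    have := hwin.hi
    rw [div_le_iff₀ hm0] at this
    linarith
  have hm2 : (m : ℝ) ≤ 4 * β := by
    have := hwin.lo
    rw [le_div_iff₀ hm0] at this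
    linarith
  have hm4 : 4 ≤ m := by
    have : (4 : ℝ) ≤ m := by linarith
    exact_mod_cast this
  have hW0 : (0 : ℝ) < W := Nat.cast_pos.2 hW
  have hNR : (N : ℝ) = m * W := by rw [hN]; push_cast; ring
  have hN0 : (0 : ℝ) < N := by rw [hNR]; positivity
  have h3sn : 3 ^ a ≤ n := (Nat.pow_le_pow_right (by norm_num) has).trans hsn.le
  -- the cube `b`
  have hbs : ∀ x ∈ cube n o (3 ^ a), h x = 1 := fun x hx =>
    hh x (sl_cube_mono o (Nat.pow_le_pow_right (by norm_num) has) hx)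
  have hcb : (cube n o (3 ^ a)).card = 27 ^ a := by
    rw [card_cube o _ h3sn, ← pow_mul, mul_comm a 3, pow_mul]
    norm_num
  have hcbR : ((cube n o (3 ^ a)).card : ℝ) = 27 ^ a := by rw [hcb]; push_cast; ring
  have h27 : (0 : ℝ) < 27 ^ a := by positivity
  have hbne : (cube n o (3 ^ a)).Nonempty := by
    rw [← Finset.card_pos, hcb]
    positivity
  have h2s : 2 ≤ 3 ^ s := le_trans (by norm_num : 2 ≤ 3 ^ 1) (Nat.pow_le_pow_right (by norm_num) hs0)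
  -- energy
  obtain ⟨E, hEdef⟩ : ∃ E : ℝ, E = E4 (3 ^ s) m (UU n N W o u) := ⟨_, rfl⟩
  have hE0 : 0 ≤ E := by rw [hEdef]; exact sl_E4_nonneg _ _ _
  have hE : c1 * E ≤ 1600 * κ := by
    have h1 := hloc.e4 o (3 ^ s) h2s hsn hh u
    rw [← hEdef, ← hκ] at h1
    have h2 : (1 / 16 : ℝ) ≤ (β / m) ^ 2 := by
      have := hwin.lo
      nlinarith
    have h3 : c1 * (1 / 16) * E ≤ c1 * (β / m) ^ 2 * E :=
      mul_le_mul_of_nonneg_right (mul_le_mul_of_nonneg_left h2 hc1.le) hE0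
    linarith
  -- contact
  have huE' : ∀ x ∈ cube n o (3 ^ a), u (0, x) = 1 := by
    intro x hx
    refine huE _ ?_
    rw [hatb, Finset.mem_product]
    exact ⟨Finset.mem_singleton_self _, hx⟩
  have hcont := hloc.contact hbne hbs u huE'
  rw [← hκ, hcbR] at hcont
  obtain ⟨Dc, hDc⟩ : ∃ Dc : ℝ, Dc = ∑ x ∈ cube n o (3 ^ a), ∑ j ∈ range W,
    (1 - u (lay N W 0 j, x)) ^ 2 := ⟨_, rfl⟩
  have hsg := sl_win (N := N) hW o (3 ^ a) h3sn u
  rw [← hDc] at hcont hsg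
  have hDc0 : 0 ≤ Dc := by
    rw [hDc]
    exact Finset.sum_nonneg fun x _ => Finset.sum_nonneg fun j _ => sq_nonneg _
  have hcont2 : c1 * K * (Dc / W) ≤ 4 * κ * 27 ^ a := by
    rw [sl_eq1 hNR hm0 hW0 h27, div_le_iff₀ h27] at hcont
    have h2 : c1 * K * (Dc / W) * (1 / 4) ≤ c1 * K * (Dc / W) * (β / m) :=
      mul_le_mul_of_nonneg_left hwin.lo (by positivity)
    linarith
  have hst1 := sl_st1 hCs hc1 hK hκ0 h27 hκC hsg hcont2 hCs'
  have hst2 := sl_st2 hCs hc1 hκ0 hβ0 hκC hCs' hm2 hm0 hE hKβ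
  rw [hEdef] at hst2
  have hmean := hstart a s m hwin.pos has _ hst1 hst2
  have hch1 := (sl_ch hCc hc1 hκ0 hκC hCc' hE).trans (sl_Km a hβ0 h3a hKβ (by linarith : β ≤ m))
  rw [hEdef] at hch1
  have hcnt := hchain a s m hwin.pos has _ hmean hch1
  rw [← hEdef] at hcnt
  -- deviation
  obtain ⟨Dv, hDv⟩ : ∃ Dv : ℝ, Dv = ∑ x ∈ range (3 ^ s), ∑ y ∈ range (3 ^ s), ∑ z ∈ range (3 ^ s),
      ∑ w ∈ range m, ∑ j ∈ range W, (u (lay N W w j, pt n o x y z) - UU n N W o u x y z w) ^ 2 :=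
    ⟨_, rfl⟩
  have hDv0 : 0 ≤ Dv := by
    rw [hDv]
    exact Finset.sum_nonneg fun x _ => Finset.sum_nonneg fun y _ => Finset.sum_nonneg fun z _ =>
      Finset.sum_nonneg fun w _ => Finset.sum_nonneg fun j _ => sq_nonneg _
  have hdev := hloc.dev o (3 ^ s) h2s hsn hh u
  have hlow := card_low_le hW hwin.pos hN o (3 ^ s) hsn.le u
  rw [← hDv] at hdev hlow
  rw [← hκ] at hdev
  have hdev2 : c1 * (β / N * Dv) ≤ 4 * κ := by
    have h1 : c1 * (1 / 4) * (β / N) * Dv ≤ c1 * (β / m) * (β / N) * Dv := by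
      refine mul_le_mul_of_nonneg_right ?_ hDv0
      refine mul_le_mul_of_nonneg_right ?_ (by positivity)
      exact mul_le_mul_of_nonneg_left hwin.lo hc1.le
    linarith
  obtain ⟨cn, hcn⟩ : ∃ cn : ℝ, cn = cnt (3 ^ s) m (5 / 8) (UU n N W o u) := ⟨_, rfl⟩
  rw [← hcn] at hcnt hlow
  have hcnt0 : 0 ≤ cn := by
    rw [hcn]
    unfold cnt
    exact Finset.sum_nonneg fun x _ => Finset.sum_nonneg fun y _ => Finset.sum_nonneg fun z _ =>
      Finset.sum_nonneg fun w _ => by split_ifs <;> norm_num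
  -- test function
  have htest := test_le hloc.symm hloc.nonneg hLB hdis (fun x => (hu x).1) huE huG
  rw [← hκ] at htest
  have hsum := sl_costE (b := cube n o (3 ^ a)) hloc o (3 ^ s) hh u
  obtain ⟨M, hM⟩ : ∃ M : ℝ, M = ((((univ.filter fun k => k ≠ 0) ×ˢ cube n o (3 ^ s) :
    Finset (Nd n N)).filter fun z => u z < 1 / 2).card : ℝ) := ⟨_, rfl⟩
  rw [← hM] at hlow hsum
  have hfin : A ≤ 4 * κ + (32 * (β / N * Dv) + β / (2 * m) * cn) := by
    have e1 := htest.trans (add_le_add_right hsum (4 * κ))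
    have e2 : M * (β / (2 * N)) ≤ (64 * Dv + W * cn) * (β / (2 * N)) :=
      mul_le_mul_of_nonneg_right hlow (by positivity)
    rw [sl_eq2 hNR hm0 hW0] at e2
    linarith
  have hvol := sl_vol (by linarith : (1 : ℝ) ≤ β) hκ0 hc1 hCc hm1 hm2 hE0 hE hdev2 hcnt hfin hcnt0
  rw [← hP, ← hQ] at hvol
  exact sl_num hβ0 hK hκ0 hκK hP0.le hQ0.le hCP hCQ hA1 hA2 hvol

end Vale.Agent.P361.LRO.Ind
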