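import Vale.Agent.P361.LRO.Ind.LadLast
import Vale.Agent.P361.LRO.Ind.StepLastE
import Vale.Agent.P361.LRO.Ind.LowE

/-!
# P361 LRO, block (6), energy form (all spins): last rung
-/

namespace Vale.Agent.P361.LRO.Ind

open Finset Vale.Agent.P361.LRO _root_.P361.LRO

/-- The last rung. -/
theorem lad_lastE (c1 : ℝ) (hc1 : 0 < c1) : ∃ β0 c3 c4 : ℝ, 10 ≤ β0 ∧ 0 < c3 ∧ 0 < c4 ∧
    ∀ (n N W m : ℕ) [NeZero n]
    (β K h0 lam ε : ℝ) (o : Tor n) (a : ℕ) (h : Tor n → ℝ)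
    (c : (Tor n → ℝ) → Nd n N → Nd n N → ℝ) (r S : ℕ),
    β0 ≤ β → 0 < W → N = m * W → Win β m → r ≤ S → 8 * 3 ^ S < n →
    (3 : ℝ) ^ a ≤ β → 1 ≤ K → K * β ≤ 27 ^ a →
    0 < h0 → h0 ≤ 1 → 1 / β ≤ lam → 0 ≤ ε → ε * Real.log β ≤ c4 →
    β ^ 10 ≤ (3 : ℝ) ^ r → (3 : ℝ) ^ r ≤ 3 * β ^ 10 → h0⁻¹ ≤ ((3 : ℝ) ^ S) ^ (5 / 2 : ℝ) →
    (∀ g, Fam n h0 lam g → LocalE n N W m β K c1 (cube n o (3 ^ a)) g (c g)) →
    LowE n N (cube n o (3 ^ a)) β h0 lam ε c →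
    Fam n h0 lam h →
    LBn (c (HH n lam o (3 ^ r) h)) (EE6 n N o (cube n o (3 ^ a)) (3 ^ r)) (GG6 n N o (3 ^ S))
      (β * ((3 : ℝ) ^ r) ^ (1 / 3 : ℝ)) →
    LBn (c h) (hatb N (cube n o (3 ^ a))) (GG6 n N o (3 ^ S)) (c3 * K) := by
  obtain ⟨C, hC, hstep⟩ := step_lastE c1 hc1
  obtain ⟨β1, hβ1, hground⟩ := num_ground
  refine ⟨max β1 (C ^ 3), 1 / (4 * C), min (1 / 280) (1 / (8 * C)), hβ1.trans (le_max_left _ _),
    by positivity, by positivity, ?_⟩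
  intro n N W m _ β K h0 lam ε o a h c r S hβ hW hN hwin hrS hSn ha hK hKa hh0 hh01 hlam hε hεβ
    hr hr' hS hloc hlow hfam hLB
  have hβ1' : β1 ≤ β := (le_max_left _ _).trans hβ
  have hβC : C ^ 3 ≤ β := (le_max_right _ _).trans hβ
  have hβ10 : 10 ≤ β := hβ1.trans hβ1'
  have hβ0 : 0 < β := by linarith
  have hlam0 : 0 < lam := lt_of_lt_of_le (by positivity) hlam
  have hK0 : 0 < K := by linarith
  have h3rS : (3 : ℕ) ^ r ≤ 3 ^ S := Nat.pow_le_pow_right (by norm_num) hrS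
  have h3rn : (3 : ℕ) ^ r < n := by
    have : (3 : ℕ) ^ S ≤ 8 * 3 ^ S := by omega
    omega
  have har : a ≤ r := by
    have h1 : (3 : ℝ) ^ a ≤ 3 ^ r := by
      calc (3 : ℝ) ^ a ≤ β := ha
        _ = β ^ 1 := (pow_one β).symm
        _ ≤ β ^ 10 := pow_le_pow_right₀ (by linarith) (by norm_num)
        _ ≤ _ := hr
    exact (pow_le_pow_iff_right₀ (by norm_num)).1 h1
  have hr0 : 0 < r := by
    rcases Nat.eq_zero_or_pos r with h0' | h0'
    · exfalso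
      rw [h0', pow_zero] at hr
      have h1 : (10 : ℝ) ^ 10 ≤ β ^ 10 := pow_le_pow_left₀ (by norm_num) hβ10 10
      norm_num at h1
      linarith
    · exact h0'
  have hfamH : Fam n h0 lam (HH n lam o (3 ^ r) h) := Fam_HH hlam0.le o (by positivity) hfam
  obtain ⟨hA1, hA2⟩ := ladlast_num_a hC hβ10 hβC ha hK hKa hr
  have hstep1 := hstep n N W m β K o a (HH n lam o (3 ^ r) h) (c (HH n lam o (3 ^ r) h)) r
    (GG6 n N o (3 ^ S)) (β * ((3 : ℝ) ^ r) ^ (1 / 3 : ℝ)) hβ10 hW hN hwin hr0 har h3rn ha hK0 hKa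
    (fun x => (hfamH.1 x).2) (fun x hx => HH_one hlam0.le o h3rn.le hfam hx) (hloc _ hfamH)
    (disj_EG o _ h3rS hSn.le) hLB hA1 hA2
  have hβS : β ^ 10 ≤ (3 : ℝ) ^ S := hr.trans (pow_le_pow_right₀ (by norm_num) hrS)
  have hsm := hground β h0 lam S hβ1' hh0 hlam hβS hS
  have hlow1 := hlow.prim (HH n lam o (3 ^ r) h) h hfamH hfam (fun x => le_max_left _ _)
    (hatb N (cube n o (3 ^ a))) (GG6 n N o (3 ^ S)) (disj_hat o _ _) (Finset.Subset.refl _) (by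
      intro z hz hz0
      rcases mem_union.1 hz with hz | hz
      · exfalso
        apply hz0
        unfold hatb at hz
        exact mem_singleton.1 (mem_product.1 hz).1
      · unfold GG6 at hz
        symm
        exact HH_ground hlam0.le o h3rS hSn.le hfam (by push_cast; exact hsm)
          (mem_product.1 hz).2)
    (((3 ^ r : ℕ) + 2 / lam) ^ 3) (by
      have h1r : (1 : ℝ) ≤ ((3 ^ r : ℕ) : ℝ) := by
        push_cast; exact one_le_pow₀ (by norm_num)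
      have h2 : (1 : ℝ) ≤ ((3 ^ r : ℕ) : ℝ) + 2 / lam := by
        have : 0 ≤ 2 / lam := by positivity
        linarith
      have h3 : (1 : ℝ) ≤ (((3 ^ r : ℕ) : ℝ) + 2 / lam) ^ 3 := one_le_pow₀ h2
      nlinarith)
    (sum_lowered' hlam0 o (3 ^ r) h) (K / C) (by positivity) hstep1
  have hhalf := ladlast_num_b hβ10 hr' hlam hε (hεβ.trans (min_le_left _ _))
  intro f hf hg
  refine le_trans ?_ (hlow1 f hf hg)
  push_cast
  have hlogβ : 1 ≤ Real.log β := by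
    rw [Real.le_log_iff_exp_le hβ0]
    have := Real.exp_one_lt_d9
    linarith
  have hε1 : ε ≤ 1 / (8 * C) := by
    have h1 : ε * 1 ≤ ε * Real.log β := mul_le_mul_of_nonneg_left hlogβ hε
    have h2 := hεβ.trans (min_le_right _ _)
    linarith
  have h1 : 1 / 2 * (K / C) ≤ (β * ((3 : ℝ) ^ r + 2 / lam) ^ 3) ^ (-(4 * ε)) * (K / C) :=
    mul_le_mul_of_nonneg_right hhalf (by positivity)
  have h2 : 2 * ε ≤ K / (4 * C) := by
    calc 2 * ε ≤ 2 * (1 / (8 * C)) := by linarith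
      _ = 1 / (4 * C) := by field_simp; norm_num
      _ ≤ K / (4 * C) := by gcongr
  have h3 : 1 / (4 * C) * K = 1 / 2 * (K / C) - K / (4 * C) := by field_simp; norm_num
  linarith

end Vale.Agent.P361.LRO.Ind
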