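import Vale.Agent.P361.LRO.Ind.StepMid
import Vale.Agent.P361.LRO.Ind.LocalE

/-!
# P361 LRO, block (6), energy form (all spins): middle step
-/

namespace Vale.Agent.P361.LRO.Ind

open Finset Vale.Agent.P361.LRO _root_.P361.LRO

theorem sm_totalE {n N W m : ℕ} [NeZero n] {β K c1 : ℝ} {o : Tor n} {b : Finset (Tor n)}
    {h : Tor n → ℝ} {c : Nd n N → Nd n N → ℝ} {s : ℕ} (hloc : LocalE n N W m β K c1 b h c)
    (hh1 : ∀ x ∈ cube n o s, h x = 1) (a : Nd n N → ℝ) (F : Finset (Nd n N))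
    (hF : hatb N b ⊆ F) :
    (∑ z ∈ (EE6 n N o b s \ F).filter (fun z => a z < 1 / 2), ∑ v, c z v) ≤
      ((((univ.filter fun k => k ≠ 0) ×ˢ cube n o s : Finset (Nd n N)).filter
        fun z => a z < 1 / 2).card : ℝ) * (β / (2 * N)) := by
  have hsub : (EE6 n N o b s \ F).filter (fun z => a z < 1 / 2) ⊆
      (((univ.filter fun k => k ≠ 0) ×ˢ cube n o s : Finset (Nd n N)).filter
      fun z => a z < 1 / 2) := by
    intro z hz
    rw [Finset.mem_filter, Finset.mem_sdiff] at hz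
    rw [Finset.mem_filter]
    refine ⟨?_, hz.2⟩
    obtain ⟨⟨hz1, hz2⟩, _⟩ := hz
    unfold EE6 at hz1
    rw [Finset.mem_union] at hz1
    rcases hz1 with hz1 | hz1
    · exact absurd (hF hz1) hz2
    · exact hz1
  have hterm : ∀ z ∈ (((univ.filter fun k => k ≠ 0) ×ˢ cube n o s :
      Finset (Nd n N)).filter fun z => a z < 1 / 2), ∑ v, c z v ≤ β / (2 * N) := by
    intro z hz
    rw [Finset.mem_filter, Finset.mem_product, Finset.mem_filter] at hz
    have h1 := hloc.tot z.1 z.2 hz.1.1.2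
    rw [hh1 z.2 hz.1.2, mul_one] at h1
    exact h1
  refine (Finset.sum_le_sum_of_subset_of_nonneg hsub
    (fun z _ _ => Finset.sum_nonneg fun v _ => hloc.nonneg _ _)).trans ?_
  refine (Finset.sum_le_sum hterm).trans (le_of_eq ?_)
  rw [Finset.sum_const, nsmul_eq_mul]

/-- (6b), before lowering: small radius `3 ^ r`, large radius `3 ^ s`. -/
theorem step_midE (c1 : ℝ) (hc1 : 0 < c1) : ∃ C : ℝ, 0 < C ∧ ∀ (n N W m : ℕ) [NeZero n]
    (β K : ℝ) (o : Tor n) (b : Finset (Tor n)) (h : Tor n → ℝ) (c : Nd n N → Nd n N → ℝ)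
    (r s : ℕ) (G : Finset (Nd n N)) (A B : ℝ),
    10 ≤ β → 0 < W → N = m * W → Win β m → 0 < s → r ≤ s → 3 ^ s < n →
    (∀ x, h x ≤ 1) → (∀ x ∈ cube n o (3 ^ s), h x = 1) →
    LocalE n N W m β K c1 b h c → Disjoint (EE6 n N o b (3 ^ s)) G →
    LBn c (EE6 n N o b (3 ^ s)) G A →
    0 ≤ B → C * B ≤ β * 3 ^ r → C * β ^ 2 * B ≤ A → C * B ^ 3 ≤ A * β ^ 2 →
    LBn c (EE6 n N o b (3 ^ r)) G B := by
  obtain ⟨C', hC'0, hC'⟩ := chain3
  set D : ℝ := 1600 / c1 with hD
  have hD0 : 0 < D := by positivity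
  refine ⟨2 * (4 + D + 3 * C' * D) + 2 * (C' * D ^ 3) + C' * D, by positivity, ?_⟩
  intro n N W m _ β K o b h c r s G A B hβ hW hN hwin hs0 hrs hsn hh hh1 hloc hdisj hA hB0 hB1 hB2 hB3
  have hβ0 : 0 < β := by linarith
  have hm0 : 0 < (m : ℝ) := by exact_mod_cast hwin.pos
  have hm3 : 3 * β ≤ m := by
    have h := (div_le_iff₀ hm0).1 hwin.hi
    linarith
  have hm4 : 4 ≤ m := by
    have : (4 : ℝ) ≤ m := by linarith
    exact_mod_cast this
  have hW0 : (0 : ℝ) < W := by exact_mod_cast hW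
  have hNR : (N : ℝ) = m * W := by rw [hN]; push_cast; ring
  refine LBn_of_trunc hloc.nonneg ?_
  intro a ha01 haE haG
  by_contra hlt
  have hlt' : netK c a < B := not_le.1 hlt
  apply hlt
  have hk0 : 0 ≤ netK c a := sm_netK_nonneg hloc.nonneg a
  have h2s : 2 ≤ 3 ^ s := le_trans (by norm_num : 2 ≤ 3 ^ 1) (Nat.pow_le_pow_right (by norm_num) hs0)
  have hE := hloc.e4 o (3 ^ s) h2s hsn hh1 a
  have hdev := hloc.dev o (3 ^ s) h2s hsn hh1 a
  have hcard := card_low_le hW hwin.pos hN o (3 ^ s) hsn.le a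
  have hE0 : 0 ≤ E4 (3 ^ s) m (UU n N W o a) := sm_E4_nonneg _ _ _
  have hdev0 : 0 ≤ ∑ x ∈ range (3 ^ s), ∑ y ∈ range (3 ^ s), ∑ z ∈ range (3 ^ s),
      ∑ w ∈ range m, ∑ j ∈ range W,
        (a (lay N W w j, pt n o x y z) - UU n N W o a x y z w) ^ 2 :=
    Finset.sum_nonneg fun _ _ => Finset.sum_nonneg fun _ _ => Finset.sum_nonneg fun _ _ =>
      Finset.sum_nonneg fun _ _ => Finset.sum_nonneg fun _ _ => sq_nonneg _
  have hED := sm_energy hc1 hD hwin.lo hE0 hE
  -- the chaining hypothesis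
  have hch := hC' r s m hwin.pos hrs (UU n N W o a) (sm_start hwin.pos hW hN haE) ?_
  · have htest := test_le (E := EE6 n N o b (3 ^ r)) hloc.symm hloc.nonneg hA hdisj
      (fun x => (ha01 x).1) haE haG
    have hS := sm_totalE hloc hh1 a (EE6 n N o b (3 ^ r)) Finset.subset_union_left
    refine sm_arith hc1 hC'0 hD hβ hm0 hwin.lo hwin.hi hW0 hNR hE0
      hdev0 hk0 hE hdev hch hcard htest hS ?_ ?_
    · refine le_trans ?_ hB2
      have h1 : 2 * (4 + D + 3 * C' * D) ≤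
          2 * (4 + D + 3 * C' * D) + 2 * (C' * D ^ 3) + C' * D := by
        have : 0 ≤ 2 * (C' * D ^ 3) + C' * D := by positivity
        linarith
      exact mul_le_mul_of_nonneg_right (mul_le_mul_of_nonneg_right h1 (by positivity)) hB0
    · refine le_trans ?_ hB3
      have h1 : 2 * (C' * D ^ 3) ≤
          2 * (4 + D + 3 * C' * D) + 2 * (C' * D ^ 3) + C' * D := by
        have : 0 ≤ 2 * (4 + D + 3 * C' * D) + C' * D := by positivity
        linarith
      exact mul_le_mul_of_nonneg_right h1 (by positivity)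
  · have h1 : C' * E4 (3 ^ s) m (UU n N W o a) ≤ C' * (D * netK c a) :=
      mul_le_mul_of_nonneg_left hED hC'0.le
    have h2 := mul_le_mul_of_nonneg_left hlt'.le (show 0 ≤ C' * D by positivity)
    have h3 : C' * D * B ≤ (2 * (4 + D + 3 * C' * D) + 2 * (C' * D ^ 3) + C' * D) * B := by
      refine mul_le_mul_of_nonneg_right ?_ hB0
      have : 0 ≤ 2 * (4 + D + 3 * C' * D) + 2 * (C' * D ^ 3) := by positivity
      linarith
    have h4 : β * 3 ^ r ≤ m * 3 ^ r := by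
      refine mul_le_mul_of_nonneg_right (by linarith) (by positivity)
    linarith

end Vale.Agent.P361.LRO.Ind
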