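import Vale.Agent.P361.LRO.Ind.LadMid
import Vale.Agent.P361.LRO.Ind.StepMidE
import Vale.Agent.P361.LRO.Ind.LowE

/-!
# P361 LRO, block (6), energy form (all spins): one rung
-/

namespace Vale.Agent.P361.LRO.Ind

open Finset Vale.Agent.P361.LRO _root_.P361.LRO

/-- One rung of the ladder. `S` is the ground scale. -/
theorem lad_midE (c1 : ℝ) (hc1 : 0 < c1) : ∃ β0 : ℝ, 10 ≤ β0 ∧ ∀ (n N W m : ℕ) [NeZero n]
    (β K h0 lam ε : ℝ) (o : Tor n) (b : Finset (Tor n)) (h : Tor n → ℝ)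
    (c : (Tor n → ℝ) → Nd n N → Nd n N → ℝ) (r S : ℕ),
    β0 ≤ β → 0 < W → N = m * W → Win β m → 4 * r ≤ S → 8 * 3 ^ S < n →
    0 < h0 → h0 ≤ 1 → 1 / β ≤ lam → 0 ≤ ε → ε ≤ 1 / 1000 →
    β ^ 10 ≤ (3 : ℝ) ^ r → h0⁻¹ ≤ ((3 : ℝ) ^ S) ^ (5 / 2 : ℝ) →
    (∀ g, Fam n h0 lam g → LocalE n N W m β K c1 b g (c g)) → LowE n N b β h0 lam ε c →
    Fam n h0 lam h →
    LBn (c (HH n lam o (3 ^ (4 * r)) h)) (EE6 n N o b (3 ^ (4 * r))) (GG6 n N o (3 ^ S))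
      (β * ((3 : ℝ) ^ (4 * r)) ^ (1 / 3 : ℝ)) →
    LBn (c (HH n lam o (3 ^ r) h)) (EE6 n N o b (3 ^ r)) (GG6 n N o (3 ^ S))
      (β * ((3 : ℝ) ^ r) ^ (1 / 3 : ℝ)) := by
  obtain ⟨C, hC, hstep⟩ := step_midE c1 hc1
  obtain ⟨β1, hβ1, hground⟩ := num_ground
  refine ⟨max β1 (4 * (1 + C) ^ 2), hβ1.trans (le_max_left _ _), ?_⟩
  intro n N W m _ β K h0 lam ε o b h c r S hβ hW hN hwin hrS hSn hh0 hh01 hlam hε hε1
    hr hS hloc hlow hfam hLB
  have hβ1' : β1 ≤ β := (le_max_left _ _).trans hβ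
  have hβC : 4 * (1 + C) ^ 2 ≤ β := (le_max_right _ _).trans hβ
  have hβ10 : 10 ≤ β := hβ1.trans hβ1'
  have hβ0 : 0 < β := by linarith
  have hlam0 : 0 < lam := lt_of_lt_of_le (by positivity) hlam
  have hr0 : 0 < r := by
    rcases Nat.eq_zero_or_pos r with h0' | h0'
    · exfalso
      rw [h0', pow_zero] at hr
      have h1 : (10 : ℝ) ^ 10 ≤ β ^ 10 := pow_le_pow_left₀ (by norm_num) hβ10 10
      norm_num at h1
      linarith
    · exact h0'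
  have h4rS : (3 : ℕ) ^ (4 * r) ≤ 3 ^ S := Nat.pow_le_pow_right (by norm_num) hrS
  have hrr : (3 : ℕ) ^ r ≤ 3 ^ (4 * r) := Nat.pow_le_pow_right (by norm_num) (by omega)
  have h8 : (3 : ℕ) ^ S ≤ 8 * 3 ^ S := by omega
  have h4rn : (3 : ℕ) ^ (4 * r) < n := by omega
  have hrn : (3 : ℕ) ^ r ≤ n := by omega
  have hfam4 : Fam n h0 lam (HH n lam o (3 ^ (4 * r)) h) := Fam_HH hlam0.le o (by positivity) hfam
  have hfam1 : Fam n h0 lam (HH n lam o (3 ^ r) h) := Fam_HH hlam0.le o (by positivity) hfam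
  have hXe : ((3 : ℝ) ^ (4 * r)) ^ (1 / 3 : ℝ) = ((3 : ℝ) ^ r) ^ (4 / 3 : ℝ) := by
    rw [mul_comm 4 r, pow_mul, ← Real.rpow_natCast ((3 : ℝ) ^ r) 4,
      ← Real.rpow_mul (by positivity)]
    norm_num
  obtain ⟨hB1, hB2, hB3⟩ := ladmid_num_a hC hβ10 hr
  rw [hXe] at hLB
  have hstep1 := hstep n N W m β K o b (HH n lam o (3 ^ (4 * r)) h)
    (c (HH n lam o (3 ^ (4 * r)) h)) r (4 * r) (GG6 n N o (3 ^ S))
    (β * ((3 : ℝ) ^ r) ^ (4 / 3 : ℝ)) (β * ((3 : ℝ) ^ r) ^ (4 / 9 : ℝ) / (1 + C))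
    hβ10 hW hN hwin (by omega) (by omega) h4rn
    (fun x => (hfam4.1 x).2) (fun x hx => HH_one hlam0.le o h4rn.le hfam hx) (hloc _ hfam4)
    (disj_EG o _ h4rS hSn.le) hLB (by positivity) hB1 hB2 hB3
  have hβS : β ^ 10 ≤ (3 : ℝ) ^ S := hr.trans (pow_le_pow_right₀ (by norm_num) (by omega))
  have hsm := hground β h0 lam S hβ1' hh0 hlam hβS hS
  have hlow1 := hlow.prim (HH n lam o (3 ^ (4 * r)) h) (HH n lam o (3 ^ r) h) hfam4 hfam1
    (fun x => HH_mono hlam0.le o hrr h x)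
    (EE6 n N o b (3 ^ r)) (GG6 n N o (3 ^ S)) (disj_EG o _ (hrr.trans h4rS) hSn.le)
    Finset.subset_union_left (by
      intro z hz hz0
      rcases mem_union.1 hz with hz | hz
      · unfold EE6 at hz
        rcases mem_union.1 hz with hz | hz
        · exfalso
          apply hz0
          unfold hatb at hz
          exact mem_singleton.1 (mem_product.1 hz).1
        · have hx := (mem_product.1 hz).2
          rw [HH_one hlam0.le o hrn hfam hx]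
          have hx4 : z.2 ∈ cube n o (3 ^ (4 * r)) := by
            unfold cube at hx ⊢
            rw [mem_image] at hx ⊢
            obtain ⟨y, -, hy⟩ := hx
            exact ⟨fun i => ⟨(y i : ℕ), lt_of_lt_of_le (y i).2 hrr⟩, mem_univ _, hy⟩
          rw [HH_one hlam0.le o h4rn.le hfam hx4]
      · unfold GG6 at hz
        have hx := (mem_product.1 hz).2
        rw [HH_ground hlam0.le o (hrr.trans h4rS) hSn.le hfam (by push_cast; exact hsm) hx,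
          HH_ground hlam0.le o h4rS hSn.le hfam (by push_cast; exact hsm) hx])
    (((3 ^ (4 * r) : ℕ) + 2 / lam) ^ 3) (by
      have h1r : (1 : ℝ) ≤ ((3 ^ (4 * r) : ℕ) : ℝ) := by
        push_cast; exact one_le_pow₀ (by norm_num)
      have h2 : (1 : ℝ) ≤ ((3 ^ (4 * r) : ℕ) : ℝ) + 2 / lam := by
        have : 0 ≤ 2 / lam := by positivity
        linarith
      have h3 : (1 : ℝ) ≤ (((3 ^ (4 * r) : ℕ) : ℝ) + 2 / lam) ^ 3 := one_le_pow₀ h2
      nlinarith)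
    (sum_lowered hlam0 o hrr h) (β * ((3 : ℝ) ^ r) ^ (4 / 9 : ℝ) / (1 + C)) (by positivity)
    hstep1
  have hnum := ladmid_num_b hC hβ10 hβC hr hlam hε hε1
  intro f hf hg
  refine le_trans hnum ?_
  have h5 := hlow1 f hf hg
  have e : ((3 ^ (4 * r) : ℕ) : ℝ) = ((3 : ℝ) ^ r) ^ 4 := by
    push_cast
    rw [mul_comm 4 r, pow_mul]
  rw [e] at h5
  exact h5

end Vale.Agent.P361.LRO.Ind
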