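import Vale.Agent.P361.LRO.Ind.Defs

/-!
# P361 LRO, block (6), E2: deviation from the window averages (helper155)
-/

namespace Vale.Agent.P361.LRO.Ind

open Finset Vale.Agent.P361.LRO _root_.P361.LRO

namespace E155

lemma pt_inj {n : ℕ} [NeZero n] (o : Tor n) {a b c a' b' c' : ℕ} (ha : a < n) (hb : b < n)
    (hc : c < n) (ha' : a' < n) (hb' : b' < n) (hc' : c' < n)
    (h : pt n o a b c = pt n o a' b' c') : a = a' ∧ b = b' ∧ c = c' := by
  have h1 := add_left_cancel h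
  have key : ∀ {p q : ℕ}, p < n → q < n → ((p : ZMod n) = (q : ZMod n)) → p = q := by
    intro p q hp hq hpq
    have h2 := (ZMod.natCast_eq_natCast_iff' p q n).1 hpq
    rwa [Nat.mod_eq_of_lt hp, Nat.mod_eq_of_lt hq] at h2
  refine ⟨key ha ha' ?_, key hb hb' ?_, key hc hc' ?_⟩
  · have := congrFun h1 0
    simpa using this
  · have := congrFun h1 1
    simpa using this
  · have := congrFun h1 2
    simpa using this

lemma lay_val {N W m w j : ℕ} (hN : N = m * W) (hw : w < m) (hj : j < W) :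
    ((lay N W w j : Fin (N + 1)) : ℕ) = 1 + w * W + j := by
  have h : w * W + j < N := by
    rw [hN]
    calc w * W + j < w * W + W := by omega
      _ = (w + 1) * W := by ring
      _ ≤ m * W := Nat.mul_le_mul_right W (by omega)
  unfold lay
  rw [dif_pos (by omega)]

lemma lay_inj {N W m w j w' j' : ℕ} (hN : N = m * W) (hw : w < m) (hj : j < W) (hw' : w' < m) (hj' : j' < W)
    (h : lay N W w j = lay N W w' j') : w = w' ∧ j = j' := by
  have h1 := congrArg (fun k : Fin (N + 1) => (k : ℕ)) h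
  simp only [lay_val hN hw hj, lay_val hN hw' hj'] at h1
  have hW : 0 < W := by omega
  have h2 : w * W + j = w' * W + j' := by omega
  have h3 : w = w' := by
    have e1 : (w * W + j) / W = w := by
      rw [Nat.mul_comm, Nat.mul_add_div hW, Nat.div_eq_of_lt hj, add_zero]
    have e2 : (w' * W + j') / W = w' := by
      rw [Nat.mul_comm, Nat.mul_add_div hW, Nat.div_eq_of_lt hj', add_zero]
    rw [← e1, ← e2, h2]
  refine ⟨h3, ?_⟩
  subst h3
  omega

/-- variance identity -/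
lemma var_eq (W : ℕ) (hW : 0 < W) (g : ℕ → ℝ) :
    (1 / 2 : ℝ) * ∑ j ∈ range W, ∑ l ∈ range W, (g j - g l) ^ 2 =
      W * ∑ j ∈ range W, (g j - (1 / W : ℝ) * ∑ l ∈ range W, g l) ^ 2 := by
  have hW' : (W : ℝ) ≠ 0 := Nat.cast_ne_zero.2 hW.ne'
  set s := ∑ l ∈ range W, g l with hs
  set q := ∑ l ∈ range W, g l ^ 2 with hq
  have e1 : ∑ j ∈ range W, ∑ l ∈ range W, (g j - g l) ^ 2 = 2 * W * q - 2 * s ^ 2 := by
    have : ∀ j ∈ range W, ∑ l ∈ range W, (g j - g l) ^ 2 = W * g j ^ 2 - 2 * g j * s + q := by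
      intro j _
      have h1 : ∀ l ∈ range W, (g j - g l) ^ 2 = g j ^ 2 - 2 * g j * g l + g l ^ 2 := fun l _ => by ring
      rw [Finset.sum_congr rfl h1, Finset.sum_add_distrib, Finset.sum_sub_distrib, Finset.sum_const, card_range,
        nsmul_eq_mul, ← Finset.mul_sum]
    rw [Finset.sum_congr rfl this, Finset.sum_add_distrib, Finset.sum_sub_distrib, ← Finset.mul_sum, Finset.sum_const,
      card_range, nsmul_eq_mul, ← Finset.sum_mul, ← Finset.mul_sum, ← hs, ← hq]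
    ring
  have e2 : ∑ j ∈ range W, (g j - (1 / W : ℝ) * s) ^ 2 = q - (1 / W) * s ^ 2 := by
    have : ∀ j ∈ range W, (g j - (1 / W : ℝ) * s) ^ 2 = g j ^ 2 - 2 * ((1 / W) * s) * g j + ((1 / W) * s) ^ 2 :=
      fun j _ => by ring
    rw [Finset.sum_congr rfl this, Finset.sum_add_distrib, Finset.sum_sub_distrib, ← Finset.mul_sum, Finset.sum_const,
      card_range, nsmul_eq_mul, ← hs, ← hq]
    field_simp
    ring
  rw [e1, e2]
  field_simp

/-- restriction to an injective family of nodes -/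
lemma sum_inj_le {ι X : Type} [Fintype X] [DecidableEq X] (s : Finset ι) (f : ι → X)
    (hf : ∀ i ∈ s, ∀ j ∈ s, f i = f j → i = j) (g : X → ℝ) (hg : ∀ x, 0 ≤ g x) :
    ∑ i ∈ s, g (f i) ≤ ∑ x, g x := by
  classical
  rw [← Finset.sum_image (g := f) hf]
  exact Finset.sum_le_sum_of_subset_of_nonneg (Finset.subset_univ _) fun x _ _ => hg x

end E155

open E155

/-- deviation from the window averages. -/
theorem dev_le {n N W m : ℕ} [NeZero n] {β K c1 : ℝ} {b : Finset (Tor n)} {h : Tor n → ℝ}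
    {c : Nd n N → Nd n N → ℝ} (hW : 0 < W) (_hm : 4 ≤ m) (hN : N = m * W) (hβ : 0 < β)
    (hc1 : 0 < c1) (hc : Local n N W β K c1 b h c) (o : Tor n) (S : ℕ) (hS : S < n)
    (h1 : ∀ x ∈ cube n o S, h x = 1) (a : Nd n N → ℝ) :
    c1 * (β / m) * (β / N) * (∑ x ∈ range S, ∑ y ∈ range S, ∑ z ∈ range S, ∑ w ∈ range m,
      ∑ j ∈ range W, (a (lay N W w j, pt n o x y z) - UU n N W o a x y z w) ^ 2) ≤ netK c a := by
  classical
  have hm0 : 0 < m := by omega
  have hWr : (0 : ℝ) < W := Nat.cast_pos.2 hW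
  have hmr : (0 : ℝ) < m := Nat.cast_pos.2 hm0
  have hNr : (N : ℝ) = m * W := by rw [hN]; push_cast; ring
  -- the nodes
  let nd : ℕ × ℕ × ℕ × ℕ → ℕ → Nd n N := fun p j => (lay N W p.2.2.2 j, pt n o p.1 p.2.1 p.2.2.1)
  let P : Finset (ℕ × ℕ × ℕ × ℕ) := range S ×ˢ range S ×ˢ range S ×ˢ range m
  have hmem : ∀ p ∈ P, p.1 < S ∧ p.2.1 < S ∧ p.2.2.1 < S ∧ p.2.2.2 < m := by
    intro p hp
    simpa [P, Finset.mem_product] using hp
  have hndinj : ∀ q ∈ P ×ˢ range W, ∀ q' ∈ P ×ˢ range W, nd q.1 q.2 = nd q'.1 q'.2 → q = q' := by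
    rintro ⟨⟨x, y, z, w⟩, j⟩ hq ⟨⟨x', y', z', w'⟩, j'⟩ hq' he
    obtain ⟨hp, hj⟩ := Finset.mem_product.1 hq
    obtain ⟨hp', hj'⟩ := Finset.mem_product.1 hq'
    obtain ⟨h1, h2, h3, h4⟩ := hmem _ hp
    obtain ⟨h1', h2', h3', h4'⟩ := hmem _ hp'
    simp only [Finset.mem_range] at hj hj'
    obtain ⟨e1, e2⟩ := Prod.ext_iff.1 he
    obtain ⟨f1, f2, f3⟩ := pt_inj o (lt_trans h1 hS) (lt_trans h2 hS) (lt_trans h3 hS) (lt_trans h1' hS)
      (lt_trans h2' hS) (lt_trans h3' hS) e2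
    obtain ⟨g1, g2⟩ := lay_inj hN h4 hj h4' hj' e1
    simp only at f1 f2 f3 g1 g2
    rw [f1, f2, f3, g1, g2]
  -- lower bound by pairs in the same window
  have hcube : ∀ p ∈ P, h (pt n o p.1 p.2.1 p.2.2.1) = 1 := by
    intro p hp
    obtain ⟨h1', h2, h3, -⟩ := hmem p hp
    refine h1 _ ?_
    unfold cube pt
    refine Finset.mem_image.2 ⟨![⟨p.1, h1'⟩, ⟨p.2.1, h2⟩, ⟨p.2.2.1, h3⟩], Finset.mem_univ _, ?_⟩
    congr 1
    funext i
    fin_cases i <;> simp
  have hF : ∀ u v, 0 ≤ c u v * (a u - a v) ^ 2 := fun u v => mul_nonneg (hc.nonneg u v) (sq_nonneg _)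
  have hin : ∀ p ∈ P, ∀ j ∈ range W, ∀ l ∈ range W,
      c1 * (β / N) ^ 2 * (a (nd p j) - a (nd p l)) ^ 2 ≤ c (nd p j) (nd p l) * (a (nd p j) - a (nd p l)) ^ 2 := by
    intro p hp j hj l hl
    obtain ⟨-, -, -, hw⟩ := hmem p hp
    rw [Finset.mem_range] at hj hl
    have vj := lay_val hN hw hj
    have vl := lay_val hN hw hl
    rcases lt_trichotomy j l with hjl | hjl | hjl
    · refine mul_le_mul_of_nonneg_right ?_ (sq_nonneg _)
      refine hc.same _ _ _ ?_ ?_ ?_ (hcube p hp)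
      · intro h0
        rw [h0] at vj
        simp only [Fin.val_zero] at vj
        omega
      · rw [Fin.lt_def, vj, vl]
        omega
      · rw [vj, vl]
        omega
    · rw [hjl]
      simp
    · rw [hc.symm (nd p j) (nd p l)]
      refine mul_le_mul_of_nonneg_right ?_ (sq_nonneg _)
      refine hc.same _ _ _ ?_ ?_ ?_ (hcube p hp)
      · intro h0
        rw [h0] at vl
        simp only [Fin.val_zero] at vl
        omega
      · rw [Fin.lt_def, vj, vl]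
        omega
      · rw [vj, vl]
        omega
  have step1 : ∑ p ∈ P, ∑ j ∈ range W, ∑ l ∈ range W, c1 * (β / N) ^ 2 * (a (nd p j) - a (nd p l)) ^ 2 ≤
      ∑ u, ∑ v, c u v * (a u - a v) ^ 2 := by
    have s1 : ∑ p ∈ P, ∑ j ∈ range W, ∑ l ∈ range W, c1 * (β / N) ^ 2 * (a (nd p j) - a (nd p l)) ^ 2 ≤
        ∑ p ∈ P, ∑ j ∈ range W, ∑ v, c (nd p j) v * (a (nd p j) - a v) ^ 2 := by
      refine Finset.sum_le_sum fun p hp => Finset.sum_le_sum fun j hj => ?_
      refine (Finset.sum_le_sum fun l hl => hin p hp j hj l hl).trans ?_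
      refine sum_inj_le (range W) (fun l => nd p l) ?_ (fun v => c (nd p j) v * (a (nd p j) - a v) ^ 2)
        (fun v => hF _ v)
      intro l hl l' hl' he
      have := hndinj (p, l) (Finset.mem_product.2 ⟨hp, hl⟩) (p, l') (Finset.mem_product.2 ⟨hp, hl'⟩) he
      exact (Prod.ext_iff.1 this).2
    refine s1.trans ?_
    rw [← Finset.sum_product (f := fun q : (ℕ × ℕ × ℕ × ℕ) × ℕ =>
      ∑ v, c (nd q.1 q.2) v * (a (nd q.1 q.2) - a v) ^ 2)]
    exact sum_inj_le (P ×ˢ range W) (fun q => nd q.1 q.2) hndinj (fun u => ∑ v, c u v * (a u - a v) ^ 2)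
      (fun u => Finset.sum_nonneg fun v _ => hF u v)
  have step2 : ∀ p ∈ P, (1 / 2 : ℝ) * ∑ j ∈ range W, ∑ l ∈ range W, c1 * (β / N) ^ 2 * (a (nd p j) - a (nd p l)) ^ 2 =
      c1 * (β / m) * (β / N) * ∑ j ∈ range W, (a (lay N W p.2.2.2 j, pt n o p.1 p.2.1 p.2.2.1) -
        UU n N W o a p.1 p.2.1 p.2.2.1 p.2.2.2) ^ 2 := by
    intro p _
    have h2 := var_eq W hW fun j => a (nd p j)
    have h3 : (1 / 2 : ℝ) * ∑ j ∈ range W, ∑ l ∈ range W, c1 * (β / N) ^ 2 * (a (nd p j) - a (nd p l)) ^ 2 =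
        c1 * (β / N) ^ 2 * ((1 / 2 : ℝ) * ∑ j ∈ range W, ∑ l ∈ range W, (a (nd p j) - a (nd p l)) ^ 2) := by
      simp only [← Finset.mul_sum]
      ring
    rw [h3, h2]
    have h4 : c1 * (β / N) ^ 2 * (W * ∑ j ∈ range W, (a (nd p j) - (1 / W : ℝ) * ∑ l ∈ range W, a (nd p l)) ^ 2) =
        (c1 * (β / N) ^ 2 * W) * ∑ j ∈ range W, (a (nd p j) - (1 / W : ℝ) * ∑ l ∈ range W, a (nd p l)) ^ 2 := by ring
    rw [h4]
    congr 1
    rw [hNr]
    field_simp
  have step3 : c1 * (β / m) * (β / N) * (∑ x ∈ range S, ∑ y ∈ range S, ∑ z ∈ range S, ∑ w ∈ range m,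
      ∑ j ∈ range W, (a (lay N W w j, pt n o x y z) - UU n N W o a x y z w) ^ 2) =
      (1 / 2) * ∑ p ∈ P, ∑ j ∈ range W, ∑ l ∈ range W, c1 * (β / N) ^ 2 * (a (nd p j) - a (nd p l)) ^ 2 := by
    have s3 : (1 / 2 : ℝ) * ∑ p ∈ P, ∑ j ∈ range W, ∑ l ∈ range W, c1 * (β / N) ^ 2 * (a (nd p j) - a (nd p l)) ^ 2 =
        ∑ p ∈ P, (1 / 2 : ℝ) * ∑ j ∈ range W, ∑ l ∈ range W, c1 * (β / N) ^ 2 * (a (nd p j) - a (nd p l)) ^ 2 :=
      Finset.mul_sum _ _ _
    rw [s3, Finset.sum_congr rfl step2, ← Finset.mul_sum]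
    congr 1
    simp only [P, Finset.sum_product]
  rw [step3]
  unfold netK
  linarith [step1]

end Vale.Agent.P361.LRO.Ind
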