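import Mathlib
import Vale.Agent.P361.LRO.Defs
import Vale.Agent.P361.LRO.NetODE

/-!
# P361 LRO, block (6): definitions

Everything in block (6) is about an abstract family of symmetric conductances
`c : (Tor n → ℝ) → Nd n N → Nd n N → ℝ` (field profile ↦ network on the space-time nodes).
Time: `N = m * W`, `m` windows of `W` slices, physical layers `1, …, N`,
layer `1 + w W + j` is the `j`-th slice of the window `w`.
-/

namespace Vale.Agent.P361.LRO.Ind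

open Finset Vale.Agent.P361.LRO _root_.P361.LRO

noncomputable section

/-- Space-time nodes. -/
abbrev Nd (n N : ℕ) : Type := Fin (N + 1) × Tor n

/-- The site `o + (x, y, z)`. -/
def pt (n : ℕ) (o : Tor n) (x y z : ℕ) : Tor n :=
  o + ![(x : ZMod n), (y : ZMod n), (z : ZMod n)]

/-- Lower bound for the effective conductance. -/
def LBn {X : Type} [Fintype X] (c : X → X → ℝ) (E G : Finset X) (A : ℝ) : Prop :=
  ∀ a : X → ℝ, (∀ x ∈ E, a x = 1) → (∀ x ∈ G, a x = 0) → A ≤ netK c a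

/-- Upper bound for the resistance between `E` and the charge distribution `q`. -/
def RBn {X : Type} [Fintype X] (c : X → X → ℝ) (E : Finset X) (q : X → ℝ) (R : ℝ) : Prop :=
  ∀ a : X → ℝ, (∀ x ∈ E, a x = 1) → (1 - ∑ x, q x * a x) ^ 2 ≤ R * netK c a

/-- Local information on the network `c` in the field `h` (output of block (4)). -/
structure Local (n N W : ℕ) [NeZero n] (β K c1 : ℝ) (b : Finset (Tor n)) (h : Tor n → ℝ)
    (c : Nd n N → Nd n N → ℝ) : Prop where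
  symm : ∀ u v, c u v = c v u
  nonneg : ∀ u v, 0 ≤ c u v
  tot : ∀ (k : Fin (N + 1)) (x : Tor n), k ≠ 0 → ∑ v, c (k, x) v ≤ β * h x / (2 * N)
  same : ∀ (k l : Fin (N + 1)) (x : Tor n), k ≠ 0 → k < l → (l : ℕ) ≤ k + 3 * W → h x = 1 →
    c1 * (β / N) ^ 2 ≤ c (k, x) (l, x)
  nbr : ∀ (k l : Fin (N + 1)) (x : Tor n) (i : Fin 3), k ≠ 0 → l ≠ 0 →
    ((k : ℕ) + W ≤ l ∨ (l : ℕ) + W ≤ k) → (l : ℕ) ≤ k + 3 * W → (k : ℕ) ≤ l + 3 * W →
    h x = 1 → h (x + Pi.single i 1) = 1 →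
    c1 * (β / N) ^ 2 ≤ c (k, x) (l, x + Pi.single i 1)
  contact : ∀ (k : Fin (N + 1)) (x : Tor n), k ≠ 0 → (k : ℕ) ≤ W → x ∈ b → h x = 1 →
    c1 * (K / b.card) * (β / N) ≤ c (0, x) (k, x)

/-- Lowering the field (output of block (3)). -/
structure Low (n N : ℕ) [NeZero n] (β h0 lam ε : ℝ)
    (c : (Tor n → ℝ) → Nd n N → Nd n N → ℝ) : Prop where
  prim : ∀ h h' : Tor n → ℝ, Fam n h0 lam h → Fam n h0 lam h' → (∀ x, h' x ≤ h x) →
    ∀ E G : Finset (Nd n N), Disjoint E G →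
    (∀ z ∈ E ∪ G, z.1 ≠ 0 → h' z.2 = h z.2) →
    ∀ S : ℝ, 1 ≤ β * S → ∑ x, (if h' x = h x then 0 else h x) ≤ S →
    ∀ A : ℝ, 0 ≤ A → LBn (c h) E G A →
      LBn (c h') E G ((β * S) ^ (-(4 * ε)) * A - 2 * ε)
  dual : 0 < h0 → h0 ≤ 1 → ∀ h' : Tor n → ℝ, Fam n h0 lam h' →
    ∀ (E : Finset (Nd n N)) (q : Nd n N → ℝ),
    (∀ z ∈ E, z.1 ≠ 0 → h' z.2 = 1) → (∀ z ∈ E, q z = 0) → (∀ x, q (0, x) = 0) →
    (∀ z, 0 ≤ q z) → ∑ z, q z = 1 →
    ∀ R : ℝ, 0 ≤ R → RBn (c fun _ => 1) E q R →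
      RBn (c h') E q (h0 ^ (-(4 * ε)) * (R + 8 * N / (β * h0) * ∑ z, (q z) ^ 2))

/-- Window parameters: `m` windows of length `β / m`. -/
structure Win (β : ℝ) (m : ℕ) : Prop where
  pos : 0 < m
  lo : 1 / 4 ≤ β / m
  hi : β / m ≤ 1 / 3

/-! ### Geometry -/

/-- Distance of `t` to `{0, …, r - 1}` in `ZMod n`. -/
def d1 (n r : ℕ) (t : ZMod n) : ℕ := if t.val < r then 0 else min (t.val + 1 - r) (n - t.val)

/-- Distance of `x` to the cube of side `r` at the corner `o`. -/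
def dist (n : ℕ) (o : Tor n) (r : ℕ) (x : Tor n) : ℕ := ∑ i, d1 n r (x i - o i)

/-- The bump `exp (- lam * dist)`. -/
def bump (n : ℕ) (lam : ℝ) (o : Tor n) (r : ℕ) (x : Tor n) : ℝ :=
  Real.exp (-(lam * dist n o r x))

/-- `H = max (h, bump)`. -/
def HH (n : ℕ) (lam : ℝ) (o : Tor n) (r : ℕ) (h : Tor n → ℝ) (x : Tor n) : ℝ :=
  max (h x) (bump n lam o r x)

/-- Electrode: the nodes of the extra slice on `b` and all physical nodes over the cube of side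
`r` at the corner `o`. -/
def EE6 (n N : ℕ) [NeZero n] (o : Tor n) (b : Finset (Tor n)) (r : ℕ) : Finset (Nd n N) :=
  hatb N b ∪ ((univ.filter fun k => k ≠ 0) ×ˢ cube n o r)

/-- Ground: all physical nodes over the cube of side `s` at the corner `o + (4 s, 0, 0)`. -/
def GG6 (n N : ℕ) [NeZero n] (o : Tor n) (s : ℕ) : Finset (Nd n N) :=
  (univ.filter fun k => k ≠ 0) ×ˢ cube n (pt n o (4 * s) 0 0) s

/-! ### Window averages and energies -/

/-- Layer of the `j`-th slice of the window `w` (junk value `0` if out of range). -/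
def lay (N W w j : ℕ) : Fin (N + 1) :=
  if h : 1 + w * W + j < N + 1 then ⟨1 + w * W + j, h⟩ else 0

/-- Average of `a` over the window `w` at the site `o + (x, y, z)`. -/
def UU (n N W : ℕ) (o : Tor n) (a : Nd n N → ℝ) (x y z w : ℕ) : ℝ :=
  (1 / W : ℝ) * ∑ j ∈ range W, a (lay N W w j, pt n o x y z)

/-- Energy of the space edges on `[0, S)³ × [0, T)`. -/
def Esp (S T : ℕ) (U : ℕ → ℕ → ℕ → ℕ → ℝ) : ℝ :=
  (∑ x ∈ range (S - 1), ∑ y ∈ range S, ∑ z ∈ range S, ∑ w ∈ range T,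
      (U (x + 1) y z w - U x y z w) ^ 2) +
  (∑ x ∈ range S, ∑ y ∈ range (S - 1), ∑ z ∈ range S, ∑ w ∈ range T,
      (U x (y + 1) z w - U x y z w) ^ 2) +
  (∑ x ∈ range S, ∑ y ∈ range S, ∑ z ∈ range (S - 1), ∑ w ∈ range T,
      (U x y (z + 1) w - U x y z w) ^ 2)

/-- Energy of the time edges on `[0, S)³ × [0, T)`. -/
def Eti (S T : ℕ) (U : ℕ → ℕ → ℕ → ℕ → ℝ) : ℝ :=
  ∑ x ∈ range S, ∑ y ∈ range S, ∑ z ∈ range S, ∑ w ∈ range (T - 1),
      (U x y z (w + 1) - U x y z w) ^ 2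

/-- Nearest neighbour energy on `[0, S)³ × [0, T)`. -/
def E4 (S T : ℕ) (U : ℕ → ℕ → ℕ → ℕ → ℝ) : ℝ := Esp S T U + Eti S T U

/-- Number of points of `[0, S)³ × [0, T)` where `U < t`. -/
def cnt (S T : ℕ) (t : ℝ) (U : ℕ → ℕ → ℕ → ℕ → ℝ) : ℝ :=
  ∑ x ∈ range S, ∑ y ∈ range S, ∑ z ∈ range S, ∑ w ∈ range T, if U x y z w < t then 1 else 0

end

end Vale.Agent.P361.LRO.Ind
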