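import Mathlib
import Vale.Agent.P361.LRO.Ind.Defs

/-!
# P361 LRO, block (6), E3: contact energy
-/

namespace Vale.Agent.P361.LRO.Ind

open Finset Vale.Agent.P361.LRO _root_.P361.LRO

theorem contact_lay {N W m : ℕ} (hm : 4 ≤ m) (hN : N = m * W) {j : ℕ} (hj : j < W) :
    ((lay N W 0 j : Fin (N + 1)) : ℕ) = 1 + j := by
  have h1 : W ≤ N := by
    rw [hN]
    exact Nat.le_mul_of_pos_left W (by omega)
  have h2 : 1 + 0 * W + j < N + 1 := by omega
  unfold lay
  rw [dif_pos h2]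
  show 1 + 0 * W + j = 1 + j
  omega

/-- a sum over ordered pairs and their swaps is at most twice the Dirichlet form -/
theorem contact_pairs {X ι : Type} [Fintype X] [DecidableEq X] {c : X → X → ℝ}
    (hs : ∀ u v, c u v = c v u) (hc : ∀ u v, 0 ≤ c u v) (a : X → ℝ) (s : Finset ι)
    (f g : ι → X) (hinj : ∀ i ∈ s, ∀ i' ∈ s, f i = f i' → g i = g i' → i = i')
    (hdis : ∀ i ∈ s, ∀ i' ∈ s, f i ≠ g i') :
    ∑ i ∈ s, c (f i) (g i) * (a (f i) - a (g i)) ^ 2 ≤ netK c a := by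
  classical
  have h1 : ∑ i ∈ s, c (f i) (g i) * (a (f i) - a (g i)) ^ 2 =
      ∑ z ∈ s.image fun i => (f i, g i), c z.1 z.2 * (a z.1 - a z.2) ^ 2 := by
    rw [Finset.sum_image]
    intro i hi i' hi' h
    exact hinj i hi i' hi' (congrArg Prod.fst h) (congrArg Prod.snd h)
  have h2 : ∑ i ∈ s, c (f i) (g i) * (a (f i) - a (g i)) ^ 2 =
      ∑ z ∈ s.image fun i => (g i, f i), c z.1 z.2 * (a z.1 - a z.2) ^ 2 := by
    rw [Finset.sum_image]
    · refine Finset.sum_congr rfl fun i _ => ?_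
      rw [hs (g i) (f i)]
      ring
    · intro i hi i' hi' h
      exact hinj i hi i' hi' (congrArg Prod.snd h) (congrArg Prod.fst h)
  have h3 : Disjoint (s.image fun i => (f i, g i)) (s.image fun i => (g i, f i)) := by
    rw [Finset.disjoint_left]
    intro z hz hz'
    obtain ⟨i, hi, rfl⟩ := Finset.mem_image.1 hz
    obtain ⟨i', hi', h⟩ := Finset.mem_image.1 hz'
    exact hdis i hi i' hi' (congrArg Prod.fst h).symm
  have h4 : ∑ z ∈ (s.image fun i => (f i, g i)) ∪ (s.image fun i => (g i, f i)),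
      c z.1 z.2 * (a z.1 - a z.2) ^ 2 ≤ ∑ z : X × X, c z.1 z.2 * (a z.1 - a z.2) ^ 2 :=
    Finset.sum_le_sum_of_subset_of_nonneg (Finset.subset_univ _)
      fun z _ _ => mul_nonneg (hc _ _) (sq_nonneg _)
  rw [Finset.sum_union h3, ← h1, ← h2, Fintype.sum_prod_type] at h4
  unfold netK
  linarith

/-- contact energy. -/
theorem contact_le {n N W m : ℕ} [NeZero n] {β K c1 : ℝ} {b : Finset (Tor n)} {h : Tor n → ℝ}
    {c : Nd n N → Nd n N → ℝ} (hW : 0 < W) (hm : 4 ≤ m) (hN : N = m * W) (hβ : 0 < β)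
    (hK : 0 < K) (hc1 : 0 < c1) (hc : Local n N W β K c1 b h c) (hb : b.Nonempty)
    (h1 : ∀ x ∈ b, h x = 1) (a : Nd n N → ℝ) (ha : ∀ x ∈ b, a (0, x) = 1) :
    c1 * K * (β / N) * (1 / b.card) * (∑ x ∈ b, ∑ j ∈ range W, (1 - a (lay N W 0 j, x)) ^ 2)
      ≤ netK c a := by
  classical
  have hk0 : ∀ j ∈ range W, (lay N W 0 j : Fin (N + 1)) ≠ 0 := by
    intro j hj h
    have h2 := contact_lay hm hN (Finset.mem_range.1 hj)
    rw [h, Fin.val_zero] at h2
    omega
  have h2 := contact_pairs hc.symm hc.nonneg a (b ×ˢ range W)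
    (fun z => ((0 : Fin (N + 1)), z.1)) (fun z => (lay N W 0 z.2, z.1))
    (fun z hz z' hz' e1 e2 => by
      have hx : z.1 = z'.1 := congrArg Prod.snd e1
      have hj : lay N W 0 z.2 = lay N W 0 z'.2 := congrArg Prod.fst e2
      have h3 := contact_lay hm hN (Finset.mem_range.1 (Finset.mem_product.1 hz).2)
      have h4 := contact_lay hm hN (Finset.mem_range.1 (Finset.mem_product.1 hz').2)
      rw [hj, h4] at h3
      exact Prod.ext hx (by omega))
    (fun z _ z' hz' e => hk0 z'.2 (Finset.mem_product.1 hz').2 (congrArg Prod.fst e).symm)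
  refine le_trans ?_ h2
  rw [Finset.sum_product, Finset.mul_sum]
  refine Finset.sum_le_sum fun x hx => ?_
  rw [Finset.mul_sum]
  refine Finset.sum_le_sum fun j hj => ?_
  have h3 := contact_lay hm hN (Finset.mem_range.1 hj)
  have h4 := hc.contact (lay N W 0 j) x (hk0 j hj) (by rw [h3]; have := Finset.mem_range.1 hj; omega)
    hx (h1 x hx)
  show _ ≤ c (0, x) (lay N W 0 j, x) * (a (0, x) - a (lay N W 0 j, x)) ^ 2
  rw [ha x hx]
  have h5 : c1 * K * (β / N) * (1 / b.card) = c1 * (K / b.card) * (β / N) := by ring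
  rw [h5]
  exact mul_le_mul_of_nonneg_right h4 (sq_nonneg _)

end Vale.Agent.P361.LRO.Ind
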