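import Vale.Agent.P361.LRO.Ind.LocalE
import Vale.Agent.P361.LRO.Ind.EnergyB
import Vale.Agent.P361.LRO.Ind.EnergyC
import Vale.Agent.P361.LRO.Ind.GeoA

/-!
P361 LRO, block (6), all spins: the window energies from the nearest neighbour conductances alone
(`LocalN` gives `LocalE`).
-/

namespace Vale.Agent.P361.LRO.Ind.NbrOnly

open Finset Vale.Agent.P361.LRO _root_.P361.LRO

set_option linter.unusedSectionVars false

/-- Box points. -/
abbrev P3 : Type := ℕ × ℕ × ℕ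

/-- Node of the slice `j` of the window `w` at the box point `p`. -/
def nd (n N W : ℕ) (o : Tor n) (p : P3) (w j : ℕ) : Nd n N := (lay N W w j, pt n o p.1 p.2.1 p.2.2)

/-- The box. -/
def box (S : ℕ) : Finset P3 := range S ×ˢ range S ×ˢ range S

theorem mem_box {S : ℕ} {p : P3} : p ∈ box S ↔ p.1 < S ∧ p.2.1 < S ∧ p.2.2 < S := by
  simp [box, Finset.mem_product]

/-- Window average. -/
noncomputable def Um (n N W : ℕ) (o : Tor n) (a : Nd n N → ℝ) (p : P3) (w : ℕ) : ℝ :=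
  (1 / W : ℝ) * ∑ j ∈ range W, a (nd n N W o p w j)

/-- Deviation in the window. -/
noncomputable def Dm (n N W : ℕ) (o : Tor n) (a : Nd n N → ℝ) (p : P3) (w : ℕ) : ℝ :=
  ∑ j ∈ range W, (a (nd n N W o p w j) - Um n N W o a p w) ^ 2

theorem Dm_nonneg (n N W : ℕ) (o : Tor n) (a : Nd n N → ℝ) (p : P3) (w : ℕ) :
    0 ≤ Dm n N W o a p w := Finset.sum_nonneg fun _ _ => sq_nonneg _

theorem Um_eq (n N W : ℕ) (o : Tor n) (a : Nd n N → ℝ) (x y z w : ℕ) :
    UU n N W o a x y z w = Um n N W o a (x, y, z) w := rfl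

/-- Family of pairs of nodes. -/
theorem fam {n N W m : ℕ} [NeZero n] {c : Nd n N → Nd n N → ℝ} (hnn : ∀ u v, 0 ≤ c u v)
    (hN : N = m * W) {S : ℕ} (hS : S ≤ n) (o : Tor n) (a : Nd n N → ℝ) {κ : ℝ}
    (I : Finset (P3 × ℕ)) (φ : P3 × ℕ → P3 × ℕ) (J J' : Finset ℕ) (hJ : ∀ j ∈ J, j < W)
    (hJ' : ∀ j ∈ J', j < W)
    (hI : ∀ q ∈ I, q.1 ∈ box S ∧ q.2 < m ∧ (φ q).2 < m)
    (hc : ∀ q ∈ I, ∀ j ∈ J, ∀ j' ∈ J',
      κ ≤ c (nd n N W o q.1 q.2 j) (nd n N W o (φ q).1 (φ q).2 j')) :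
    κ * ∑ q ∈ I, ∑ j ∈ J, ∑ j' ∈ J',
      (a (nd n N W o q.1 q.2 j) - a (nd n N W o (φ q).1 (φ q).2 j')) ^ 2 ≤ 2 * netK c a := by
  classical
  let f : (P3 × ℕ) × ℕ × ℕ → Nd n N × Nd n N := fun t =>
    (nd n N W o t.1.1 t.1.2 t.2.1, nd n N W o (φ t.1).1 (φ t.1).2 t.2.2)
  have h2 : 2 * netK c a = ∑ uv : Nd n N × Nd n N, c uv.1 uv.2 * (a uv.1 - a uv.2) ^ 2 := by
    unfold netK
    rw [Fintype.sum_prod_type (f := fun uv : Nd n N × Nd n N =>
      c uv.1 uv.2 * (a uv.1 - a uv.2) ^ 2)]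
    ring
  have h3 : κ * ∑ q ∈ I, ∑ j ∈ J, ∑ j' ∈ J',
      (a (nd n N W o q.1 q.2 j) - a (nd n N W o (φ q).1 (φ q).2 j')) ^ 2 =
      ∑ t ∈ I ×ˢ J ×ˢ J', κ * (a (f t).1 - a (f t).2) ^ 2 := by
    rw [Finset.mul_sum, Finset.sum_product]
    refine Finset.sum_congr rfl fun q _ => ?_
    rw [Finset.mul_sum, Finset.sum_product]
    refine Finset.sum_congr rfl fun j _ => ?_
    rw [Finset.mul_sum]
  rw [h2, h3]
  have h4 : ∑ t ∈ I ×ˢ J ×ˢ J', κ * (a (f t).1 - a (f t).2) ^ 2 ≤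
      ∑ t ∈ I ×ˢ J ×ˢ J', c (f t).1 (f t).2 * (a (f t).1 - a (f t).2) ^ 2 := by
    refine Finset.sum_le_sum fun t ht => ?_
    rw [Finset.mem_product, Finset.mem_product] at ht
    exact mul_le_mul_of_nonneg_right (hc t.1 ht.1 t.2.1 ht.2.1 t.2.2 ht.2.2) (sq_nonneg _)
  refine h4.trans ?_
  refine E155.sum_inj_le (I ×ˢ J ×ˢ J') f ?_
    (fun uv => c uv.1 uv.2 * (a uv.1 - a uv.2) ^ 2)
    (fun uv => mul_nonneg (hnn _ _) (sq_nonneg _))
  rintro ⟨⟨p, w⟩, j, j'⟩ ht ⟨⟨p', w'⟩, i, i'⟩ ht' he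
  rw [Finset.mem_product, Finset.mem_product] at ht ht'
  obtain ⟨hq, hj, hj'⟩ := ht
  obtain ⟨hq', hi, hi'⟩ := ht'
  simp only at hq hj hj' hq' hi hi'
  obtain ⟨hb, hw, hw2⟩ := hI _ hq
  obtain ⟨hb', hw', -⟩ := hI _ hq'
  simp only at hb hw hb' hw'
  rw [mem_box] at hb hb'
  obtain ⟨e1, e2⟩ := Prod.ext_iff.1 he
  simp only [f, nd] at e1 e2
  obtain ⟨e3, e4⟩ := Prod.ext_iff.1 e1
  simp only at e3 e4
  obtain ⟨g1, g2⟩ := E155.lay_inj hN hw (hJ _ hj) hw' (hJ _ hi) e3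
  obtain ⟨f1, f2, f3⟩ := E155.pt_inj o (lt_of_lt_of_le hb.1 hS) (lt_of_lt_of_le hb.2.1 hS)
    (lt_of_lt_of_le hb.2.2 hS) (lt_of_lt_of_le hb'.1 hS) (lt_of_lt_of_le hb'.2.1 hS)
    (lt_of_lt_of_le hb'.2.2 hS) e4
  have hp : p = p' := by
    obtain ⟨p1, p2, p3⟩ := p
    obtain ⟨q1, q2, q3⟩ := p'
    simp only at f1 f2 f3
    rw [f1, f2, f3]
  subst hp g1 g2
  obtain ⟨e5, -⟩ := Prod.ext_iff.1 e2
  simp only at e5
  obtain ⟨-, g3⟩ := E155.lay_inj hN hw2 (hJ' _ hj') hw2 (hJ' _ hi') e5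
  subst g3
  rfl

/-- Jensen for two averages. -/
theorem jen (J J' : Finset ℕ) (hJ : 0 < J.card) (hJ' : 0 < J'.card) (g h : ℕ → ℝ) :
    ((J.card : ℝ) * J'.card) *
      ((1 / (J.card : ℝ)) * ∑ j ∈ J, g j - (1 / (J'.card : ℝ)) * ∑ j ∈ J', h j) ^ 2 ≤
      ∑ j ∈ J, ∑ j' ∈ J', (g j - h j') ^ 2 := by
  have hJr : (0 : ℝ) < J.card := by exact_mod_cast hJ
  have hJr' : (0 : ℝ) < J'.card := by exact_mod_cast hJ'
  have h1 := sq_sum_le_card_mul_sum_sq (s := J ×ˢ J') (f := fun q : ℕ × ℕ => g q.1 - h q.2)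
  have h2 : ∑ q ∈ J ×ˢ J', (g q.1 - h q.2) = J'.card * ∑ j ∈ J, g j - J.card * ∑ j ∈ J', h j := by
    rw [Finset.sum_product]
    simp only [Finset.sum_sub_distrib, Finset.sum_const, nsmul_eq_mul]
    rw [← Finset.mul_sum]
  have h3 : ∑ q ∈ J ×ˢ J', (g q.1 - h q.2) ^ 2 = ∑ j ∈ J, ∑ j' ∈ J', (g j - h j') ^ 2 := by
    rw [Finset.sum_product]
  rw [h2, h3, Finset.card_product] at h1
  push_cast at h1
  have h4 : (J'.card : ℝ) * ∑ j ∈ J, g j - J.card * ∑ j ∈ J', h j =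
      (J.card * J'.card) *
        ((1 / (J.card : ℝ)) * ∑ j ∈ J, g j - (1 / (J'.card : ℝ)) * ∑ j ∈ J', h j) := by
    field_simp
  rw [h4] at h1
  have hpos : (0 : ℝ) < (J.card : ℝ) * J'.card := by positivity
  have h5 : ((J.card : ℝ) * J'.card) * (((J.card : ℝ) * J'.card) *
      ((1 / (J.card : ℝ)) * ∑ j ∈ J, g j - (1 / (J'.card : ℝ)) * ∑ j ∈ J', h j) ^ 2) ≤
      ((J.card : ℝ) * J'.card) * ∑ j ∈ J, ∑ j' ∈ J', (g j - h j') ^ 2 := by
    refine le_trans (le_of_eq ?_) h1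
    ring
  exact le_of_mul_le_mul_left h5 hpos

/-- First half of the window. -/
def hA (W : ℕ) : Finset ℕ := range ((W + 1) / 2)

/-- Second half of the window. -/
def hB (W : ℕ) : Finset ℕ := Finset.Ico (W / 2) W

theorem hA_lt {W j : ℕ} (_hW : 0 < W) (hj : j ∈ hA W) : j < W := by
  unfold hA at hj
  rw [Finset.mem_range] at hj
  omega

theorem hB_lt {W j : ℕ} (hj : j ∈ hB W) : j < W := (Finset.mem_Ico.1 hj).2

theorem hA_le_hB {W j j' : ℕ} (hj : j ∈ hA W) (hj' : j' ∈ hB W) : j ≤ j' := by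
  unfold hA at hj
  unfold hB at hj'
  rw [Finset.mem_range] at hj
  rw [Finset.mem_Ico] at hj'
  omega

theorem hA_card (W : ℕ) : (W : ℝ) ≤ 2 * (hA W).card := by
  unfold hA
  rw [Finset.card_range]
  have : W ≤ 2 * ((W + 1) / 2) := by omega
  exact_mod_cast this

theorem hB_card (W : ℕ) : (W : ℝ) ≤ 2 * (hB W).card := by
  unfold hB
  rw [Nat.card_Ico]
  have : W ≤ 2 * (W - W / 2) := by omega
  exact_mod_cast this

/-- The mean minimises the deviation. -/
theorem dev_min (W : ℕ) (hW : 0 < W) (g : ℕ → ℝ) (t : ℝ) :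
    ∑ j ∈ range W, (g j - (1 / (W : ℝ)) * ∑ i ∈ range W, g i) ^ 2 ≤
      ∑ j ∈ range W, (g j - t) ^ 2 := by
  have hWr : (0 : ℝ) < W := by exact_mod_cast hW
  set s := (1 / (W : ℝ)) * ∑ i ∈ range W, g i with hs
  have h1 : ∑ j ∈ range W, (g j - s) = 0 := by
    rw [Finset.sum_sub_distrib, Finset.sum_const, Finset.card_range, nsmul_eq_mul, hs]
    field_simp
    ring
  have h2 : ∑ j ∈ range W, (g j - t) ^ 2 =
      ∑ j ∈ range W, (g j - s) ^ 2 + 2 * (s - t) * ∑ j ∈ range W, (g j - s) + W * (s - t) ^ 2 := by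
    rw [Finset.mul_sum, ← Finset.sum_add_distrib]
    have : (W : ℝ) * (s - t) ^ 2 = ∑ j ∈ range W, (s - t) ^ 2 := by
      rw [Finset.sum_const, Finset.card_range, nsmul_eq_mul]
    rw [this, ← Finset.sum_add_distrib]
    exact Finset.sum_congr rfl fun j _ => by ring
  rw [h2, h1]
  have : 0 ≤ (W : ℝ) * (s - t) ^ 2 := by positivity
  linarith

/-- Deviation bounded by the pairs with another family. -/
theorem dev_le_pairs (W : ℕ) (hW : 0 < W) (g h : ℕ → ℝ) :
    (W : ℝ) * ∑ j ∈ range W, (g j - (1 / (W : ℝ)) * ∑ i ∈ range W, g i) ^ 2 ≤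
      ∑ j ∈ range W, ∑ j' ∈ range W, (g j - h j') ^ 2 := by
  have hWr : (0 : ℝ) < W := by exact_mod_cast hW
  have h1 := dev_min W hW g ((1 / (W : ℝ)) * ∑ i ∈ range W, h i)
  have h2 : ∀ j ∈ range W, (W : ℝ) * (g j - (1 / (W : ℝ)) * ∑ i ∈ range W, h i) ^ 2 ≤
      ∑ j' ∈ range W, (g j - h j') ^ 2 := by
    intro j _
    have h3 := jen {j} (range W) (by simp) (by simpa using hW) g h
    simpa using h3
  refine (mul_le_mul_of_nonneg_left h1 hWr.le).trans ?_
  rw [Finset.mul_sum]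
  exact Finset.sum_le_sum h2

/-- Two windows through their halves. -/
theorem half_le (W : ℕ) (hW : 0 < W) (g h : ℕ → ℝ) :
    (W : ℝ) ^ 2 * ((1 / (W : ℝ)) * ∑ j ∈ range W, g j - (1 / (W : ℝ)) * ∑ j ∈ range W, h j) ^ 2 ≤
      6 * (W * ∑ j ∈ range W, (g j - (1 / (W : ℝ)) * ∑ i ∈ range W, g i) ^ 2) +
      12 * ∑ j ∈ hA W, ∑ j' ∈ hB W, (g j - h j') ^ 2 +
      6 * (W * ∑ j ∈ range W, (h j - (1 / (W : ℝ)) * ∑ i ∈ range W, h i) ^ 2) := by
  have hWr : (0 : ℝ) < W := by exact_mod_cast hW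
  set G := (1 / (W : ℝ)) * ∑ j ∈ range W, g j with hG
  set H := (1 / (W : ℝ)) * ∑ j ∈ range W, h j with hH
  have cA := hA_card W
  have cB := hB_card W
  have pA : (0 : ℝ) < (hA W).card := by linarith
  have pB : (0 : ℝ) < (hB W).card := by linarith
  have pA' : 0 < (hA W).card := by exact_mod_cast pA
  have pB' : 0 < (hB W).card := by exact_mod_cast pB
  set gA := (1 / ((hA W).card : ℝ)) * ∑ j ∈ hA W, g j with hgA
  set hBm := (1 / ((hB W).card : ℝ)) * ∑ j ∈ hB W, h j with hhB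
  have j1 := jen (hA W) {0} pA' (by simp) g (fun _ => G)
  simp only [Finset.card_singleton, Nat.cast_one, mul_one, Finset.sum_singleton, div_one,
    one_mul] at j1
  have j2 := jen (hA W) (hB W) pA' pB' g h
  have j3 := jen (hB W) {0} pB' (by simp) h (fun _ => H)
  simp only [Finset.card_singleton, Nat.cast_one, mul_one, Finset.sum_singleton, div_one,
    one_mul] at j3
  rw [← hgA] at j1 j2
  rw [← hhB] at j2 j3
  have s1 : ∑ j ∈ hA W, (g j - G) ^ 2 ≤ ∑ j ∈ range W, (g j - G) ^ 2 :=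
    Finset.sum_le_sum_of_subset_of_nonneg (fun j hj => Finset.mem_range.2 (hA_lt hW hj))
      (fun _ _ _ => sq_nonneg _)
  have s3 : ∑ j ∈ hB W, (h j - H) ^ 2 ≤ ∑ j ∈ range W, (h j - H) ^ 2 :=
    Finset.sum_le_sum_of_subset_of_nonneg (fun j hj => Finset.mem_range.2 (hB_lt hj))
      (fun _ _ _ => sq_nonneg _)
  set DG := ∑ j ∈ range W, (g j - G) ^ 2 with hDG
  set DH := ∑ j ∈ range W, (h j - H) ^ 2 with hDH
  set Q := ∑ j ∈ hA W, ∑ j' ∈ hB W, (g j - h j') ^ 2 with hQ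
  have t1 : (W : ℝ) * (gA - G) ^ 2 ≤ 2 * DG := by
    have := mul_le_mul_of_nonneg_right cA (sq_nonneg (gA - G))
    linarith
  have t3 : (W : ℝ) * (hBm - H) ^ 2 ≤ 2 * DH := by
    have := mul_le_mul_of_nonneg_right cB (sq_nonneg (hBm - H))
    linarith
  have t2 : (W : ℝ) ^ 2 * (gA - hBm) ^ 2 ≤ 4 * Q := by
    have h1 : (W : ℝ) ^ 2 ≤ 4 * ((hA W).card * (hB W).card) := by nlinarith
    have := mul_le_mul_of_nonneg_right h1 (sq_nonneg (gA - hBm))
    linarith
  have t4 : (G - H) ^ 2 ≤ 3 * ((gA - G) ^ 2 + (gA - hBm) ^ 2 + (hBm - H) ^ 2) := by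
    nlinarith [sq_nonneg ((G - gA) - (gA - hBm)), sq_nonneg ((gA - hBm) - (hBm - H)),
      sq_nonneg ((G - gA) - (hBm - H))]
  have t5 := mul_le_mul_of_nonneg_left t4 (sq_nonneg (W : ℝ))
  have t6 := mul_le_mul_of_nonneg_left t1 hWr.le
  have t7 := mul_le_mul_of_nonneg_left t3 hWr.le
  nlinarith

/-! ### The sums -/

/-- Neighbouring box points. -/
def Adj (n : ℕ) (o : Tor n) (p q : P3) : Prop :=
  ∃ i : Fin 3, pt n o q.1 q.2.1 q.2.2 = pt n o p.1 p.2.1 p.2.2 + Pi.single i 1 ∨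
    pt n o p.1 p.2.1 p.2.2 = pt n o q.1 q.2.1 q.2.2 + Pi.single i 1

/-- The hypotheses. -/
structure Nb (n N W m : ℕ) [NeZero n] (κ : ℝ) (S : ℕ) (o : Tor n)
    (c : Nd n N → Nd n N → ℝ) : Prop where
  hW : 0 < W
  hm : 4 ≤ m
  hN : N = m * W
  hS2 : 2 ≤ S
  hS : S < n
  hκ : 0 ≤ κ
  nn : ∀ u v, 0 ≤ c u v
  cb : ∀ p q : P3, p ∈ box S → q ∈ box S → Adj n o p q → ∀ k l : Fin (N + 1), k ≠ 0 → l ≠ 0 →
    ((k : ℕ) + W ≤ l ∨ (l : ℕ) + W ≤ k) → (l : ℕ) ≤ k + 3 * W → (k : ℕ) ≤ l + 3 * W →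
    κ ≤ c (k, pt n o p.1 p.2.1 p.2.2) (l, pt n o q.1 q.2.1 q.2.2)

section

variable {n N W m : ℕ} [NeZero n] {κ : ℝ} {S : ℕ} {o : Tor n} {c : Nd n N → Nd n N → ℝ}

theorem lay_ne {w j : ℕ} (hN : N = m * W) (hw : w < m) (hj : j < W) : lay N W w j ≠ 0 := by
  intro h
  have h1 := E155.lay_val hN hw hj
  rw [h] at h1
  simp only [Fin.val_zero] at h1
  omega

theorem Nb.full (H : Nb n N W m κ S o c) {p q : P3} (hp : p ∈ box S) (hq : q ∈ box S)
    (ha : Adj n o p q) {w w' j j' : ℕ} (hw : w < m) (hw' : w' < m)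
    (h : w' = w + 2 ∨ w = w' + 2) (hj : j < W) (hj' : j' < W) :
    κ ≤ c (nd n N W o p w j) (nd n N W o q w' j') := by
  have v1 := E155.lay_val H.hN hw hj
  have v2 := E155.lay_val H.hN hw' hj'
  refine H.cb p q hp hq ha _ _ (lay_ne H.hN hw hj) (lay_ne H.hN hw' hj') ?_ ?_ ?_
  · rw [v1, v2]
    rcases h with h | h
    · left; subst h
      have : (w + 2) * W = w * W + 2 * W := by ring
      omega
    · right; subst h
      have : (w' + 2) * W = w' * W + 2 * W := by ring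
      omega
  · rw [v1, v2]
    rcases h with h | h
    · subst h
      have : (w + 2) * W = w * W + 2 * W := by ring
      omega
    · subst h
      have : (w' + 2) * W = w' * W + 2 * W := by ring
      omega
  · rw [v1, v2]
    rcases h with h | h
    · subst h
      have : (w + 2) * W = w * W + 2 * W := by ring
      omega
    · subst h
      have : (w' + 2) * W = w' * W + 2 * W := by ring
      omega

theorem Nb.halfF (H : Nb n N W m κ S o c) {p q : P3} (hp : p ∈ box S) (hq : q ∈ box S)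
    (ha : Adj n o p q) {w j j' : ℕ} (hw' : w + 1 < m) (hj : j ∈ hA W) (hj' : j' ∈ hB W) :
    κ ≤ c (nd n N W o p w j) (nd n N W o q (w + 1) j') := by
  have h1 := hA_lt H.hW hj
  have h2 := hB_lt hj'
  have h3 := hA_le_hB hj hj'
  have v1 := E155.lay_val H.hN (show w < m by omega) h1
  have v2 := E155.lay_val H.hN hw' h2
  have e : (w + 1) * W = w * W + W := by ring
  refine H.cb p q hp hq ha _ _ (lay_ne H.hN (by omega) h1) (lay_ne H.hN hw' h2) ?_ ?_ ?_
  · rw [v1, v2]; left; omega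
  · rw [v1, v2]; omega
  · rw [v1, v2]; omega

theorem Nb.halfB (H : Nb n N W m κ S o c) {p q : P3} (hp : p ∈ box S) (hq : q ∈ box S)
    (ha : Adj n o p q) {w j j' : ℕ} (hw' : w + 1 < m) (hj : j ∈ hB W) (hj' : j' ∈ hA W) :
    κ ≤ c (nd n N W o p (w + 1) j) (nd n N W o q w j') := by
  have h1 := hB_lt hj
  have h2 := hA_lt H.hW hj'
  have h3 := hA_le_hB hj' hj
  have v1 := E155.lay_val H.hN hw' h1
  have v2 := E155.lay_val H.hN (show w < m by omega) h2
  have e : (w + 1) * W = w * W + W := by ring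
  refine H.cb p q hp hq ha _ _ (lay_ne H.hN hw' h1) (lay_ne H.hN (by omega) h2) ?_ ?_ ?_
  · rw [v1, v2]; right; omega
  · rw [v1, v2]; omega
  · rw [v1, v2]; omega

/-- The partner of a box point. -/
def st (S : ℕ) (p : P3) : P3 := (if p.1 + 1 < S then p.1 + 1 else p.1 - 1, p.2)

/-- The partner of a window. -/
def fw (m w : ℕ) : ℕ := if w + 2 < m then w + 2 else w - 2

theorem st_mem {S : ℕ} {p : P3} (hp : p ∈ box S) : st S p ∈ box S := by
  rw [mem_box] at hp ⊢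
  unfold st
  refine ⟨?_, hp.2.1, hp.2.2⟩
  dsimp only
  split_ifs with h
  · exact h
  · omega

theorem pt_succ0 (o : Tor n) (a b c : ℕ) :
    pt n o (a + 1) b c = pt n o a b c + Pi.single 0 1 := (pt_succ o a b c).1

theorem pt_succ1 (o : Tor n) (a b c : ℕ) :
    pt n o a (b + 1) c = pt n o a b c + Pi.single 1 1 := (pt_succ o a b c).2.1

theorem pt_succ2 (o : Tor n) (a b c : ℕ) :
    pt n o a b (c + 1) = pt n o a b c + Pi.single 2 1 := (pt_succ o a b c).2.2

theorem st_adj {S : ℕ} (hS2 : 2 ≤ S) (o : Tor n) {p : P3} (hp : p ∈ box S) :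
    Adj n o p (st S p) := by
  obtain ⟨x, y, z⟩ := p
  rw [mem_box] at hp
  simp only at hp
  unfold st Adj
  dsimp only
  by_cases h : x + 1 < S
  · rw [if_pos h]
    exact ⟨0, Or.inl (pt_succ0 o x y z)⟩
  · rw [if_neg h]
    obtain ⟨x', rfl⟩ : ∃ x', x = x' + 1 := ⟨x - 1, by omega⟩
    exact ⟨0, Or.inr (pt_succ0 o x' y z)⟩

theorem fw_lt {w : ℕ} (hw : w < m) : fw m w < m := by
  unfold fw; split_ifs <;> omega

theorem fw_two (hm : 4 ≤ m) {w : ℕ} (hw : w < m) : fw m w = w + 2 ∨ w = fw m w + 2 := by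
  unfold fw; split_ifs <;> omega

/-- Full family. -/
theorem Nb.F1 (H : Nb n N W m κ S o c) (a : Nd n N → ℝ) :
    κ * ∑ p ∈ box S, ∑ w ∈ range m, ∑ j ∈ range W, ∑ j' ∈ range W,
      (a (nd n N W o p w j) - a (nd n N W o (st S p) (fw m w) j')) ^ 2 ≤ 2 * netK c a := by
  have h := fam H.nn H.hN H.hS.le o a (κ := κ) (box S ×ˢ range m)
    (fun q => (st S q.1, fw m q.2)) (range W) (range W) (fun j hj => Finset.mem_range.1 hj)
    (fun j hj => Finset.mem_range.1 hj)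
    (by
      intro q hq
      rw [Finset.mem_product, Finset.mem_range] at hq
      exact ⟨hq.1, hq.2, fw_lt hq.2⟩)
    (by
      intro q hq j hj j' hj'
      rw [Finset.mem_product, Finset.mem_range] at hq
      exact H.full hq.1 (st_mem hq.1) (st_adj H.hS2 o hq.1) hq.2 (fw_lt hq.2)
        (fw_two H.hm hq.2) (Finset.mem_range.1 hj) (Finset.mem_range.1 hj'))
  rw [Finset.sum_product] at h
  exact h

/-- Total deviation. -/
theorem Nb.dev (H : Nb n N W m κ S o c) (a : Nd n N → ℝ) :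
    κ * W * ∑ p ∈ box S, ∑ w ∈ range m, Dm n N W o a p w ≤ 2 * netK c a := by
  refine le_trans ?_ (H.F1 a)
  rw [mul_assoc]
  refine mul_le_mul_of_nonneg_left ?_ H.hκ
  rw [Finset.mul_sum]
  refine Finset.sum_le_sum fun p _ => ?_
  rw [Finset.mul_sum]
  refine Finset.sum_le_sum fun w _ => ?_
  exact dev_le_pairs W H.hW (fun j => a (nd n N W o p w j))
    (fun j => a (nd n N W o (st S p) (fw m w) j))

theorem Nb.F1U (H : Nb n N W m κ S o c) (a : Nd n N → ℝ) :
    κ * (W : ℝ) ^ 2 * ∑ p ∈ box S, ∑ w ∈ range m,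
      (Um n N W o a p w - Um n N W o a (st S p) (fw m w)) ^ 2 ≤ 2 * netK c a := by
  refine le_trans ?_ (H.F1 a)
  rw [mul_assoc]
  refine mul_le_mul_of_nonneg_left ?_ H.hκ
  rw [Finset.mul_sum]
  refine Finset.sum_le_sum fun p _ => ?_
  rw [Finset.mul_sum]
  refine Finset.sum_le_sum fun w _ => ?_
  have h := jen (range W) (range W) (by simpa using H.hW) (by simpa using H.hW)
    (fun j => a (nd n N W o p w j)) (fun j => a (nd n N W o (st S p) (fw m w) j))
  rw [Finset.card_range, ← sq] at h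
  exact h

/-- Adjacent windows, forward. -/
theorem Nb.adjF (H : Nb n N W m κ S o c) (a : Nd n N → ℝ) (I : Finset P3) (V : Finset ℕ)
    (f : P3 → P3) (R : ℝ) (hI : I ⊆ box S) (hf : ∀ p ∈ I, f p ∈ box S ∧ Adj n o p (f p))
    (hV : ∀ w ∈ V, w + 1 < m)
    (hR : ∀ D : P3 → ℝ, (∀ p, 0 ≤ D p) → ∑ p ∈ I, D (f p) ≤ R * ∑ p ∈ box S, D p) :
    κ * (W : ℝ) ^ 2 * ∑ p ∈ I, ∑ w ∈ V,
      (Um n N W o a p w - Um n N W o a (f p) (w + 1)) ^ 2 ≤ (36 + 12 * R) * netK c a := by
  have h := fam H.nn H.hN H.hS.le o a (κ := κ) (I ×ˢ V)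
    (fun q => (f q.1, q.2 + 1)) (hA W) (hB W) (fun j hj => hA_lt H.hW hj)
    (fun j hj => hB_lt hj)
    (by
      intro q hq
      rw [Finset.mem_product] at hq
      have := hV _ hq.2
      exact ⟨hI hq.1, by omega, this⟩)
    (by
      intro q hq j hj j' hj'
      rw [Finset.mem_product] at hq
      exact H.halfF (hI hq.1) (hf _ hq.1).1 (hf _ hq.1).2 (hV _ hq.2) hj hj')
  rw [Finset.sum_product] at h
  have hdev := H.dev a
  have hD : ∀ p w, 0 ≤ Dm n N W o a p w := Dm_nonneg n N W o a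
  have hVr : V ⊆ range m := fun w hw => Finset.mem_range.2 (by have := hV w hw; omega)
  have hV1 : ∀ g : ℕ → ℝ, (∀ w, 0 ≤ g w) → ∑ w ∈ V, g (w + 1) ≤ ∑ w ∈ range m, g w := by
    intro g hg
    rw [← Finset.sum_image (f := g) (g := fun w => w + 1) (fun x _ y _ hxy => by
      simpa using hxy)]
    refine Finset.sum_le_sum_of_subset_of_nonneg ?_ (fun _ _ _ => hg _)
    intro x hx
    obtain ⟨w, hw, rfl⟩ := Finset.mem_image.1 hx
    exact Finset.mem_range.2 (hV w hw)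
  have h1 : ∑ p ∈ I, ∑ w ∈ V, Dm n N W o a p w ≤
      ∑ p ∈ box S, ∑ w ∈ range m, Dm n N W o a p w := by
    refine le_trans (Finset.sum_le_sum fun p _ =>
      Finset.sum_le_sum_of_subset_of_nonneg hVr (fun _ _ _ => hD p _)) ?_
    exact Finset.sum_le_sum_of_subset_of_nonneg hI
      (fun p _ _ => Finset.sum_nonneg fun w _ => hD p w)
  have h2 : ∑ p ∈ I, ∑ w ∈ V, Dm n N W o a (f p) (w + 1) ≤
      R * ∑ p ∈ box S, ∑ w ∈ range m, Dm n N W o a p w := by
    refine le_trans (Finset.sum_le_sum fun p _ => hV1 (fun w => Dm n N W o a (f p) w)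
      (fun w => hD _ w)) ?_
    exact hR (fun p => ∑ w ∈ range m, Dm n N W o a p w)
      (fun p => Finset.sum_nonneg fun w _ => hD p w)
  have h3 : (W : ℝ) ^ 2 * ∑ p ∈ I, ∑ w ∈ V,
      (Um n N W o a p w - Um n N W o a (f p) (w + 1)) ^ 2 ≤
      6 * (W * ∑ p ∈ I, ∑ w ∈ V, Dm n N W o a p w) +
      12 * ∑ p ∈ I, ∑ w ∈ V, ∑ j ∈ hA W, ∑ j' ∈ hB W,
        (a (nd n N W o p w j) - a (nd n N W o (f p) (w + 1) j')) ^ 2 +
      6 * (W * ∑ p ∈ I, ∑ w ∈ V, Dm n N W o a (f p) (w + 1)) := by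
    simp only [Finset.mul_sum, ← Finset.sum_add_distrib]
    refine Finset.sum_le_sum fun p _ => Finset.sum_le_sum fun w _ => ?_
    have := half_le W H.hW (fun j => a (nd n N W o p w j))
      (fun j => a (nd n N W o (f p) (w + 1) j))
    simp only [Finset.mul_sum] at this
    unfold Dm Um
    simp only [Finset.mul_sum]
    exact this
  have h4 := mul_le_mul_of_nonneg_left h3 H.hκ
  have hWr : (0 : ℝ) ≤ κ * W := mul_nonneg H.hκ (Nat.cast_nonneg _)
  have h5 := mul_le_mul_of_nonneg_left h1 hWr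
  have h6 := mul_le_mul_of_nonneg_left h2 hWr
  have hR0 : 0 ≤ R := by
    by_contra hcon
    have h7 := hR (fun _ => 1) (fun _ => zero_le_one)
    have h8 : (0 : ℝ) < ∑ p ∈ box S, (1 : ℝ) := by
      rw [Finset.sum_const, nsmul_eq_mul, mul_one]
      have hS0 : 0 < S := by have := H.hS2; omega
      have : 0 < (box S).card := Finset.card_pos.2 ⟨(0, 0, 0), by
        rw [mem_box]; exact ⟨hS0, hS0, hS0⟩⟩
      exact_mod_cast this
    have h9 : (0 : ℝ) ≤ ∑ p ∈ I, (1 : ℝ) := Finset.sum_nonneg fun _ _ => zero_le_one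
    nlinarith [not_le.1 hcon]
  have h10 := mul_le_mul_of_nonneg_left hdev hR0
  nlinarith

/-- Adjacent windows, backward. -/
theorem Nb.adjB (H : Nb n N W m κ S o c) (a : Nd n N → ℝ) (I : Finset P3) (V : Finset ℕ)
    (f : P3 → P3) (R : ℝ) (hI : I ⊆ box S) (hf : ∀ p ∈ I, f p ∈ box S ∧ Adj n o p (f p))
    (hV : ∀ w ∈ V, w + 1 < m)
    (hR : ∀ D : P3 → ℝ, (∀ p, 0 ≤ D p) → ∑ p ∈ I, D (f p) ≤ R * ∑ p ∈ box S, D p) :
    κ * (W : ℝ) ^ 2 * ∑ p ∈ I, ∑ w ∈ V,
      (Um n N W o a (f p) w - Um n N W o a p (w + 1)) ^ 2 ≤ (36 + 12 * R) * netK c a := by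
  have h := fam H.nn H.hN H.hS.le o a (κ := κ) ((I ×ˢ V).image fun q => (q.1, q.2 + 1))
    (fun q => (f q.1, q.2 - 1)) (hB W) (hA W) (fun j hj => hB_lt hj)
    (fun j hj => hA_lt H.hW hj)
    (by
      intro q hq
      obtain ⟨⟨p, w⟩, hq', rfl⟩ := Finset.mem_image.1 hq
      rw [Finset.mem_product] at hq'
      have := hV _ hq'.2
      exact ⟨hI hq'.1, this, by simp only at this ⊢; omega⟩)
    (by
      intro q hq j hj j' hj'
      obtain ⟨⟨p, w⟩, hq', rfl⟩ := Finset.mem_image.1 hq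
      rw [Finset.mem_product] at hq'
      simp only [Nat.add_sub_cancel]
      exact H.halfB (hI hq'.1) (hf _ hq'.1).1 (hf _ hq'.1).2 (hV _ hq'.2) hj hj')
  rw [Finset.sum_image (by
    rintro ⟨p, w⟩ _ ⟨p', w'⟩ _ he
    simp only [Prod.mk.injEq, Nat.add_right_cancel_iff] at he
    rw [he.1, he.2]), Finset.sum_product] at h
  simp only [Nat.add_sub_cancel] at h
  have hdev := H.dev a
  have hD : ∀ p w, 0 ≤ Dm n N W o a p w := Dm_nonneg n N W o a
  have hVr : V ⊆ range m := fun w hw => Finset.mem_range.2 (by have := hV w hw; omega)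
  have hV1 : ∀ g : ℕ → ℝ, (∀ w, 0 ≤ g w) → ∑ w ∈ V, g (w + 1) ≤ ∑ w ∈ range m, g w := by
    intro g hg
    rw [← Finset.sum_image (f := g) (g := fun w => w + 1) (fun x _ y _ hxy => by
      simpa using hxy)]
    refine Finset.sum_le_sum_of_subset_of_nonneg ?_ (fun _ _ _ => hg _)
    intro x hx
    obtain ⟨w, hw, rfl⟩ := Finset.mem_image.1 hx
    exact Finset.mem_range.2 (hV w hw)
  have h1 : ∑ p ∈ I, ∑ w ∈ V, Dm n N W o a p (w + 1) ≤
      ∑ p ∈ box S, ∑ w ∈ range m, Dm n N W o a p w := by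
    refine le_trans (Finset.sum_le_sum fun p _ => hV1 (fun w => Dm n N W o a p w)
      (fun w => hD _ w)) ?_
    exact Finset.sum_le_sum_of_subset_of_nonneg hI
      (fun p _ _ => Finset.sum_nonneg fun w _ => hD p w)
  have h2 : ∑ p ∈ I, ∑ w ∈ V, Dm n N W o a (f p) w ≤
      R * ∑ p ∈ box S, ∑ w ∈ range m, Dm n N W o a p w := by
    refine le_trans (Finset.sum_le_sum fun p _ =>
      Finset.sum_le_sum_of_subset_of_nonneg hVr (fun _ _ _ => hD _ _)) ?_
    exact hR (fun p => ∑ w ∈ range m, Dm n N W o a p w)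
      (fun p => Finset.sum_nonneg fun w _ => hD p w)
  have h3 : (W : ℝ) ^ 2 * ∑ p ∈ I, ∑ w ∈ V,
      (Um n N W o a (f p) w - Um n N W o a p (w + 1)) ^ 2 ≤
      6 * (W * ∑ p ∈ I, ∑ w ∈ V, Dm n N W o a (f p) w) +
      12 * ∑ p ∈ I, ∑ w ∈ V, ∑ j ∈ hB W, ∑ j' ∈ hA W,
        (a (nd n N W o p (w + 1) j) - a (nd n N W o (f p) w j')) ^ 2 +
      6 * (W * ∑ p ∈ I, ∑ w ∈ V, Dm n N W o a p (w + 1)) := by
    simp only [Finset.mul_sum, ← Finset.sum_add_distrib]
    refine Finset.sum_le_sum fun p _ => Finset.sum_le_sum fun w _ => ?_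
    have := half_le W H.hW (fun j => a (nd n N W o (f p) w j))
      (fun j => a (nd n N W o p (w + 1) j))
    rw [Finset.sum_comm (s := hA W) (t := hB W)] at this
    have e : ∀ j ∈ hB W, ∀ j' ∈ hA W,
        (a (nd n N W o (f p) w j') - a (nd n N W o p (w + 1) j)) ^ 2 =
        (a (nd n N W o p (w + 1) j) - a (nd n N W o (f p) w j')) ^ 2 := fun j _ j' _ => by ring
    rw [Finset.sum_congr rfl fun j hj => Finset.sum_congr rfl fun j' hj' => e j hj j' hj'] at this
    simp only [Finset.mul_sum] at this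
    unfold Dm Um
    simp only [Finset.mul_sum]
    exact this
  have h4 := mul_le_mul_of_nonneg_left h3 H.hκ
  have hWr : (0 : ℝ) ≤ κ * W := mul_nonneg H.hκ (Nat.cast_nonneg _)
  have h5 := mul_le_mul_of_nonneg_left h1 hWr
  have h6 := mul_le_mul_of_nonneg_left h2 hWr
  have hR0 : 0 ≤ R := by
    by_contra hcon
    have h7 := hR (fun _ => 1) (fun _ => zero_le_one)
    have h8 : (0 : ℝ) < ∑ p ∈ box S, (1 : ℝ) := by
      rw [Finset.sum_const, nsmul_eq_mul, mul_one]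
      have hS0 : 0 < S := by have := H.hS2; omega
      have : 0 < (box S).card := Finset.card_pos.2 ⟨(0, 0, 0), by
        rw [mem_box]; exact ⟨hS0, hS0, hS0⟩⟩
      exact_mod_cast this
    have h9 : (0 : ℝ) ≤ ∑ p ∈ I, (1 : ℝ) := Finset.sum_nonneg fun _ _ => zero_le_one
    nlinarith [not_le.1 hcon]
  have h10 := mul_le_mul_of_nonneg_left hdev hR0
  nlinarith

theorem inj_R {I : Finset P3} {f : P3 → P3} (hf : ∀ p ∈ I, f p ∈ box S)
    (hinj : ∀ p q, f p = f q → p = q) (D : P3 → ℝ) (hD : ∀ p, 0 ≤ D p) :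
    ∑ p ∈ I, D (f p) ≤ 1 * ∑ p ∈ box S, D p := by
  rw [one_mul, ← Finset.sum_image (f := D) (g := f) (fun p _ q _ h => hinj p q h)]
  refine Finset.sum_le_sum_of_subset_of_nonneg ?_ (fun _ _ _ => hD _)
  intro x hx
  obtain ⟨w, hw, rfl⟩ := Finset.mem_image.1 hx
  exact hf w hw

theorem st_R (D : P3 → ℝ) (hD : ∀ p, 0 ≤ D p) :
    ∑ p ∈ box S, D (st S p) ≤ 2 * ∑ p ∈ box S, D p := by
  classical
  have h1 : ∑ p ∈ box S, D (st S p) =
      ∑ p ∈ (box S).filter (fun p => p.1 + 1 < S), D (st S p) +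
      ∑ p ∈ (box S).filter (fun p => ¬ p.1 + 1 < S), D (st S p) :=
    (Finset.sum_filter_add_sum_filter_not _ _ _).symm
  have h2 : ∑ p ∈ (box S).filter (fun p => p.1 + 1 < S), D (st S p) ≤ ∑ p ∈ box S, D p := by
    rw [← Finset.sum_image (f := D) (g := st S)]
    · refine Finset.sum_le_sum_of_subset_of_nonneg ?_ (fun _ _ _ => hD _)
      intro x hx
      obtain ⟨w, hw, rfl⟩ := Finset.mem_image.1 hx
      exact st_mem (Finset.mem_filter.1 hw).1
    · intro p hp q hq h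
      have hp' := (Finset.mem_filter.1 hp).2
      have hq' := (Finset.mem_filter.1 hq).2
      unfold st at h
      rw [if_pos hp', if_pos hq', Prod.mk.injEq] at h
      exact Prod.ext (by omega) h.2
  have h3 : ∑ p ∈ (box S).filter (fun p => ¬ p.1 + 1 < S), D (st S p) ≤ ∑ p ∈ box S, D p := by
    rw [← Finset.sum_image (f := D) (g := st S)]
    · refine Finset.sum_le_sum_of_subset_of_nonneg ?_ (fun _ _ _ => hD _)
      intro x hx
      obtain ⟨w, hw, rfl⟩ := Finset.mem_image.1 hx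
      exact st_mem (Finset.mem_filter.1 hw).1
    · intro p hp q hq h
      have hp1 := (mem_box.1 (Finset.mem_filter.1 hp).1).1
      have hq1 := (mem_box.1 (Finset.mem_filter.1 hq).1).1
      have hp' := (Finset.mem_filter.1 hp).2
      have hq' := (Finset.mem_filter.1 hq).2
      unfold st at h
      rw [if_neg hp', if_neg hq', Prod.mk.injEq] at h
      exact Prod.ext (by omega) h.2
  linarith

/-- Squared increment in time. -/
noncomputable def TT (n N W : ℕ) (o : Tor n) (a : Nd n N → ℝ) (p : P3) (w : ℕ) : ℝ :=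
  (Um n N W o a p (w + 1) - Um n N W o a p w) ^ 2

/-- Time edges. -/
theorem Nb.time (H : Nb n N W m κ S o c) (a : Nd n N → ℝ) :
    κ * (W : ℝ) ^ 2 * ∑ p ∈ box S, ∑ w ∈ range (m - 1), TT n N W o a p w ≤ 248 * netK c a := by
  have hm := H.hm
  have hκW : 0 ≤ κ * (W : ℝ) ^ 2 := mul_nonneg H.hκ (sq_nonneg _)
  have hstI : ∀ p ∈ box S, st S p ∈ box S ∧ Adj n o p (st S p) :=
    fun p hp => ⟨st_mem hp, st_adj H.hS2 o hp⟩
  have hF := H.adjF a (box S) ((range (m - 2)).image fun w => w + 1) (st S) 2 (Finset.Subset.refl _)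
    hstI (by
      intro w hw
      obtain ⟨v, hv, rfl⟩ := Finset.mem_image.1 hw
      rw [Finset.mem_range] at hv
      omega) st_R
  have hF' : ∀ p, ∑ w ∈ (range (m - 2)).image (fun w => w + 1),
      (Um n N W o a p w - Um n N W o a (st S p) (w + 1)) ^ 2 =
      ∑ w ∈ range (m - 2), (Um n N W o a p (w + 1) - Um n N W o a (st S p) (w + 2)) ^ 2 := by
    intro p
    rw [Finset.sum_image (fun x _ y _ h => by simpa using h)]
  simp only [hF'] at hF
  have hB := H.adjB a (box S) {m - 3} (st S) 2 (Finset.Subset.refl _) hstI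
    (by intro w hw; rw [Finset.mem_singleton] at hw; omega) st_R
  simp only [Finset.sum_singleton] at hB
  have hU := H.F1U a
  -- the sum over `w < m - 2`
  have e1 : ∀ p, ∑ w ∈ range (m - 1), TT n N W o a p w =
      ∑ w ∈ range (m - 2), TT n N W o a p w + TT n N W o a p (m - 2) := by
    intro p
    rw [show m - 1 = (m - 2) + 1 by omega, Finset.sum_range_succ]
  simp only [e1, Finset.sum_add_distrib]
  have k1 : ∑ p ∈ box S, ∑ w ∈ range (m - 2), TT n N W o a p w ≤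
      2 * ∑ p ∈ box S, ∑ w ∈ range m,
        (Um n N W o a p w - Um n N W o a (st S p) (fw m w)) ^ 2 +
      2 * ∑ p ∈ box S, ∑ w ∈ range (m - 2),
        (Um n N W o a p (w + 1) - Um n N W o a (st S p) (w + 2)) ^ 2 := by
    have k2 : ∑ p ∈ box S, ∑ w ∈ range (m - 2),
        (Um n N W o a p w - Um n N W o a (st S p) (fw m w)) ^ 2 ≤
        ∑ p ∈ box S, ∑ w ∈ range m,
        (Um n N W o a p w - Um n N W o a (st S p) (fw m w)) ^ 2 :=
      Finset.sum_le_sum fun p _ => Finset.sum_le_sum_of_subset_of_nonneg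
        (Finset.range_subset_range.2 (by omega)) (fun _ _ _ => sq_nonneg _)
    have k3 : ∑ p ∈ box S, ∑ w ∈ range (m - 2), TT n N W o a p w ≤
        2 * ∑ p ∈ box S, ∑ w ∈ range (m - 2),
          (Um n N W o a p w - Um n N W o a (st S p) (fw m w)) ^ 2 +
        2 * ∑ p ∈ box S, ∑ w ∈ range (m - 2),
          (Um n N W o a p (w + 1) - Um n N W o a (st S p) (w + 2)) ^ 2 := by
      simp only [Finset.mul_sum, ← Finset.sum_add_distrib]
      refine Finset.sum_le_sum fun p _ => Finset.sum_le_sum fun w hw => ?_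
      rw [Finset.mem_range] at hw
      have hfw : fw m w = w + 2 := by unfold fw; rw [if_pos (by omega)]
      rw [hfw]
      unfold TT
      nlinarith [sq_nonneg ((Um n N W o a p w - Um n N W o a (st S p) (w + 2)) +
        (Um n N W o a p (w + 1) - Um n N W o a (st S p) (w + 2)))]
    linarith
  have k4 : ∑ p ∈ box S, TT n N W o a p (m - 2) ≤
      2 * ∑ p ∈ box S, ∑ w ∈ range m,
        (Um n N W o a p w - Um n N W o a (st S p) (fw m w)) ^ 2 +
      2 * ∑ p ∈ box S, (Um n N W o a (st S p) (m - 3) - Um n N W o a p (m - 3 + 1)) ^ 2 := by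
    have k5 : ∑ p ∈ box S, (Um n N W o a p (m - 1) - Um n N W o a (st S p) (fw m (m - 1))) ^ 2 ≤
        ∑ p ∈ box S, ∑ w ∈ range m,
        (Um n N W o a p w - Um n N W o a (st S p) (fw m w)) ^ 2 :=
      Finset.sum_le_sum fun p _ => Finset.single_le_sum
        (f := fun w => (Um n N W o a p w - Um n N W o a (st S p) (fw m w)) ^ 2)
        (fun _ _ => sq_nonneg _) (Finset.mem_range.2 (by omega))
    have k6 : ∑ p ∈ box S, TT n N W o a p (m - 2) ≤
        2 * ∑ p ∈ box S, (Um n N W o a p (m - 1) - Um n N W o a (st S p) (fw m (m - 1))) ^ 2 +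
        2 * ∑ p ∈ box S, (Um n N W o a (st S p) (m - 3) - Um n N W o a p (m - 3 + 1)) ^ 2 := by
      simp only [Finset.mul_sum, ← Finset.sum_add_distrib]
      refine Finset.sum_le_sum fun p _ => ?_
      have hfw : fw m (m - 1) = m - 3 := by unfold fw; rw [if_neg (by omega)]; omega
      have e2 : m - 3 + 1 = m - 2 := by omega
      have e3 : m - 2 + 1 = m - 1 := by omega
      rw [hfw, e2]
      unfold TT
      rw [e3]
      nlinarith [sq_nonneg ((Um n N W o a p (m - 1) - Um n N W o a (st S p) (m - 3)) -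
        (Um n N W o a (st S p) (m - 3) - Um n N W o a p (m - 2)))]
    linarith
  have k7 := mul_le_mul_of_nonneg_left (add_le_add k1 k4) hκW
  nlinarith

/-- Space edges in one direction. -/
theorem Nb.space (H : Nb n N W m κ S o c) (a : Nd n N → ℝ) (I : Finset P3) (f : P3 → P3)
    (hI : I ⊆ box S) (hf : ∀ p ∈ I, f p ∈ box S ∧ Adj n o p (f p))
    (hinj : ∀ p q, f p = f q → p = q) :
    κ * (W : ℝ) ^ 2 * ∑ p ∈ I, ∑ w ∈ range m,
      (Um n N W o a (f p) w - Um n N W o a p w) ^ 2 ≤ 1200 * netK c a := by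
  have hm := H.hm
  have hκW : 0 ≤ κ * (W : ℝ) ^ 2 := mul_nonneg H.hκ (sq_nonneg _)
  have hR := fun D hD => inj_R (S := S) (I := I) (f := f) (fun p hp => (hf p hp).1) hinj D hD
  have hF := H.adjF a I (range (m - 1)) f 1 hI hf
    (by intro w hw; rw [Finset.mem_range] at hw; omega) hR
  have hB := H.adjB a I {m - 2} f 1 hI hf
    (by intro w hw; rw [Finset.mem_singleton] at hw; omega) hR
  simp only [Finset.sum_singleton] at hB
  have hT := H.time a
  have hTI : ∑ p ∈ I, ∑ w ∈ range (m - 1), TT n N W o a (f p) w ≤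
      ∑ p ∈ box S, ∑ w ∈ range (m - 1), TT n N W o a p w := by
    have := hR (fun p => ∑ w ∈ range (m - 1), TT n N W o a p w)
      (fun p => Finset.sum_nonneg fun w _ => sq_nonneg _)
    rwa [one_mul] at this
  have hTl : ∑ p ∈ I, TT n N W o a (f p) (m - 2) ≤
      ∑ p ∈ I, ∑ w ∈ range (m - 1), TT n N W o a (f p) w :=
    Finset.sum_le_sum fun p _ => Finset.single_le_sum
      (f := fun w => TT n N W o a (f p) w) (fun _ _ => sq_nonneg _)
      (Finset.mem_range.2 (by omega))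
  have e1 : ∀ p, ∑ w ∈ range m, (Um n N W o a (f p) w - Um n N W o a p w) ^ 2 =
      ∑ w ∈ range (m - 1), (Um n N W o a (f p) w - Um n N W o a p w) ^ 2 +
      (Um n N W o a (f p) (m - 1) - Um n N W o a p (m - 1)) ^ 2 := by
    intro p
    conv_lhs => rw [show m = (m - 1) + 1 by omega]
    rw [Finset.sum_range_succ]
  simp only [e1, Finset.sum_add_distrib]
  have k1 : ∑ p ∈ I, ∑ w ∈ range (m - 1), (Um n N W o a (f p) w - Um n N W o a p w) ^ 2 ≤
      2 * ∑ p ∈ I, ∑ w ∈ range (m - 1),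
        (Um n N W o a p w - Um n N W o a (f p) (w + 1)) ^ 2 +
      2 * ∑ p ∈ I, ∑ w ∈ range (m - 1), TT n N W o a (f p) w := by
    simp only [Finset.mul_sum, ← Finset.sum_add_distrib]
    refine Finset.sum_le_sum fun p _ => Finset.sum_le_sum fun w _ => ?_
    unfold TT
    nlinarith [sq_nonneg ((Um n N W o a p w - Um n N W o a (f p) (w + 1)) -
      (Um n N W o a (f p) (w + 1) - Um n N W o a (f p) w))]
  have k2 : ∑ p ∈ I, (Um n N W o a (f p) (m - 1) - Um n N W o a p (m - 1)) ^ 2 ≤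
      2 * ∑ p ∈ I, (Um n N W o a (f p) (m - 2) - Um n N W o a p (m - 2 + 1)) ^ 2 +
      2 * ∑ p ∈ I, TT n N W o a (f p) (m - 2) := by
    simp only [Finset.mul_sum, ← Finset.sum_add_distrib]
    refine Finset.sum_le_sum fun p _ => ?_
    unfold TT
    rw [show m - 2 + 1 = m - 1 by omega]
    nlinarith [sq_nonneg ((Um n N W o a (f p) (m - 2) - Um n N W o a p (m - 1)) -
      (Um n N W o a (f p) (m - 1) - Um n N W o a (f p) (m - 2)))]
  have k7 := mul_le_mul_of_nonneg_left (add_le_add k1 k2) hκW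
  have k8 := mul_le_mul_of_nonneg_left hTI hκW
  have k9 := mul_le_mul_of_nonneg_left hTl hκW
  have hK : 0 ≤ netK c a := netK_nonneg H.nn a
  linarith

end

theorem sum_box (S : ℕ) (F : ℕ → ℕ → ℕ → ℝ) :
    ∑ x ∈ range S, ∑ y ∈ range S, ∑ z ∈ range S, F x y z = ∑ p ∈ box S, F p.1 p.2.1 p.2.2 := by
  unfold box
  rw [Finset.sum_product]
  refine Finset.sum_congr rfl fun x _ => ?_
  rw [Finset.sum_product]

/-- `LocalN` gives the package `Nb` on every cube where the field is `1`. -/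
theorem nb_of {n N W m : ℕ} [NeZero n] {β K c1 : ℝ} {b : Finset (Tor n)} {h : Tor n → ℝ}
    {c : Nd n N → Nd n N → ℝ} (hW : 0 < W) (hm : 4 ≤ m) (hN : N = m * W)
    (hc1 : 0 < c1) (hc : LocalN n N W β K c1 b h c) (o : Tor n) (S : ℕ) (hS2 : 2 ≤ S)
    (hS : S < n) (h1 : ∀ x ∈ cube n o S, h x = 1) :
    Nb n N W m (c1 * (β / N) ^ 2) S o c where
  hW := hW
  hm := hm
  hN := hN
  hS2 := hS2
  hS := hS
  hκ := by positivity
  nn := hc.nonneg
  cb := by
    have hmem : ∀ p ∈ box S, pt n o p.1 p.2.1 p.2.2 ∈ cube n o S := fun p hp => by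
      rw [mem_box] at hp
      exact (mem_cube_iff o _ S).2 ⟨p.1, hp.1, p.2.1, hp.2.1, p.2.2, hp.2.2, rfl⟩
    intro p q hp hq ha k l hk hl h2 h3 h4
    obtain ⟨i, hi | hi⟩ := ha
    · rw [hi]
      refine hc.nbr k l _ i hk hl h2 h3 h4 (h1 _ (hmem p hp)) ?_
      rw [← hi]
      exact h1 _ (hmem q hq)
    · rw [hc.symm, hi]
      refine hc.nbr l k _ i hl hk h2.symm h4 h3 (h1 _ (hmem q hq)) ?_
      rw [← hi]
      exact h1 _ (hmem p hp)

/-- **Energy form from nearest neighbour conductances.** -/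
theorem localE_of {n N W m : ℕ} [NeZero n] {β K c1 : ℝ} {b : Finset (Tor n)} {h : Tor n → ℝ}
    {c : Nd n N → Nd n N → ℝ} (hW : 0 < W) (hm : 4 ≤ m) (hN : N = m * W) (hβ : 0 < β)
    (hc1 : 0 < c1) (hc : LocalN n N W β K c1 b h c) :
    LocalE n N W m β K (c1 / 200) b h c where
  symm := hc.symm
  nonneg := hc.nonneg
  tot := hc.tot
  e4 := by
    intro o S hS2 hS h1 a
    have H := nb_of hW hm hN hc1 hc o S hS2 hS h1
    have hWr : (0 : ℝ) < W := by exact_mod_cast hW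
    have hmr : (0 : ℝ) < m := by exact_mod_cast (by omega : 0 < m)
    have hNr : (N : ℝ) = m * W := by rw [hN]; push_cast; ring
    have e1 : c1 * (β / N) ^ 2 * (W : ℝ) ^ 2 = c1 * (β / m) ^ 2 := by
      rw [hNr]; field_simp
    have hT := H.time a
    have hinj0 : ∀ p q : P3, (p.1 + 1, p.2) = (q.1 + 1, q.2) → p = q := by
      rintro ⟨p1, p2⟩ ⟨q1, q2⟩ he
      simp only [Prod.mk.injEq, Nat.add_right_cancel_iff] at he
      rw [he.1, he.2]
    have hinj1 : ∀ p q : P3, (p.1, p.2.1 + 1, p.2.2) = (q.1, q.2.1 + 1, q.2.2) → p = q := by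
      rintro ⟨p1, p2, p3⟩ ⟨q1, q2, q3⟩ he
      simp only [Prod.mk.injEq, Nat.add_right_cancel_iff] at he
      rw [he.1, he.2.1, he.2.2]
    have hinj2 : ∀ p q : P3, (p.1, p.2.1, p.2.2 + 1) = (q.1, q.2.1, q.2.2 + 1) → p = q := by
      rintro ⟨p1, p2, p3⟩ ⟨q1, q2, q3⟩ he
      simp only [Prod.mk.injEq, Nat.add_right_cancel_iff] at he
      rw [he.1, he.2.1, he.2.2]
    have hX := H.space a (range (S - 1) ×ˢ range S ×ˢ range S) (fun p => (p.1 + 1, p.2))
      (by
        intro p hp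
        rw [Finset.mem_product, Finset.mem_product, Finset.mem_range, Finset.mem_range,
          Finset.mem_range] at hp
        rw [mem_box]; exact ⟨by omega, hp.2.1, hp.2.2⟩)
      (by
        intro p hp
        rw [Finset.mem_product, Finset.mem_product, Finset.mem_range, Finset.mem_range,
          Finset.mem_range] at hp
        refine ⟨?_, 0, Or.inl (pt_succ0 o _ _ _)⟩
        rw [mem_box]; exact ⟨by simp only; omega, hp.2.1, hp.2.2⟩)
      hinj0
    have hY := H.space a (range S ×ˢ range (S - 1) ×ˢ range S) (fun p => (p.1, p.2.1 + 1, p.2.2))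
      (by
        intro p hp
        rw [Finset.mem_product, Finset.mem_product, Finset.mem_range, Finset.mem_range,
          Finset.mem_range] at hp
        rw [mem_box]; exact ⟨hp.1, by omega, hp.2.2⟩)
      (by
        intro p hp
        rw [Finset.mem_product, Finset.mem_product, Finset.mem_range, Finset.mem_range,
          Finset.mem_range] at hp
        refine ⟨?_, 1, Or.inl (pt_succ1 o _ _ _)⟩
        rw [mem_box]; exact ⟨hp.1, by simp only; omega, hp.2.2⟩)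
      hinj1
    have hZ := H.space a (range S ×ˢ range S ×ˢ range (S - 1)) (fun p => (p.1, p.2.1, p.2.2 + 1))
      (by
        intro p hp
        rw [Finset.mem_product, Finset.mem_product, Finset.mem_range, Finset.mem_range,
          Finset.mem_range] at hp
        rw [mem_box]; exact ⟨hp.1, hp.2.1, by omega⟩)
      (by
        intro p hp
        rw [Finset.mem_product, Finset.mem_product, Finset.mem_range, Finset.mem_range,
          Finset.mem_range] at hp
        refine ⟨?_, 2, Or.inl (pt_succ2 o _ _ _)⟩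
        rw [mem_box]; exact ⟨hp.1, hp.2.1, by simp only; omega⟩)
      hinj2
    simp only [Finset.sum_product] at hX hY hZ
    have hT' : ∑ x ∈ range S, ∑ y ∈ range S, ∑ z ∈ range S, ∑ w ∈ range (m - 1),
        TT n N W o a (x, y, z) w = ∑ p ∈ box S, ∑ w ∈ range (m - 1), TT n N W o a p w :=
      sum_box S fun x y z => ∑ w ∈ range (m - 1), TT n N W o a (x, y, z) w
    rw [← hT'] at hT
    rw [e1] at hX hY hZ hT
    have hE : c1 * (β / m) ^ 2 * E4 S m (UU n N W o a) ≤ 4000 * netK c a := by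
      have hKn : 0 ≤ netK c a := netK_nonneg hc.nonneg a
      unfold E4 Esp Eti
      simp only [Um_eq]
      unfold TT at hT
      rw [mul_add, mul_add, mul_add]
      linarith
    have hKn : 0 ≤ netK c a := netK_nonneg hc.nonneg a
    have e2 : c1 / 200 * (β / m) ^ 2 * E4 S m (UU n N W o a) =
        (c1 * (β / m) ^ 2 * E4 S m (UU n N W o a)) / 200 := by ring
    rw [e2]
    linarith
  dev := by
    intro o S hS2 hS h1 a
    have H := nb_of hW hm hN hc1 hc o S hS2 hS h1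
    have hWr : (0 : ℝ) < W := by exact_mod_cast hW
    have hmr : (0 : ℝ) < m := by exact_mod_cast (by omega : 0 < m)
    have hNr : (N : ℝ) = m * W := by rw [hN]; push_cast; ring
    have e1 : c1 * (β / N) ^ 2 * (W : ℝ) = c1 * (β / m) * (β / N) := by
      rw [hNr]; field_simp
    have hD := H.dev a
    have hD' : ∑ x ∈ range S, ∑ y ∈ range S, ∑ z ∈ range S, ∑ w ∈ range m,
        Dm n N W o a (x, y, z) w = ∑ p ∈ box S, ∑ w ∈ range m, Dm n N W o a p w :=
      sum_box S fun x y z => ∑ w ∈ range m, Dm n N W o a (x, y, z) w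
    rw [← hD', e1] at hD
    unfold Dm nd at hD
    have hKn : 0 ≤ netK c a := netK_nonneg hc.nonneg a
    simp only [Um_eq]
    have e2 : ∀ X : ℝ, c1 / 200 * (β / m) * (β / N) * X = (c1 * (β / m) * (β / N) * X) / 200 :=
      fun X => by ring
    rw [e2]
    linarith
  contact := by
    intro hb h1 a ha
    have hk0 : ∀ j ∈ range W, (lay N W 0 j : Fin (N + 1)) ≠ 0 := by
      intro j hj h
      have h2 := contact_lay hm hN (Finset.mem_range.1 hj)
      rw [h, Fin.val_zero] at h2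
      omega
    have h2 := contact_pairs hc.symm hc.nonneg a (b ×ˢ range W)
      (fun z => ((0 : Fin (N + 1)), z.1)) (fun z => (lay N W 0 z.2, z.1))
      (fun z hz z' hz' e1 e2 => by
        have hx : z.1 = z'.1 := congrArg Prod.snd e1
        have hj : lay N W 0 z.2 = lay N W 0 z'.2 := congrArg Prod.fst e2
        have h3 := contact_lay hm hN (Finset.mem_range.1 (Finset.mem_product.1 hz).2)
        have h4 := contact_lay hm hN (Finset.mem_range.1 (Finset.mem_product.1 hz').2)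
        rw [hj, h4] at h3
        exact Prod.ext hx (by omega))
      (fun z _ z' hz' e => hk0 z'.2 (Finset.mem_product.1 hz').2 (congrArg Prod.fst e).symm)
    have h6 : c1 * K * (β / N) * (1 / b.card) *
        (∑ x ∈ b, ∑ j ∈ range W, (1 - a (lay N W 0 j, x)) ^ 2) ≤ netK c a := by
      refine le_trans ?_ h2
      rw [Finset.sum_product, Finset.mul_sum]
      refine Finset.sum_le_sum fun x hx => ?_
      rw [Finset.mul_sum]
      refine Finset.sum_le_sum fun j hj => ?_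
      have h3 := contact_lay hm hN (Finset.mem_range.1 hj)
      have h4 := hc.contact (lay N W 0 j) x (hk0 j hj)
        (by rw [h3]; have := Finset.mem_range.1 hj; omega) hx (h1 x hx)
      show _ ≤ c (0, x) (lay N W 0 j, x) * (a (0, x) - a (lay N W 0 j, x)) ^ 2
      rw [ha x hx]
      have h5 : c1 * K * (β / N) * (1 / b.card) = c1 * (K / b.card) * (β / N) := by ring
      rw [h5]
      exact mul_le_mul_of_nonneg_right h4 (sq_nonneg _)
    have hKn : 0 ≤ netK c a := netK_nonneg hc.nonneg a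
    have e2 : c1 / 200 * K * (β / N) * (1 / b.card) *
        (∑ x ∈ b, ∑ j ∈ range W, (1 - a (lay N W 0 j, x)) ^ 2) =
        (c1 * K * (β / N) * (1 / b.card) *
        (∑ x ∈ b, ∑ j ∈ range W, (1 - a (lay N W 0 j, x)) ^ 2)) / 200 := by ring
    rw [e2]
    linarith

end Vale.Agent.P361.LRO.Ind.NbrOnly
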