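import Vale.Agent.P361.LRO.Ind.Defs

/-!
# P361 LRO, block (6): test functions

`test_le` uses the test function `1` on `E'` and `min (2 a, 1)` elsewhere; `LBn_of_trunc` clips a
potential to `[0, 1]`; `LBn_of_RBn` passes from resistance to conductance.
-/

namespace Vale.Agent.P361.LRO.Ind

open Finset Vale.Agent.P361.LRO _root_.P361.LRO

noncomputable section

theorem test_minsq (s t : ℝ) : (min (2 * s) 1 - min (2 * t) 1) ^ 2 ≤ 4 * (s - t) ^ 2 := by
  rw [show 4 * (s - t) ^ 2 = (2 * s - 2 * t) ^ 2 by ring, sq_le_sq]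
  exact (abs_min_sub_min_le_max (2 * s) 1 (2 * t) 1).trans (by simp)

theorem test_clipsq (s t : ℝ) :
    (max 0 (min s 1) - max 0 (min t 1)) ^ 2 ≤ (s - t) ^ 2 := by
  rw [sq_le_sq]
  refine (abs_max_sub_max_le_max 0 (min s 1) 0 (min t 1)).trans ?_
  simp only [sub_self, abs_zero]
  refine max_le (abs_nonneg _) ?_
  exact (abs_min_sub_min_le_max s 1 t 1).trans (by simp)

/-- Test function `1` on `E'`, `min (2 a, 1)` elsewhere. -/
theorem test_le {X : Type} [Fintype X] [DecidableEq X] {c : X → X → ℝ} (hs : ∀ u v, c u v = c v u)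
    (hc : ∀ u v, 0 ≤ c u v) {E E' G : Finset X} {A : ℝ} (hA : LBn c E' G A)
    (hd : Disjoint E' G) {a : X → ℝ} (h0 : ∀ x, 0 ≤ a x)
    (hE : ∀ x ∈ E, a x = 1) (hG : ∀ x ∈ G, a x = 0) :
    A ≤ 4 * netK c a + ∑ z ∈ (E' \ E).filter (fun z => a z < 1 / 2), ∑ v, c z v := by
  set B : Finset X := (E' \ E).filter (fun z => a z < 1 / 2) with hB
  set b : X → ℝ := fun x => if x ∈ E' then 1 else min (2 * a x) 1 with hb
  have h1 : A ≤ netK c b := by
    refine hA b (fun x hx => by simp [hb, hx]) (fun x hx => ?_)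
    have hx' : x ∉ E' := fun h => (Finset.disjoint_left.mp hd) h hx
    simp [hb, hx', hG x hx]
  have hb01 : ∀ x, 0 ≤ b x ∧ b x ≤ 1 := by
    intro x
    by_cases hx : x ∈ E'
    · simp [hb, hx]
    · simp only [hb, hx, if_false]
      exact ⟨le_min (by linarith [h0 x]) zero_le_one, min_le_right _ _⟩
  have hbm : ∀ x, x ∉ B → b x = min (2 * a x) 1 := by
    intro x hx
    by_cases hx' : x ∈ E'
    · by_cases hxE : x ∈ E
      · simp only [hb, hx', if_true, hE x hxE]
        norm_num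
      · have : ¬ a x < 1 / 2 := fun h => hx (by simp [hB, hx', hxE] ; linarith)
        simp only [hb, hx', if_true]
        rw [min_eq_right]
        push Not at this
        linarith
    · simp [hb, hx']
  have hpt : ∀ x y, (b x - b y) ^ 2 ≤ 4 * (a x - a y) ^ 2 + (if x ∈ B then 1 else 0)
      + (if y ∈ B then 1 else 0) := by
    intro x y
    have hle1 : (b x - b y) ^ 2 ≤ 1 := by
      have hx := hb01 x
      have hy := hb01 y
      nlinarith [hx.1, hx.2, hy.1, hy.2]
    have hsq : 0 ≤ 4 * (a x - a y) ^ 2 := by positivity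
    by_cases hx : x ∈ B
    · rw [if_pos hx]
      have : (0 : ℝ) ≤ if y ∈ B then 1 else 0 := by split_ifs <;> norm_num
      linarith
    · by_cases hy : y ∈ B
      · rw [if_neg hx, if_pos hy]
        linarith
      · rw [if_neg hx, if_neg hy, hbm x hx, hbm y hy]
        linarith [test_minsq (a x) (a y)]
  have hfirst : ∑ x, ∑ y, c x y * (if x ∈ B then (1 : ℝ) else 0) = ∑ z ∈ B, ∑ v, c z v := by
    rw [← Finset.sum_filter_add_sum_filter_not univ (fun x => x ∈ B)]
    have h2 : ∑ x ∈ univ.filter (fun x => x ∉ B), ∑ y, c x y * (if x ∈ B then (1 : ℝ) else 0) = 0 := by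
      refine Finset.sum_eq_zero fun x hx => Finset.sum_eq_zero fun y _ => ?_
      rw [if_neg (Finset.mem_filter.mp hx).2, mul_zero]
    rw [h2, add_zero]
    have h3 : univ.filter (fun x => x ∈ B) = B := by ext x; simp
    rw [h3]
    refine Finset.sum_congr rfl fun x hx => Finset.sum_congr rfl fun y _ => ?_
    rw [if_pos hx, mul_one]
  have hsecond : ∑ x, ∑ y, c x y * (if y ∈ B then (1 : ℝ) else 0) = ∑ z ∈ B, ∑ v, c z v := by
    rw [Finset.sum_comm, ← hfirst]
    exact Finset.sum_congr rfl fun y _ => Finset.sum_congr rfl fun x _ => by rw [hs x y]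
  have hsum : ∑ x, ∑ y, c x y * (b x - b y) ^ 2 ≤
      4 * ∑ x, ∑ y, c x y * (a x - a y) ^ 2 + ∑ x, ∑ y, c x y * (if x ∈ B then (1 : ℝ) else 0)
        + ∑ x, ∑ y, c x y * (if y ∈ B then (1 : ℝ) else 0) := by
    rw [Finset.mul_sum, ← Finset.sum_add_distrib, ← Finset.sum_add_distrib]
    refine Finset.sum_le_sum fun x _ => ?_
    rw [Finset.mul_sum, ← Finset.sum_add_distrib, ← Finset.sum_add_distrib]
    refine Finset.sum_le_sum fun y _ => ?_
    calc c x y * (b x - b y) ^ 2 ≤ c x y * (4 * (a x - a y) ^ 2 + (if x ∈ B then 1 else 0)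
      + (if y ∈ B then 1 else 0)) := mul_le_mul_of_nonneg_left (hpt x y) (hc x y)
      _ = _ := by ring
  rw [hfirst, hsecond] at hsum
  unfold netK at h1 ⊢
  linarith

/-- Reduction to `0 ≤ a ≤ 1`. -/
theorem LBn_of_trunc {X : Type} [Fintype X] [DecidableEq X] {c : X → X → ℝ}
    (hc : ∀ u v, 0 ≤ c u v) {E G : Finset X} {A : ℝ}
    (h : ∀ a : X → ℝ, (∀ x, 0 ≤ a x ∧ a x ≤ 1) → (∀ x ∈ E, a x = 1) → (∀ x ∈ G, a x = 0) →
      A ≤ netK c a) : LBn c E G A := by
  intro a hE hG
  have h1 : A ≤ netK c (fun x => max 0 (min (a x) 1)) := by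
    refine h _ (fun x => ⟨le_max_left _ _, max_le zero_le_one (min_le_right _ _)⟩)
      (fun x hx => ?_) (fun x hx => ?_)
    · simp [hE x hx]
    · simp [hG x hx]
  refine h1.trans ?_
  unfold netK
  refine mul_le_mul_of_nonneg_left ?_ (by norm_num)
  refine Finset.sum_le_sum fun x _ => Finset.sum_le_sum fun y _ => ?_
  exact mul_le_mul_of_nonneg_left (test_clipsq _ _) (hc x y)

/-- From resistance to conductance. -/
theorem LBn_of_RBn {X : Type} [Fintype X] [DecidableEq X] {c : X → X → ℝ} {E G : Finset X}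
    {q : X → ℝ} {R : ℝ} (hR : 0 < R) (hq : ∀ x, x ∉ G → q x = 0) (h : RBn c E q R) :
    LBn c E G (1 / R) := by
  intro a hE hG
  have h1 := h a hE
  have h2 : ∑ x, q x * a x = 0 := by
    refine Finset.sum_eq_zero fun x _ => ?_
    by_cases hx : x ∈ G
    · rw [hG x hx, mul_zero]
    · rw [hq x hx, zero_mul]
  rw [h2] at h1
  rw [div_le_iff₀ hR]
  linarith

end

end Vale.Agent.P361.LRO.Ind
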