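import Vale.Agent.P361.LRO.Ind.TimeMean

/-!
# P361 LRO, block (6), package C2 (helper494): `chain3`, `start3`

Wrappers of the volume lemma of `TimeMean.lean` (helper358) in the form of PLAN.txt.
-/

namespace Vale.Agent.P361.LRO.Ind

open Finset Vale.Agent.P361.LRO Vale.Agent.P361.LRO.Geo

private lemma mean3_ub_le (r T : ℕ) (U : ℕ → ℕ → ℕ → ℕ → ℝ)
    (h : (∑ x ∈ range (3 ^ r), ∑ y ∈ range (3 ^ r), ∑ z ∈ range (3 ^ r),
      (1 - (1 / (T : ℝ)) * ∑ w ∈ range T, U x y z w) ≤ 27 ^ r / 16)) :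
    mean3 r (fun x y z => 1 - ub T U x y z) 0 0 0 ≤ 1 / 16 := by
  have h27 : (0 : ℝ) < 27 ^ r := by positivity
  unfold mean3 ub
  simp only [mul_zero, zero_add]
  rw [div_le_iff₀ h27]
  linarith

/-- time average + Poincaré in time: `U < 5/8` forces `|U - Ubar| > 1/8` or `1 - Ubar ≥ 1/4`. -/
theorem chain3 : ∃ C : ℝ, 0 < C ∧ ∀ (r s T : ℕ), 0 < T → r ≤ s → ∀ U : ℕ → ℕ → ℕ → ℕ → ℝ,
    (∑ x ∈ range (3 ^ r), ∑ y ∈ range (3 ^ r), ∑ z ∈ range (3 ^ r),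
      (1 - (1 / (T : ℝ)) * ∑ w ∈ range T, U x y z w) ≤ 27 ^ r / 16) →
    C * E4 (3 ^ s) T U ≤ T * 3 ^ r →
    cnt (3 ^ s) T (5 / 8) U ≤
      C * (T ^ 2 * E4 (3 ^ s) T U + (E4 (3 ^ s) T U) ^ 3 / T ^ 2) := by
  refine ⟨40000000000000, by norm_num, fun r s T hT hrs U hmean hE => ?_⟩
  have hT' : (0 : ℝ) < T := by exact_mod_cast hT
  have hT1 : (1 : ℝ) ≤ T := by exact_mod_cast hT
  have h3 : 3 ^ r * 0 < 3 ^ s := by rw [mul_zero]; positivity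
  have hsp := Esp_nonneg (3 ^ s) T U
  have hti := Eti_nonneg (3 ^ s) T U
  have hE4 : E4 (3 ^ s) T U = Esp (3 ^ s) T U + Eti (3 ^ s) T U := rfl
  set A := Esp (3 ^ s) T U with hA
  set B := Eti (3 ^ s) T U with hB
  rw [hE4] at hE ⊢
  have hcond : 57600 * (A / T) ≤ 3 ^ r := by
    rw [← mul_div_assoc, div_le_iff₀ hT']
    nlinarith
  have hmain := cnt_le s r hrs hT U 0 0 0 h3 h3 h3 (mean3_ub_le r T U hmean) hcond
  rw [← hA, ← hB] at hmain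
  refine hmain.trans ?_
  have hT2 : (1 : ℝ) ≤ T ^ 2 := one_le_pow₀ hT1
  have e1 : 1024 * A * (1 + 9 * (57600 * (A / T)) ^ 2) + 64 * ((T : ℝ) ^ 2 * B) =
      1024 * A + 64 * ((T : ℝ) ^ 2 * B) + 30576476160000 * (A ^ 3 / T ^ 2) := by
    field_simp
    ring
  rw [e1]
  have h4 : A ^ 3 / T ^ 2 ≤ (A + B) ^ 3 / T ^ 2 := by gcongr; linarith
  have h5 : A ≤ T ^ 2 * A := le_mul_of_one_le_left hsp hT2
  have h6 : 0 ≤ (A + B) ^ 3 / (T : ℝ) ^ 2 := by positivity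
  have h7 : 0 ≤ (T : ℝ) ^ 2 * B := by positivity
  have h8 : 0 ≤ (T : ℝ) ^ 2 * A := by positivity
  have h9 : (T : ℝ) ^ 2 * (A + B) = T ^ 2 * A + T ^ 2 * B := by ring
  rw [h9]
  linarith

/-- start from the time window `0` (used with `3 ^ r = w`). -/
theorem start3 : ∃ C : ℝ, 0 < C ∧ ∀ (r s T : ℕ), 0 < T → r ≤ s → ∀ U : ℕ → ℕ → ℕ → ℕ → ℝ,
    C * (∑ x ∈ range (3 ^ r), ∑ y ∈ range (3 ^ r), ∑ z ∈ range (3 ^ r), (1 - U x y z 0) ^ 2)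
      ≤ 27 ^ r →
    C * T * E4 (3 ^ s) T U ≤ 27 ^ r →
    (∑ x ∈ range (3 ^ r), ∑ y ∈ range (3 ^ r), ∑ z ∈ range (3 ^ r),
      (1 - (1 / (T : ℝ)) * ∑ w ∈ range T, U x y z w) ≤ 27 ^ r / 16) := by
  refine ⟨1024, by norm_num, fun r s T hT hrs U h0 hE => ?_⟩
  have h27 : (0 : ℝ) < 27 ^ r := by positivity
  have hsp := Esp_nonneg (3 ^ s) T U
  have hS : 3 ^ r ≤ 3 ^ s := Nat.pow_le_pow_right (by norm_num) hrs
  have hti : Eti (3 ^ r) T U ≤ E4 (3 ^ s) T U :=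
    (Eti_mono hS T U).trans (by unfold E4; linarith)
  have h1 : (T : ℝ) * Eti (3 ^ r) T U ≤ 27 ^ r / 1024 := by
    have : (T : ℝ) * Eti (3 ^ r) T U ≤ T * E4 (3 ^ s) T U :=
      mul_le_mul_of_nonneg_left hti (Nat.cast_nonneg _)
    linarith
  have h := mean3_one_sub_ub r hT U (by linarith) h1
  unfold mean3 ub at h
  simp only [mul_zero, zero_add] at h
  rw [div_le_iff₀ h27] at h
  linarith

end Vale.Agent.P361.LRO.Ind
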