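import Mathlib
import Vale.Agent.P361.LRO.Ind.Defs

/-!
# P361 LRO, block (6), package E1: energies of the window averages
-/

namespace Vale.Agent.P361.LRO.Ind

open Finset Vale.Agent.P361.LRO _root_.P361.LRO

/-- Sum over an injective family. -/
private theorem enA_inj {ι X : Type} [Fintype X] (s : Finset ι) (g : ι → X)
    (hg : Set.InjOn g s) (F : X → ℝ) (hF : ∀ x, 0 ≤ F x) : ∑ i ∈ s, F (g i) ≤ ∑ x, F x := by
  classical
  rw [← Finset.sum_image (f := F) hg]
  exact Finset.sum_le_univ_sum_of_nonneg hF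

private theorem enA_pt {n : ℕ} [NeZero n] (o : Tor n) {a b c a' b' c' : ℕ} (ha : a < n)
    (hb : b < n) (hc : c < n) (ha' : a' < n) (hb' : b' < n) (hc' : c' < n)
    (h : pt n o a b c = pt n o a' b' c') : a = a' ∧ b = b' ∧ c = c' := by
  have h1 : (![(a : ZMod n), (b : ZMod n), (c : ZMod n)] : Fin 3 → ZMod n) =
      ![(a' : ZMod n), (b' : ZMod n), (c' : ZMod n)] := by
    unfold pt at h
    exact add_left_cancel h
  have key : ∀ {u v : ℕ}, u < n → v < n → (u : ZMod n) = v → u = v := by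
    intro u v hu hv h
    have := congrArg ZMod.val h
    rwa [ZMod.val_natCast_of_lt hu, ZMod.val_natCast_of_lt hv] at this
  exact ⟨key ha ha' (congrFun h1 0), key hb hb' (congrFun h1 1), key hc hc' (congrFun h1 2)⟩

private theorem enA_site {n : ℕ} [NeZero n] (o : Tor n) {A B C : ℕ} (hA : A ≤ n) (hB : B ≤ n)
    (hC : C ≤ n) (H : Tor n → ℝ) (hH : ∀ p, 0 ≤ H p) :
    ∑ x ∈ range A, ∑ y ∈ range B, ∑ z ∈ range C, H (pt n o x y z) ≤ ∑ p, H p := by
  have h1 : ∑ x ∈ range A, ∑ y ∈ range B, ∑ z ∈ range C, H (pt n o x y z) =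
      ∑ q ∈ range A ×ˢ (range B ×ˢ range C), H (pt n o q.1 q.2.1 q.2.2) := by
    rw [Finset.sum_product]
    refine Finset.sum_congr rfl fun x _ => ?_
    rw [Finset.sum_product]
  rw [h1]
  refine enA_inj (X := Tor n) _ (fun q : ℕ × ℕ × ℕ => pt n o q.1 q.2.1 q.2.2) ?_ H hH
  rintro ⟨x, y, z⟩ hq ⟨x', y', z'⟩ hq' h
  simp only [Finset.coe_product, Set.mem_prod, Finset.mem_coe, Finset.mem_range] at hq hq'
  replace h : pt n o x y z = pt n o x' y' z' := h
  obtain ⟨h1, h2, h3⟩ := enA_pt o (by omega) (by omega) (by omega) (by omega) (by omega)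
    (by omega) h
  subst h1 h2 h3
  rfl

private theorem enA_lay {N W m w j : ℕ} (hN : N = m * W) (hw : w < m) (hj : j < W) :
    ((lay N W w j : Fin (N + 1)) : ℕ) = 1 + w * W + j := by
  have h : 1 + w * W + j < N + 1 := by
    have : (w + 1) * W ≤ m * W := Nat.mul_le_mul_right _ hw
    rw [hN]
    nlinarith
  unfold lay
  rw [dif_pos h]

private theorem enA_lay_inj {W w j w' j' : ℕ} (hj : j < W) (hj' : j' < W)
    (h : 1 + w * W + j = 1 + w' * W + j') : w = w' ∧ j = j' := by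
  have h1 : w * W + j = w' * W + j' := by omega
  have hW : 0 < W := by omega
  have h2 : (w * W + j) / W = w := by
    rw [mul_comm, Nat.mul_add_div hW, Nat.div_eq_of_lt hj, add_zero]
  have h3 : (w' * W + j') / W = w' := by
    rw [mul_comm, Nat.mul_add_div hW, Nat.div_eq_of_lt hj', add_zero]
  have h4 : w = w' := by rw [← h2, ← h3, h1]
  subst h4
  exact ⟨rfl, by omega⟩

private theorem enA_layer {N W m : ℕ} (hN : N = m * W) (T : ℕ) (hT : T ≤ m) (f : ℕ → ℕ)
    (hf : ∀ w < T, f w < m) (G : Fin (N + 1) → Fin (N + 1) → ℝ) (hG : ∀ k l, 0 ≤ G k l) :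
    ∑ w ∈ range T, ∑ j ∈ range W, ∑ i ∈ range W, G (lay N W (f w) j) (lay N W w i) ≤
      ∑ k, ∑ l, G k l := by
  have h1 : ∑ w ∈ range T, ∑ j ∈ range W, ∑ i ∈ range W, G (lay N W (f w) j) (lay N W w i) =
      ∑ q ∈ range T ×ˢ (range W ×ˢ range W),
        G (lay N W (f q.1) q.2.1) (lay N W q.1 q.2.2) := by
    rw [Finset.sum_product]
    refine Finset.sum_congr rfl fun x _ => ?_
    rw [Finset.sum_product]
  have h2 : ∑ k, ∑ l, G k l = ∑ q : Fin (N + 1) × Fin (N + 1), G q.1 q.2 := by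
    rw [Fintype.sum_prod_type]
  rw [h1, h2]
  refine enA_inj (X := Fin (N + 1) × Fin (N + 1)) _
    (fun q : ℕ × ℕ × ℕ => (lay N W (f q.1) q.2.1, lay N W q.1 q.2.2)) ?_ (fun q => G q.1 q.2)
    (fun q => hG _ _)
  rintro ⟨w, j, i⟩ hq ⟨w', j', i'⟩ hq' h
  simp only [Finset.coe_product, Set.mem_prod, Finset.mem_coe, Finset.mem_range] at hq hq'
  obtain ⟨hw, hj, hi⟩ := hq
  obtain ⟨hw', hj', hi'⟩ := hq'
  simp only [Prod.mk.injEq] at h
  obtain ⟨ha, hb⟩ := h
  have hb' := congrArg Fin.val hb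
  rw [enA_lay hN (lt_of_lt_of_le hw hT) hi, enA_lay hN (lt_of_lt_of_le hw' hT) hi'] at hb'
  obtain ⟨e1, e2⟩ := enA_lay_inj hi hi' hb'
  subst e1 e2
  have ha' := congrArg Fin.val ha
  rw [enA_lay hN (hf w hw) hj, enA_lay hN (hf w hw) hj'] at ha'
  obtain ⟨-, e3⟩ := enA_lay_inj hj hj' ha'
  subst e3
  rfl

private theorem enA_jensen (W : ℕ) (hW : 0 < W) (A B : ℕ → ℝ) :
    (∑ j ∈ range W, A j - ∑ i ∈ range W, B i) ^ 2 ≤
      ∑ j ∈ range W, ∑ i ∈ range W, (A j - B i) ^ 2 := by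
  have hW' : (0 : ℝ) < W := by exact_mod_cast hW
  have h1 : ∑ q ∈ range W ×ˢ range W, (A q.1 - B q.2) =
      W * (∑ j ∈ range W, A j - ∑ i ∈ range W, B i) := by
    rw [Finset.sum_product]
    simp only [Finset.sum_sub_distrib, Finset.sum_const, Finset.card_range, nsmul_eq_mul]
    rw [← Finset.mul_sum]
    ring
  have h2 := sq_sum_le_card_mul_sum_sq (s := range W ×ˢ range W)
    (f := fun q : ℕ × ℕ => A q.1 - B q.2)
  rw [h1, Finset.card_product, Finset.card_range] at h2
  have h3 : ∑ q ∈ range W ×ˢ range W, (A q.1 - B q.2) ^ 2 =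
      ∑ j ∈ range W, ∑ i ∈ range W, (A j - B i) ^ 2 := by
    rw [Finset.sum_product]
  rw [h3] at h2
  push_cast at h2
  have h4 : ((W : ℝ) * W) * (∑ j ∈ range W, A j - ∑ i ∈ range W, B i) ^ 2 ≤
      (W * W) * ∑ j ∈ range W, ∑ i ∈ range W, (A j - B i) ^ 2 := by
    calc ((W : ℝ) * W) * (∑ j ∈ range W, A j - ∑ i ∈ range W, B i) ^ 2
        = (W * (∑ j ∈ range W, A j - ∑ i ∈ range W, B i)) ^ 2 := by ring
      _ ≤ _ := h2
  exact le_of_mul_le_mul_left h4 (by positivity)

/-- One pair of windows. -/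
private theorem enA_win {n N W m : ℕ} [NeZero n] {β c1 : ℝ} {c : Nd n N → Nd n N → ℝ}
    (hW : 0 < W) (hm : 0 < m) (hN : N = m * W) (hc1 : 0 < c1) (o : Tor n) (a : Nd n N → ℝ)
    (x y z w x' y' z' w' : ℕ)
    (h : ∀ j < W, ∀ i < W, c1 * (β / N) ^ 2 ≤
      c (lay N W w j, pt n o x y z) (lay N W w' i, pt n o x' y' z')) :
    c1 * (β / m) ^ 2 * (UU n N W o a x y z w - UU n N W o a x' y' z' w') ^ 2 ≤
      ∑ j ∈ range W, ∑ i ∈ range W,
        c (lay N W w j, pt n o x y z) (lay N W w' i, pt n o x' y' z') *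
          (a (lay N W w j, pt n o x y z) - a (lay N W w' i, pt n o x' y' z')) ^ 2 := by
  have hW' : (0 : ℝ) < W := by exact_mod_cast hW
  have hm' : (0 : ℝ) < m := by exact_mod_cast hm
  have hN' : (N : ℝ) = m * W := by rw [hN]; push_cast; ring
  have hJ := enA_jensen W hW (fun j => a (lay N W w j, pt n o x y z))
    (fun i => a (lay N W w' i, pt n o x' y' z'))
  have e1 : c1 * (β / m) ^ 2 * (UU n N W o a x y z w - UU n N W o a x' y' z' w') ^ 2 =
      c1 * (β / N) ^ 2 * (∑ j ∈ range W, a (lay N W w j, pt n o x y z) -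
        ∑ i ∈ range W, a (lay N W w' i, pt n o x' y' z')) ^ 2 := by
    unfold UU
    rw [hN']
    field_simp
  rw [e1]
  calc c1 * (β / N) ^ 2 * (∑ j ∈ range W, a (lay N W w j, pt n o x y z) -
        ∑ i ∈ range W, a (lay N W w' i, pt n o x' y' z')) ^ 2
      ≤ c1 * (β / N) ^ 2 * ∑ j ∈ range W, ∑ i ∈ range W,
          (a (lay N W w j, pt n o x y z) - a (lay N W w' i, pt n o x' y' z')) ^ 2 :=
        mul_le_mul_of_nonneg_left hJ (by positivity)
    _ = ∑ j ∈ range W, ∑ i ∈ range W, c1 * (β / N) ^ 2 *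
          (a (lay N W w j, pt n o x y z) - a (lay N W w' i, pt n o x' y' z')) ^ 2 := by
        rw [Finset.mul_sum]
        refine Finset.sum_congr rfl fun j _ => ?_
        rw [Finset.mul_sum]
    _ ≤ _ := by
        refine Finset.sum_le_sum fun j hj => Finset.sum_le_sum fun i hi => ?_
        exact mul_le_mul_of_nonneg_right (h j (Finset.mem_range.1 hj) i (Finset.mem_range.1 hi))
          (sq_nonneg _)

/-- The energy between two sites. -/
private noncomputable def enA_Q {n N : ℕ} (c : Nd n N → Nd n N → ℝ) (a : Nd n N → ℝ)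
    (p q : Tor n) : ℝ :=
  ∑ k, ∑ l, c (k, p) (l, q) * (a (k, p) - a (l, q)) ^ 2

private theorem enA_Q_nonneg {n N : ℕ} {c : Nd n N → Nd n N → ℝ} (hc : ∀ u v, 0 ≤ c u v)
    (a : Nd n N → ℝ) (p q : Tor n) : 0 ≤ enA_Q c a p q :=
  Finset.sum_nonneg fun _ _ => Finset.sum_nonneg fun _ _ => mul_nonneg (hc _ _) (sq_nonneg _)

private theorem enA_total {n N : ℕ} [NeZero n] (c : Nd n N → Nd n N → ℝ) (a : Nd n N → ℝ) :
    ∑ p, ∑ q, enA_Q c a p q = 2 * netK c a := by
  have h : 2 * netK c a = ∑ u : Nd n N, ∑ v : Nd n N, c u v * (a u - a v) ^ 2 := by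
    unfold netK
    ring
  rw [h, Fintype.sum_prod_type_right]
  refine Finset.sum_congr rfl fun p _ => ?_
  have h2 : ∀ k : Fin (N + 1), ∑ v : Nd n N, c (k, p) v * (a (k, p) - a v) ^ 2 =
      ∑ q, ∑ l, c (k, p) (l, q) * (a (k, p) - a (l, q)) ^ 2 := by
    intro k
    rw [Fintype.sum_prod_type_right]
  simp only [h2]
  rw [Finset.sum_comm]
  rfl

private theorem enA_mem {n : ℕ} [NeZero n] (o : Tor n) {S x y z : ℕ} (hx : x < S) (hy : y < S)
    (hz : z < S) : pt n o x y z ∈ cube n o S := by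
  unfold cube pt
  refine Finset.mem_image.2 ⟨![⟨x, hx⟩, ⟨y, hy⟩, ⟨z, hz⟩], Finset.mem_univ _, ?_⟩
  congr 1
  funext i
  fin_cases i <;> rfl

private theorem enA_pt_succ {n : ℕ} (o : Tor n) (a b c : ℕ) :
    pt n o (a + 1) b c = pt n o a b c + Pi.single 0 1 ∧
    pt n o a (b + 1) c = pt n o a b c + Pi.single 1 1 ∧
    pt n o a b (c + 1) = pt n o a b c + Pi.single 2 1 := by
  unfold pt
  refine ⟨?_, ?_, ?_⟩ <;>
  · rw [add_assoc]
    congr 1
    funext i
    fin_cases i <;> simp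

/-- Sum over sites of the energy of a site with a shifted copy. -/
private theorem enA_sum_shift {n N : ℕ} [NeZero n] {c : Nd n N → Nd n N → ℝ}
    (hc : ∀ u v, 0 ≤ c u v) (a : Nd n N → ℝ) (o : Tor n) {A B C : ℕ} (hA : A ≤ n) (hB : B ≤ n)
    (hC : C ≤ n) (e : Tor n) :
    ∑ x ∈ range A, ∑ y ∈ range B, ∑ z ∈ range C,
      enA_Q c a (pt n o x y z) (pt n o x y z + e) ≤ 2 * netK c a := by
  rw [← enA_total]
  refine (enA_site o hA hB hC (fun p => enA_Q c a p (p + e))
    (fun p => enA_Q_nonneg hc a _ _)).trans ?_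
  refine Finset.sum_le_sum fun p _ => ?_
  exact Finset.single_le_sum (f := fun q => enA_Q c a p q)
    (fun q _ => enA_Q_nonneg hc a p q) (Finset.mem_univ (p + e))

/-- Sum over the windows for a pair of sites. -/
private theorem enA_windows {n N W m : ℕ} [NeZero n] {β c1 : ℝ} {c : Nd n N → Nd n N → ℝ}
    (hnn : ∀ u v, 0 ≤ c u v)
    (hW : 0 < W) (hm : 0 < m) (hN : N = m * W) (hc1 : 0 < c1) (o : Tor n) (a : Nd n N → ℝ)
    (T : ℕ) (hT : T ≤ m) (f : ℕ → ℕ) (hf : ∀ w < T, f w < m) (x y z x' y' z' : ℕ)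
    (h : ∀ w < T, ∀ j < W, ∀ i < W, c1 * (β / N) ^ 2 ≤
      c (lay N W (f w) j, pt n o x y z) (lay N W w i, pt n o x' y' z')) :
    c1 * (β / m) ^ 2 * ∑ w ∈ range T,
        (UU n N W o a x y z (f w) - UU n N W o a x' y' z' w) ^ 2 ≤
      enA_Q c a (pt n o x y z) (pt n o x' y' z') := by
  rw [Finset.mul_sum]
  refine (Finset.sum_le_sum fun w hw =>
    enA_win hW hm hN hc1 o a x y z (f w) x' y' z' w (h w (Finset.mem_range.1 hw))).trans ?_
  exact enA_layer hN T hT f hf
    (fun k l => c (k, pt n o x y z) (l, pt n o x' y' z') *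
      (a (k, pt n o x y z) - a (l, pt n o x' y' z')) ^ 2)
    (fun k l => mul_nonneg (hnn _ _) (sq_nonneg _))

/-- The partner window. -/
private def enA_f (m w : ℕ) : ℕ := if w + 2 < m then w + 2 else w - 2

private theorem enA_f_lt {m w : ℕ} (hw : w < m) : enA_f m w < m := by
  unfold enA_f
  split_ifs <;> omega

private theorem enA_f_cases {m w : ℕ} (hm : 4 ≤ m) (hw : w < m) :
    enA_f m w = w + 2 ∨ w = enA_f m w + 2 := by
  unfold enA_f
  split_ifs <;> omega

section main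

variable {n N W m : ℕ} [NeZero n] {β K c1 : ℝ} {b : Finset (Tor n)} {h : Tor n → ℝ}
    {c : Nd n N → Nd n N → ℝ}

private theorem enA_same_le (hm : 4 ≤ m) (hN : N = m * W)
    (hc : Local n N W β K c1 b h c) {w w' j i : ℕ} (hw : w < m) (hw' : w' < m) (hj : j < W)
    (hi : i < W) (hd : w < w' ∧ w' ≤ w + 2) (x : Tor n) (hx : h x = 1) :
    c1 * (β / N) ^ 2 ≤ c (lay N W w j, x) (lay N W w' i, x) := by
  have e1 := enA_lay hN hw hj
  have e2 := enA_lay hN hw' hi
  have h3 : (w + 1) * W ≤ w' * W := Nat.mul_le_mul_right _ hd.1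
  have h4 : w' * W ≤ (w + 2) * W := Nat.mul_le_mul_right _ hd.2
  refine hc.same _ _ x ?_ ?_ ?_ hx
  · intro h0
    rw [h0] at e1
    simp at e1
    omega
  · rw [Fin.lt_def, e1, e2]
    nlinarith
  · rw [e1, e2]
    nlinarith

private theorem enA_same_f (hm : 4 ≤ m) (hN : N = m * W)
    (hc : Local n N W β K c1 b h c) {w j i : ℕ} (hw : w < m) (hj : j < W)
    (hi : i < W) (x : Tor n) (hx : h x = 1) :
    c1 * (β / N) ^ 2 ≤ c (lay N W (enA_f m w) j, x) (lay N W w i, x) := by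
  rcases enA_f_cases hm hw with h1 | h1
  · rw [hc.symm]
    exact enA_same_le hm hN hc hw (enA_f_lt hw) hi hj ⟨by omega, by omega⟩ x hx
  · exact enA_same_le hm hN hc (enA_f_lt hw) hw hj hi ⟨by omega, by omega⟩ x hx

private theorem enA_nbr_f (hm : 4 ≤ m) (hN : N = m * W)
    (hc : Local n N W β K c1 b h c) {w j i : ℕ} (hw : w < m) (hj : j < W)
    (hi : i < W) (x : Tor n) (e : Fin 3) (hx : h x = 1) (hx' : h (x + Pi.single e 1) = 1) :
    c1 * (β / N) ^ 2 ≤
      c (lay N W (enA_f m w) j, x) (lay N W w i, x + Pi.single e 1) := by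
  have e1 := enA_lay hN (enA_f_lt hw) hj
  have e2 := enA_lay hN hw hi
  refine hc.nbr _ _ x e ?_ ?_ ?_ ?_ ?_ hx hx'
  · intro h0
    rw [h0] at e1
    simp at e1
    omega
  · intro h0
    rw [h0] at e2
    simp at e2
    omega
  · rw [e1, e2]
    rcases enA_f_cases hm hw with h1 | h1
    · right
      rw [h1]
      nlinarith
    · left
      have : w * W = (enA_f m w + 2) * W := by rw [← h1]
      rw [this]
      nlinarith
  · rw [e1, e2]
    rcases enA_f_cases hm hw with h1 | h1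
    · rw [h1]
      nlinarith
    · have : w * W = (enA_f m w + 2) * W := by rw [← h1]
      rw [this]
      nlinarith
  · rw [e1, e2]
    rcases enA_f_cases hm hw with h1 | h1
    · rw [h1]
      nlinarith
    · have : w * W = (enA_f m w + 2) * W := by rw [← h1]
      rw [this]
      nlinarith

/-- One space edge, all windows. -/
private theorem enA_edge (hW : 0 < W) (hm : 4 ≤ m) (hN : N = m * W)
    (hc1 : 0 < c1) (hc : Local n N W β K c1 b h c) (o : Tor n) (a : Nd n N → ℝ)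
    (x y z x' y' z' : ℕ) (e : Fin 3) (hp : pt n o x' y' z' = pt n o x y z + Pi.single e 1)
    (hx : h (pt n o x y z) = 1) (hx' : h (pt n o x' y' z') = 1) :
    c1 * (β / m) ^ 2 * ∑ w ∈ range m,
        (UU n N W o a x' y' z' w - UU n N W o a x y z w) ^ 2 ≤
      2 * enA_Q c a (pt n o x y z) (pt n o x y z + Pi.single e 1) +
      2 * enA_Q c a (pt n o x y z) (pt n o x y z + 0) := by
  have hm0 : 0 < m := by omega
  have A1 := enA_windows (β := β) (c1 := c1) hc.nonneg hW hm0 hN hc1 o a m le_rfl (enA_f m)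
    (fun w hw => enA_f_lt hw) x y z x' y' z' (by
      intro w hw j hj i hi
      rw [hp]
      exact enA_nbr_f hm hN hc hw hj hi _ e hx (by rw [← hp]; exact hx'))
  have A2 := enA_windows (β := β) (c1 := c1) hc.nonneg hW hm0 hN hc1 o a m le_rfl (enA_f m)
    (fun w hw => enA_f_lt hw) x y z x y z (by
      intro w hw j hj i hi
      exact enA_same_f hm hN hc hw hj hi _ hx)
  rw [add_zero, ← hp]
  have hpos : 0 ≤ c1 * (β / m) ^ 2 := by positivity
  have key : ∑ w ∈ range m, (UU n N W o a x' y' z' w - UU n N W o a x y z w) ^ 2 ≤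
      2 * ∑ w ∈ range m, (UU n N W o a x y z (enA_f m w) - UU n N W o a x' y' z' w) ^ 2 +
      2 * ∑ w ∈ range m, (UU n N W o a x y z (enA_f m w) - UU n N W o a x y z w) ^ 2 := by
    rw [Finset.mul_sum, Finset.mul_sum, ← Finset.sum_add_distrib]
    refine Finset.sum_le_sum fun w _ => ?_
    nlinarith [sq_nonneg ((UU n N W o a x y z (enA_f m w) - UU n N W o a x' y' z' w) +
      (UU n N W o a x y z (enA_f m w) - UU n N W o a x y z w))]
  have := mul_le_mul_of_nonneg_left key hpos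
  linarith

end main

/-- time and space edges of the window averages (`τ = β / m = β W / N`): same site pairs in the
windows `w, w + 1`; neighbour pairs in the windows `w, w + 2` (or `w, w - 2` at the end). -/
theorem E4_le {n N W m : ℕ} [NeZero n] {β K c1 : ℝ} {b : Finset (Tor n)} {h : Tor n → ℝ}
    {c : Nd n N → Nd n N → ℝ} (hW : 0 < W) (hm : 4 ≤ m) (hN : N = m * W) (hβ : 0 < β)
    (hc1 : 0 < c1) (hc : Local n N W β K c1 b h c) (o : Tor n) (S : ℕ) (hS : S < n)
    (h1 : ∀ x ∈ cube n o S, h x = 1) (a : Nd n N → ℝ) :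
    c1 * (β / m) ^ 2 * E4 S m (UU n N W o a) ≤ 100 * netK c a := by
  have hm0 : 0 < m := by omega
  have hnn : 0 ≤ netK c a := netK_nonneg hc.nonneg a
  have hone : ∀ x y z : ℕ, x < S → y < S → z < S → h (pt n o x y z) = 1 :=
    fun x y z hx hy hz => h1 _ (enA_mem o hx hy hz)
  -- time
  have Ht : c1 * (β / m) ^ 2 * Eti S m (UU n N W o a) ≤ 2 * netK c a := by
    refine le_trans ?_ (enA_sum_shift hc.nonneg a o hS.le hS.le hS.le 0)
    unfold Eti
    simp only [Finset.mul_sum (s := range S)]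
    refine Finset.sum_le_sum fun x hx => Finset.sum_le_sum fun y hy =>
      Finset.sum_le_sum fun z hz => ?_
    rw [Finset.mem_range] at hx hy hz
    rw [add_zero]
    refine enA_windows hc.nonneg hW hm0 hN hc1 o a (m - 1) (by omega) (fun w => w + 1)
      (fun w hw => by omega) x y z x y z ?_
    intro w hw j hj i hi
    rw [hc.symm]
    exact enA_same_le hm hN hc (by omega) (by omega) hi hj ⟨by omega, by omega⟩ _
      (hone x y z hx hy hz)
  -- space
  have hS1 : S - 1 ≤ n := by omega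
  have Hs1 : c1 * (β / m) ^ 2 * (∑ x ∈ range (S - 1), ∑ y ∈ range S, ∑ z ∈ range S,
      ∑ w ∈ range m, (UU n N W o a (x + 1) y z w - UU n N W o a x y z w) ^ 2) ≤
      8 * netK c a := by
    have B1 := enA_sum_shift hc.nonneg a o hS1 hS.le hS.le (Pi.single 0 1)
    have B2 := enA_sum_shift hc.nonneg a o hS1 hS.le hS.le 0
    have B3 : c1 * (β / m) ^ 2 * (∑ x ∈ range (S - 1), ∑ y ∈ range S, ∑ z ∈ range S,
        ∑ w ∈ range m, (UU n N W o a (x + 1) y z w - UU n N W o a x y z w) ^ 2) ≤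
        ∑ x ∈ range (S - 1), ∑ y ∈ range S, ∑ z ∈ range S,
          (2 * enA_Q c a (pt n o x y z) (pt n o x y z + Pi.single 0 1) +
            2 * enA_Q c a (pt n o x y z) (pt n o x y z + 0)) := by
      simp only [Finset.mul_sum (s := range S), Finset.mul_sum (s := range (S - 1))]
      refine Finset.sum_le_sum fun x hx => Finset.sum_le_sum fun y hy =>
        Finset.sum_le_sum fun z hz => ?_
      rw [Finset.mem_range] at hx hy hz
      exact enA_edge hW hm hN hc1 hc o a x y z (x + 1) y z 0 (enA_pt_succ o x y z).1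
        (hone _ _ _ (by omega) hy hz) (hone _ _ _ (by omega) hy hz)
    simp only [Finset.sum_add_distrib, ← Finset.mul_sum] at B3
    linarith
  have Hs2 : c1 * (β / m) ^ 2 * (∑ x ∈ range S, ∑ y ∈ range (S - 1), ∑ z ∈ range S,
      ∑ w ∈ range m, (UU n N W o a x (y + 1) z w - UU n N W o a x y z w) ^ 2) ≤
      8 * netK c a := by
    have B1 := enA_sum_shift hc.nonneg a o hS.le hS1 hS.le (Pi.single 1 1)
    have B2 := enA_sum_shift hc.nonneg a o hS.le hS1 hS.le 0
    have B3 : c1 * (β / m) ^ 2 * (∑ x ∈ range S, ∑ y ∈ range (S - 1), ∑ z ∈ range S,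
        ∑ w ∈ range m, (UU n N W o a x (y + 1) z w - UU n N W o a x y z w) ^ 2) ≤
        ∑ x ∈ range S, ∑ y ∈ range (S - 1), ∑ z ∈ range S,
          (2 * enA_Q c a (pt n o x y z) (pt n o x y z + Pi.single 1 1) +
            2 * enA_Q c a (pt n o x y z) (pt n o x y z + 0)) := by
      simp only [Finset.mul_sum (s := range S), Finset.mul_sum (s := range (S - 1))]
      refine Finset.sum_le_sum fun x hx => Finset.sum_le_sum fun y hy =>
        Finset.sum_le_sum fun z hz => ?_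
      rw [Finset.mem_range] at hx hy hz
      exact enA_edge hW hm hN hc1 hc o a x y z x (y + 1) z 1 (enA_pt_succ o x y z).2.1
        (hone _ _ _ hx (by omega) hz) (hone _ _ _ hx (by omega) hz)
    simp only [Finset.sum_add_distrib, ← Finset.mul_sum] at B3
    linarith
  have Hs3 : c1 * (β / m) ^ 2 * (∑ x ∈ range S, ∑ y ∈ range S, ∑ z ∈ range (S - 1),
      ∑ w ∈ range m, (UU n N W o a x y (z + 1) w - UU n N W o a x y z w) ^ 2) ≤
      8 * netK c a := by
    have B1 := enA_sum_shift hc.nonneg a o hS.le hS.le hS1 (Pi.single 2 1)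
    have B2 := enA_sum_shift hc.nonneg a o hS.le hS.le hS1 0
    have B3 : c1 * (β / m) ^ 2 * (∑ x ∈ range S, ∑ y ∈ range S, ∑ z ∈ range (S - 1),
        ∑ w ∈ range m, (UU n N W o a x y (z + 1) w - UU n N W o a x y z w) ^ 2) ≤
        ∑ x ∈ range S, ∑ y ∈ range S, ∑ z ∈ range (S - 1),
          (2 * enA_Q c a (pt n o x y z) (pt n o x y z + Pi.single 2 1) +
            2 * enA_Q c a (pt n o x y z) (pt n o x y z + 0)) := by
      simp only [Finset.mul_sum (s := range S), Finset.mul_sum (s := range (S - 1))]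
      refine Finset.sum_le_sum fun x hx => Finset.sum_le_sum fun y hy =>
        Finset.sum_le_sum fun z hz => ?_
      rw [Finset.mem_range] at hx hy hz
      exact enA_edge hW hm hN hc1 hc o a x y z x y (z + 1) 2 (enA_pt_succ o x y z).2.2
        (hone _ _ _ hx hy (by omega)) (hone _ _ _ hx hy (by omega))
    simp only [Finset.sum_add_distrib, ← Finset.mul_sum] at B3
    linarith
  unfold E4 Esp
  rw [mul_add, mul_add, mul_add]
  linarith

end Vale.Agent.P361.LRO.Ind
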