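import Mathlib
import Vale.Agent.P361.LRO.Ind.Defs

/-!
# P361 LRO, block (6), package GEOB: the distance to a cube of the torus
-/

set_option linter.all false

namespace Vale.Agent.P361.LRO.Ind

open Finset Vale.Agent.P361.LRO _root_.P361.LRO

theorem geoB_val_succ {n : ℕ} [NeZero n] (t : ZMod n) :
    (t + 1).val = if t.val + 1 < n then t.val + 1 else 0 := by
  have ht : t.val < n := ZMod.val_lt t
  have h : (t + 1).val = (t.val + 1) % n := by
    rw [ZMod.val_add, ZMod.val_one_eq_one_mod, Nat.add_mod_mod]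
  rw [h]
  split_ifs with h1
  · exact Nat.mod_eq_of_lt h1
  · have h2 : t.val + 1 = n := by omega
    rw [h2, Nat.mod_self]

theorem geoB_d1_eq_zero {n : ℕ} [NeZero n] (r : ℕ) (t : ZMod n) :
    d1 n r t = 0 ↔ t.val < r := by
  have ht : t.val < n := ZMod.val_lt t
  unfold d1
  split_ifs with h
  · simp [h]
  · omega

theorem geoB_d1_succ {n : ℕ} [NeZero n] {r : ℕ} (hr : 0 < r) (t : ZMod n) :
    d1 n r (t + 1) ≤ d1 n r t + 1 ∧ d1 n r t ≤ d1 n r (t + 1) + 1 := by
  have ht : t.val < n := ZMod.val_lt t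
  unfold d1
  rw [geoB_val_succ]
  split_ifs <;> omega

theorem geoB_d1_mono {n : ℕ} (t : ZMod n) {r s : ℕ} (h : r ≤ s) : d1 n s t ≤ d1 n r t := by
  unfold d1
  split_ifs <;> omega

theorem geoB_mem_cube {n : ℕ} [NeZero n] (o x : Tor n) (r : ℕ) (hr : r ≤ n) :
    x ∈ cube n o r ↔ ∀ i, (x i - o i).val < r := by
  unfold cube
  rw [Finset.mem_image]
  constructor
  · rintro ⟨y, -, rfl⟩ i
    have h1 : ((o + fun i => ((y i : ℕ) : ZMod n)) i - o i) = ((y i : ℕ) : ZMod n) := by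
      simp
    rw [h1, ZMod.val_natCast]
    exact lt_of_le_of_lt (Nat.mod_le _ _) (y i).2
  · intro h
    refine ⟨fun i => ⟨(x i - o i).val, h i⟩, Finset.mem_univ _, ?_⟩
    funext i
    simp

theorem mem_cube_iff_dist {n : ℕ} [NeZero n] (o x : Tor n) (r : ℕ) (hr : r ≤ n) (h0 : 0 < r) :
    x ∈ cube n o r ↔ dist n o r x = 0 := by
  rw [geoB_mem_cube o x r hr]
  unfold dist
  rw [Finset.sum_eq_zero_iff]
  constructor
  · intro h i _
    exact (geoB_d1_eq_zero r _).2 (h i)
  · intro h i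
    exact (geoB_d1_eq_zero r _).1 (h i (Finset.mem_univ i))

theorem dist_lip {n : ℕ} [NeZero n] (o x : Tor n) (r : ℕ) (hr : 0 < r) (i : Fin 3) :
    dist n o r (x + Pi.single i 1) ≤ dist n o r x + 1 ∧
    dist n o r x ≤ dist n o r (x + Pi.single i 1) + 1 := by
  have key : ∀ j : Fin 3,
      d1 n r ((x + Pi.single i 1 : Fin 3 → ZMod n) j - o j) ≤ d1 n r (x j - o j) + (if j = i then 1 else 0) ∧
      d1 n r (x j - o j) ≤ d1 n r ((x + Pi.single i 1 : Fin 3 → ZMod n) j - o j) + (if j = i then 1 else 0) := by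
    intro j
    by_cases hj : j = i
    · subst hj
      have h1 : (x + Pi.single j 1 : Fin 3 → ZMod n) j - o j = (x j - o j) + 1 := by
        simp only [Pi.add_apply, Pi.single_eq_same]
        ring
      rw [h1, if_pos rfl]
      exact geoB_d1_succ hr _
    · have h1 : (x + Pi.single i 1 : Fin 3 → ZMod n) j - o j = x j - o j := by
        simp only [Pi.add_apply, Pi.single_eq_of_ne hj, add_zero]
      rw [h1, if_neg hj]
      exact ⟨le_rfl, le_rfl⟩
  have hs : ∑ j : Fin 3, (if j = i then 1 else 0) = 1 := by simp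
  unfold dist
  constructor
  · calc ∑ j, d1 n r ((x + Pi.single i 1 : Fin 3 → ZMod n) j - o j)
        ≤ ∑ j, (d1 n r (x j - o j) + (if j = i then 1 else 0)) :=
          Finset.sum_le_sum fun j _ => (key j).1
      _ = ∑ j, d1 n r (x j - o j) + 1 := by rw [Finset.sum_add_distrib, hs]
  · calc ∑ j, d1 n r (x j - o j)
        ≤ ∑ j, (d1 n r ((x + Pi.single i 1 : Fin 3 → ZMod n) j - o j) + (if j = i then 1 else 0)) :=
          Finset.sum_le_sum fun j _ => (key j).2
      _ = ∑ j, d1 n r ((x + Pi.single i 1 : Fin 3 → ZMod n) j - o j) + 1 := by rw [Finset.sum_add_distrib, hs]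

theorem dist_mono {n : ℕ} [NeZero n] (o x : Tor n) {r s : ℕ} (h : r ≤ s) :
    dist n o s x ≤ dist n o r x := by
  unfold dist
  exact Finset.sum_le_sum fun i _ => geoB_d1_mono _ h

theorem dist_ground {n : ℕ} [NeZero n] (o x : Tor n) {r s : ℕ} (hrs : r ≤ s) (hs : 8 * s ≤ n)
    (hx : x ∈ cube n (pt n o (4 * s) 0 0) s) : 3 * s ≤ dist n o r x := by
  rw [geoB_mem_cube _ _ _ (by omega)] at hx
  have h0 := hx 0
  have hn : 0 < n := Nat.pos_of_ne_zero (NeZero.ne n)
  have h1 : x 0 - pt n o (4 * s) 0 0 0 = x 0 - o 0 - ((4 * s : ℕ) : ZMod n) := by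
    simp only [pt, Pi.add_apply, Matrix.cons_val_zero]
    ring
  rw [h1] at h0
  set u : ZMod n := x 0 - o 0 - ((4 * s : ℕ) : ZMod n) with hu
  have h2 : x 0 - o 0 = u + ((4 * s : ℕ) : ZMod n) := by rw [hu]; ring
  have h3 : (x 0 - o 0).val = u.val + 4 * s := by
    rw [h2, ZMod.val_add, ZMod.val_natCast, Nat.add_mod_mod]
    exact Nat.mod_eq_of_lt (by omega)
  have h4 : 3 * s ≤ d1 n r (x 0 - o 0) := by
    unfold d1
    rw [h3]
    split_ifs <;> omega
  refine h4.trans ?_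
  unfold dist
  exact Finset.single_le_sum (f := fun i => d1 n r (x i - o i)) (fun i _ => Nat.zero_le _)
    (Finset.mem_univ 0)

end Vale.Agent.P361.LRO.Ind
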