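import Vale.Agent.P361.LRO.Ind.GeoB

/-!
P361 LRO, block (6): total weight of a bump (helper660).
-/

namespace Vale.Agent.P361.LRO.Ind

open Finset Vale.Agent.P361.LRO

noncomputable section

variable {n : ℕ} [NeZero n]

theorem gm_val_succ (t : ZMod n) :
    (t + 1).val = if t.val + 1 < n then t.val + 1 else 0 := by
  have hn : 0 < n := Nat.pos_of_ne_zero (NeZero.ne n)
  rw [ZMod.val_add, ZMod.val_one_eq_one_mod, Nat.add_mod_mod]
  have ht := ZMod.val_lt t
  by_cases h : t.val + 1 < n
  · rw [if_pos h, Nat.mod_eq_of_lt h]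
  · rw [if_neg h]
    have : t.val + 1 = n := by omega
    rw [this, Nat.mod_self]

theorem gm_d1_succ {r : ℕ} (hr : 1 ≤ r) (t : ZMod n) :
    d1 n r (t + 1) ≤ d1 n r t + 1 ∧ d1 n r t ≤ d1 n r (t + 1) + 1 := by
  have ht := ZMod.val_lt t
  have h := gm_val_succ t
  unfold d1
  rw [h]
  by_cases h1 : t.val + 1 < n
  · rw [if_pos h1]
    split_ifs <;> omega
  · rw [if_neg h1]
    split_ifs <;> omega

theorem gm_d1_anti {r r' : ℕ} (h : r ≤ r') (t : ZMod n) : d1 n r' t ≤ d1 n r t := by
  unfold d1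
  split_ifs <;> omega

theorem gm_dist_anti {r r' : ℕ} (h : r ≤ r') (o x : Tor n) : dist n o r' x ≤ dist n o r x :=
  Finset.sum_le_sum fun i _ => gm_d1_anti h _

theorem gm_dist_step {r : ℕ} (hr : 1 ≤ r) (o x : Tor n) (i : Fin 3) :
    dist n o r (x + Pi.single i 1) ≤ dist n o r x + 1 ∧
      dist n o r x ≤ dist n o r (x + Pi.single i 1) + 1 := by
  have e1 : ∀ j, j ≠ i → (x + Pi.single i 1 : Tor n) j - o j = x j - o j := by
    intro j hj
    simp [hj]
  have e2 : (x + Pi.single i 1 : Tor n) i - o i = (x i - o i) + 1 := by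
    simp only [Pi.add_apply, Pi.single_eq_same]
    ring
  have h := gm_d1_succ hr (x i - o i)
  unfold dist
  rw [← Finset.add_sum_erase _ _ (Finset.mem_univ i), ← Finset.add_sum_erase _
    (fun j => d1 n r (x j - o j)) (Finset.mem_univ i), e2]
  have e3 : ∑ j ∈ univ.erase i, d1 n r ((x + Pi.single i 1 : Tor n) j - o j) =
      ∑ j ∈ univ.erase i, d1 n r (x j - o j) :=
    Finset.sum_congr rfl fun j hj => by rw [e1 j (Finset.ne_of_mem_erase hj)]
  rw [e3]
  omega

theorem gm_mem_cube {x0 x : Tor n} {w : ℕ} (hw : w ≤ n) :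
    x ∈ cube n x0 w ↔ ∀ i, (x i - x0 i).val < w := by
  unfold cube
  rw [mem_image]
  constructor
  · rintro ⟨y, -, rfl⟩ i
    simp only [Pi.add_apply, add_sub_cancel_left]
    rw [ZMod.val_natCast_of_lt ((y i).2.trans_le hw)]
    exact (y i).2
  · intro h
    refine ⟨fun i => ⟨(x i - x0 i).val, h i⟩, mem_univ _, ?_⟩
    funext i
    simp

theorem gm_cube_mono (x0 : Tor n) {w w' : ℕ} (h : w ≤ w') (hw : w' ≤ n) :
    cube n x0 w ⊆ cube n x0 w' := by
  intro x hx
  rw [gm_mem_cube (h.trans hw)] at hx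
  rw [gm_mem_cube hw]
  exact fun i => (hx i).trans_le h

theorem gm_dist_cube {o x : Tor n} {r : ℕ} (hr : r ≤ n) (hx : x ∈ cube n o r) :
    dist n o r x = 0 := by
  rw [gm_mem_cube hr] at hx
  unfold dist
  apply Finset.sum_eq_zero
  intro i _
  unfold d1
  rw [if_pos (hx i)]

theorem gm_dist_ground {o x : Tor n} {r s : ℕ} (hrs : r ≤ s) (hs : 8 * s ≤ n)
    (hx : x ∈ cube n (pt n o (4 * s) 0 0) s) : 3 * s ≤ dist n o r x := by
  rw [gm_mem_cube (by omega)] at hx
  have h0 := hx 0
  have hn : 0 < n := Nat.pos_of_ne_zero (NeZero.ne n)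
  have e : x 0 - o 0 = (x 0 - pt n o (4 * s) 0 0 0) + ((4 * s : ℕ) : ZMod n) := by
    simp [pt]
    ring
  have h1 : (x 0 - o 0).val = (x 0 - pt n o (4 * s) 0 0 0).val + 4 * s := by
    have h5 : ((4 * s : ℕ) : ZMod n).val = 4 * s := by
      rcases Nat.eq_zero_or_pos s with h | h
      · subst h
        simp
      · exact ZMod.val_natCast_of_lt (by omega)
    rw [e, ZMod.val_add, h5]
    rcases Nat.eq_zero_or_pos s with h | h
    · subst h
      omega
    · exact Nat.mod_eq_of_lt (by omega)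
  have h2 : 3 * s ≤ d1 n r (x 0 - o 0) := by
    unfold d1
    rw [h1]
    split_ifs <;> omega
  exact h2.trans (Finset.single_le_sum (f := fun i => d1 n r (x i - o i))
    (fun _ _ => Nat.zero_le _) (mem_univ 0))

theorem gm_geom {lam : ℝ} (hl : 0 < lam) (m : ℕ) :
    ∑ j ∈ range m, Real.exp (-(lam * (j + 1 : ℕ))) ≤ 1 / lam := by
  have key : lam * ∑ j ∈ range m, Real.exp (-(lam * (j + 1 : ℕ))) ≤
      1 - Real.exp (-(lam * (m : ℕ))) := by
    induction m with
    | zero => simp
    | succ m ih =>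
      rw [Finset.sum_range_succ, mul_add]
      have h1 : lam + 1 ≤ Real.exp lam := Real.add_one_le_exp lam
      have h2 : Real.exp (-(lam * (m : ℕ))) = Real.exp lam * Real.exp (-(lam * (m + 1 : ℕ))) := by
        rw [← Real.exp_add]
        congr 1
        push_cast
        ring
      have h3 := Real.exp_pos (-(lam * (m + 1 : ℕ)))
      nlinarith
  rw [le_div_iff₀ hl, mul_comm]
  have := Real.exp_pos (-(lam * (m : ℕ)))
  linarith

theorem gm_sum_val (F : ℕ → ℝ) : ∑ t : ZMod n, F t.val = ∑ v ∈ range n, F v := by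
  refine Finset.sum_bij' (fun t _ => t.val) (fun v _ => (v : ZMod n)) ?_ ?_ ?_ ?_ ?_
  · intro t _
    exact mem_range.2 (ZMod.val_lt t)
  · intro v _
    exact mem_univ _
  · intro t _
    simp
  · intro v hv
    exact ZMod.val_natCast_of_lt (mem_range.1 hv)
  · intro t _
    rfl

/-- majorant of one factor of the bump -/
def gmF (n r : ℕ) (lam : ℝ) (v : ℕ) : ℝ :=
  (if v < r then (1 : ℝ) else 0) + (if v < r then 0 else Real.exp (-(lam * ((v - r) + 1 : ℕ)))) +
    Real.exp (-(lam * ((n - 1 - v) + 1 : ℕ)))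

theorem gm_line {lam : ℝ} (hl : 0 < lam) (r : ℕ) :
    ∑ t : ZMod n, Real.exp (-(lam * d1 n r t)) ≤ r + 2 / lam := by
  have h1 : ∀ t : ZMod n, Real.exp (-(lam * d1 n r t)) ≤ gmF n r lam t.val := by
    intro t
    have ht := ZMod.val_lt t
    unfold d1 gmF
    by_cases h : t.val < r
    · rw [if_pos h, if_pos h, if_pos h]
      simp only [Nat.cast_zero, mul_zero, neg_zero, Real.exp_zero, add_zero]
      have := Real.exp_pos (-(lam * ((n - 1 - t.val) + 1 : ℕ)))
      linarith
    · rw [if_neg h, if_neg h, if_neg h, zero_add]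
      rcases le_total (t.val + 1 - r) (n - t.val) with h2 | h2
      · rw [min_eq_left h2]
        have e : t.val + 1 - r = t.val - r + 1 := by omega
        rw [e]
        have := Real.exp_pos (-(lam * ((n - 1 - t.val) + 1 : ℕ)))
        linarith
      · rw [min_eq_right h2]
        have e : n - t.val = n - 1 - t.val + 1 := by omega
        rw [e]
        have := Real.exp_pos (-(lam * ((t.val - r) + 1 : ℕ)))
        linarith
  refine (Finset.sum_le_sum fun t _ => h1 t).trans ?_
  rw [gm_sum_val (gmF n r lam)]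
  unfold gmF
  rw [Finset.sum_add_distrib, Finset.sum_add_distrib]
  have k1 : ∑ v ∈ range n, (if v < r then (1 : ℝ) else 0) ≤ r := by
    rw [Finset.sum_boole]
    have : ((range n).filter fun v => v < r).card ≤ r := by
      calc ((range n).filter fun v => v < r).card ≤ (range r).card :=
            card_le_card fun v hv => mem_range.2 (mem_filter.1 hv).2
        _ = r := card_range r
    exact_mod_cast this
  have k2 : ∑ v ∈ range n, (if v < r then (0 : ℝ) else Real.exp (-(lam * ((v - r) + 1 : ℕ)))) ≤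
      1 / lam := by
    rw [← Finset.sum_filter_add_sum_filter_not (range n) (fun v => v < r)]
    rw [Finset.sum_eq_zero (s := (range n).filter fun v => v < r)
      (fun v hv => if_pos (mem_filter.1 hv).2), zero_add]
    rw [Finset.sum_congr rfl (fun v hv => if_neg (mem_filter.1 hv).2)]
    refine le_trans ?_ (gm_geom hl n)
    have hinj : Set.InjOn (fun v => v - r) ((range n).filter fun v => ¬ v < r : Finset ℕ) := by
      intro v hv w hw hvw
      have h2 := (mem_filter.1 (Finset.mem_coe.1 hv)).2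
      have h3 := (mem_filter.1 (Finset.mem_coe.1 hw)).2
      simp only at hvw
      omega
    rw [← Finset.sum_image (f := fun j : ℕ => Real.exp (-(lam * (j + 1 : ℕ)))) hinj]
    refine Finset.sum_le_sum_of_subset_of_nonneg ?_ fun _ _ _ => (Real.exp_pos _).le
    intro j hj
    obtain ⟨v, hv, rfl⟩ := mem_image.1 hj
    have := mem_range.1 (mem_filter.1 hv).1
    exact mem_range.2 (by omega)
  have k3 : ∑ v ∈ range n, Real.exp (-(lam * ((n - 1 - v) + 1 : ℕ))) ≤ 1 / lam := by
    rw [Finset.sum_range_reflect (fun j => Real.exp (-(lam * (j + 1 : ℕ)))) n]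
    exact gm_geom hl n
  have e : (2 : ℝ) / lam = 1 / lam + 1 / lam := by ring
  rw [e]
  linarith

/-- total weight of a bump -/
theorem sum_bump {lam : ℝ} (hl : 0 < lam) (o : Tor n) (r : ℕ) :
    ∑ x, bump n lam o r x ≤ (r + 2 / lam) ^ 3 := by
  have h1 : ∀ x : Tor n, bump n lam o r x = ∏ i : Fin 3, Real.exp (-(lam * d1 n r ((x - o) i))) := by
    intro x
    rw [← Real.exp_sum]
    unfold bump dist
    congr 1
    rw [Finset.sum_neg_distrib, ← Finset.mul_sum]
    push_cast
    rfl
  rw [Finset.sum_congr rfl fun x _ => h1 x]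
  have h2 : ∑ x : Tor n, ∏ i : Fin 3, Real.exp (-(lam * d1 n r ((x - o) i))) =
      ∑ x : Tor n, ∏ i : Fin 3, Real.exp (-(lam * d1 n r (x i))) :=
    Equiv.sum_comp (Equiv.subRight o) (fun x : Tor n => ∏ i : Fin 3, Real.exp (-(lam * d1 n r (x i))))
  rw [h2, ← Fintype.sum_pow (fun t : ZMod n => Real.exp (-(lam * d1 n r t))) 3]
  exact pow_le_pow_left₀ (Finset.sum_nonneg fun _ _ => (Real.exp_pos _).le) (gm_line hl r) 3

end

end Vale.Agent.P361.LRO.Ind
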