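import Vale.Agent.P361.LRO.Ind.StepTop
import Vale.Agent.P361.LRO.Ind.Family
import Vale.Agent.P361.LRO.Ind.GeoA
import Vale.Agent.P361.LRO.Ind.Test
import Vale.Agent.P361.LRO.Ind.StepTopE
import Vale.Agent.P361.LRO.Ind.LowE

/-!
# P361 LRO, block (6), energy form (all spins): top of the ladder
-/

namespace Vale.Agent.P361.LRO.Ind

open Finset Vale.Agent.P361.LRO _root_.P361.LRO


private theorem lt_card_GG {n N : ℕ} [NeZero n] (o : Tor n) (s : ℕ) (hs : s ≤ n) :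
    ((GG6 n N o s).card : ℝ) = N * (s : ℝ) ^ 3 := by
  unfold GG6
  rw [Finset.card_product, card_cube _ _ hs]
  have h1 : (univ.filter fun k : Fin (N + 1) => k ≠ 0).card = N := by
    rw [Finset.filter_ne', Finset.card_erase_of_mem (Finset.mem_univ _), Finset.card_univ,
      Fintype.card_fin]
    rfl
  rw [h1]
  push_cast
  rfl

private theorem lte_sum_q {n N : ℕ} [NeZero n] (o : Tor n) (s : ℕ) (hs : s ≤ n) (t : ℝ) :
    ∑ z : Nd n N, (if z ∈ GG6 n N o s then t else 0) = N * (s : ℝ) ^ 3 * t := by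
  rw [Finset.sum_ite_mem, Finset.univ_inter, Finset.sum_const, nsmul_eq_mul, lt_card_GG o s hs]

private theorem lte_LBn_mono {X : Type} [Fintype X] {c : X → X → ℝ} {E G : Finset X} {A B : ℝ}
    (hAB : B ≤ A) (h : LBn c E G A) : LBn c E G B := fun a h1 h2 => hAB.trans (h a h1 h2)

/-- The numbers. -/
private theorem lte_num {C β ρ h0 ε : ℝ} (hC : 0 < C) (hβ : 10 ≤ β) (hβC : C + 8 ≤ β)
    (hρ : β ^ 10 ≤ ρ) (hh0 : 0 < h0) (hh : h0⁻¹ ≤ ρ ^ (5 / 2 : ℝ)) (hε : 0 ≤ ε)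
    (hε1 : ε ≤ 1 / 1000) :
    0 < h0 ^ (-(4 * ε)) * (C / (β * ρ) + 8 / (β * h0 * ρ ^ 3)) ∧
    β * ρ ^ (1 / 3 : ℝ) ≤ 1 / (h0 ^ (-(4 * ε)) * (C / (β * ρ) + 8 / (β * h0 * ρ ^ 3))) := by
  have hβ0 : 0 < β := by linarith
  have hβ10 : (1 : ℝ) ≤ β ^ 10 := one_le_pow₀ (by linarith)
  have hρ1 : 1 ≤ ρ := hβ10.trans hρ
  have hρ0 : 0 < ρ := by linarith
  have hpos : 0 < h0 ^ (-(4 * ε)) * (C / (β * ρ) + 8 / (β * h0 * ρ ^ 3)) := by positivity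
  refine ⟨hpos, ?_⟩
  rw [le_div_iff₀ hpos]
  have e1 : h0 ^ (-(4 * ε)) ≤ ρ ^ (1 / 100 : ℝ) := by
    rw [Real.rpow_neg hh0.le, ← Real.inv_rpow hh0.le]
    calc (h0⁻¹) ^ (4 * ε) ≤ (ρ ^ (5 / 2 : ℝ)) ^ (4 * ε) :=
          Real.rpow_le_rpow (by positivity) hh (by positivity)
      _ = ρ ^ ((5 / 2 : ℝ) * (4 * ε)) := by rw [← Real.rpow_mul hρ0.le]
      _ ≤ ρ ^ (1 / 100 : ℝ) := Real.rpow_le_rpow_of_exponent_le hρ1 (by linarith)
  have e2 : C / (β * ρ) + 8 / (β * h0 * ρ ^ 3) ≤ (C + 8) * ρ ^ (-(1 / 2) : ℝ) / β := by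
    have f1 : C / (β * ρ) ≤ C * ρ ^ (-(1 / 2) : ℝ) / β := by
      have : C / (β * ρ) = C * ρ ^ (-1 : ℝ) / β := by
        rw [Real.rpow_neg_one]; field_simp
      rw [this]
      have := Real.rpow_le_rpow_of_exponent_le hρ1 (show (-1 : ℝ) ≤ -(1 / 2) by norm_num)
      gcongr
    have f2 : 8 / (β * h0 * ρ ^ 3) ≤ 8 * ρ ^ (-(1 / 2) : ℝ) / β := by
      have g1 : 8 / (β * h0 * ρ ^ 3) = 8 * (h0⁻¹ * ρ ^ (-3 : ℝ)) / β := by
        rw [Real.rpow_neg hρ0.le, show (3 : ℝ) = ((3 : ℕ) : ℝ) by norm_num, Real.rpow_natCast]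
        field_simp
      have g2 : h0⁻¹ * ρ ^ (-3 : ℝ) ≤ ρ ^ (5 / 2 : ℝ) * ρ ^ (-3 : ℝ) := by gcongr
      have g3 : ρ ^ (5 / 2 : ℝ) * ρ ^ (-3 : ℝ) = ρ ^ (-(1 / 2) : ℝ) := by
        rw [← Real.rpow_add hρ0]; norm_num
      rw [g3] at g2
      rw [g1]
      gcongr
    have f3 : (C + 8) * ρ ^ (-(1 / 2) : ℝ) / β =
        C * ρ ^ (-(1 / 2) : ℝ) / β + 8 * ρ ^ (-(1 / 2) : ℝ) / β := by ring
    rw [f3]
    exact add_le_add f1 f2
  have e3 : C + 8 ≤ ρ ^ (47 / 300 : ℝ) := by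
    calc C + 8 ≤ β := hβC
      _ = β ^ (1 : ℝ) := (Real.rpow_one β).symm
      _ ≤ β ^ ((10 : ℝ) * (47 / 300)) :=
          Real.rpow_le_rpow_of_exponent_le (by linarith) (by norm_num)
      _ = (β ^ 10) ^ (47 / 300 : ℝ) := by
          rw [Real.rpow_mul hβ0.le]
          congr 1
          rw [show (10 : ℝ) = ((10 : ℕ) : ℝ) by norm_num, Real.rpow_natCast]
      _ ≤ ρ ^ (47 / 300 : ℝ) := Real.rpow_le_rpow (by positivity) hρ (by norm_num)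
  calc β * ρ ^ (1 / 3 : ℝ) * (h0 ^ (-(4 * ε)) * (C / (β * ρ) + 8 / (β * h0 * ρ ^ 3)))
      ≤ β * ρ ^ (1 / 3 : ℝ) * (ρ ^ (1 / 100 : ℝ) * (ρ ^ (47 / 300 : ℝ) * ρ ^ (-(1 / 2) : ℝ) / β)) := by
        have e4 : C / (β * ρ) + 8 / (β * h0 * ρ ^ 3) ≤
            ρ ^ (47 / 300 : ℝ) * ρ ^ (-(1 / 2) : ℝ) / β := by
          refine e2.trans ?_
          gcongr
        have : (0 : ℝ) ≤ C / (β * ρ) + 8 / (β * h0 * ρ ^ 3) := by positivity
        gcongr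
    _ = (ρ ^ (1 / 3 : ℝ) * ρ ^ (1 / 100 : ℝ)) * (ρ ^ (47 / 300 : ℝ) * ρ ^ (-(1 / 2) : ℝ)) := by
        field_simp
    _ = 1 := by
        rw [← Real.rpow_add hρ0, ← Real.rpow_add hρ0, ← Real.rpow_add hρ0]
        norm_num

/-- The top of the ladder: `C(E_I, G; H_I) ≥ β ρ^{1/3}`. -/
theorem lad_topE (c1 : ℝ) (hc1 : 0 < c1) : ∃ β0 : ℝ, 10 ≤ β0 ∧ ∀ (n N W m : ℕ) [NeZero n]
    (β K h0 lam ε : ℝ) (o : Tor n) (b : Finset (Tor n)) (h : Tor n → ℝ)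
    (c : (Tor n → ℝ) → Nd n N → Nd n N → ℝ) (s : ℕ),
    β0 ≤ β → 0 < W → N = m * W → Win β m → 8 * 3 ^ s < n →
    0 < h0 → h0 ≤ 1 → 1 / β ≤ lam → 0 ≤ ε → ε ≤ 1 / 1000 →
    β ^ 10 ≤ (3 : ℝ) ^ s → h0⁻¹ ≤ ((3 : ℝ) ^ s) ^ (5 / 2 : ℝ) →
    (∀ g, Fam n h0 lam g → LocalE n N W m β K c1 b g (c g)) → LowE n N b β h0 lam ε c →
    Fam n h0 lam h →
    LBn (c (HH n lam o (3 ^ s) h)) (EE6 n N o b (3 ^ s)) (GG6 n N o (3 ^ s))
      (β * ((3 : ℝ) ^ s) ^ (1 / 3 : ℝ)) := by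
  obtain ⟨C, hC, hstep⟩ := step_topE c1 hc1
  refine ⟨max 10 (C + 8), le_max_left _ _, ?_⟩
  intro n N W m _ β K h0 lam ε o b h c s hβ hW hN hWin hn hh0 hh1 hlam hε hε1 hβs hh0s hLoc hLow hh
  have hβ1 : 10 ≤ β := (le_max_left _ _).trans hβ
  have hβC : C + 8 ≤ β := (le_max_right _ _).trans hβ
  have hβ0 : 0 < β := by linarith
  have hlam0 : 0 ≤ lam := le_trans (by positivity) hlam
  have h3s : 0 < 3 ^ s := by positivity
  have hsn : 3 ^ s ≤ n := by omega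
  have hN0 : 0 < N := by
    rw [hN]
    exact Nat.mul_pos hWin.pos hW
  have hN0' : (0 : ℝ) < N := by exact_mod_cast hN0
  have h3s' : (0 : ℝ) < ((3 ^ s : ℕ) : ℝ) := by exact_mod_cast h3s
  have hH := Fam_HH (h := h) hlam0 o h3s hh
  have h1 := Fam_one (n := n) (h0 := h0) (lam := lam) hh1 hlam0
  have hR := hstep n N W m β K o b (c fun _ => 1) (3 ^ s) hβ1 hW hN hWin h3s hn (hLoc _ h1)
  set q : Nd n N → ℝ :=
    fun z => if z ∈ GG6 n N o (3 ^ s) then 1 / ((N : ℝ) * ((3 ^ s : ℕ) : ℝ) ^ 3) else 0 with hq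
  have hdisj := disj_EG (N := N) o b (le_refl (3 ^ s)) (by omega : 8 * 3 ^ s ≤ n)
  have hq1 : ∑ z, q z = 1 := by
    rw [hq, lte_sum_q o (3 ^ s) hsn]
    field_simp
  have hq2 : ∑ z, q z ^ 2 = 1 / ((N : ℝ) * ((3 ^ s : ℕ) : ℝ) ^ 3) := by
    have e : ∀ z, q z ^ 2 =
        if z ∈ GG6 n N o (3 ^ s) then (1 / ((N : ℝ) * ((3 ^ s : ℕ) : ℝ) ^ 3)) ^ 2 else 0 := by
      intro z
      rw [hq]
      dsimp only
      split_ifs <;> simp
    rw [Finset.sum_congr rfl fun z _ => e z, lte_sum_q o (3 ^ s) hsn]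
    field_simp
  have hdual := hLow.dual hh0 hh1 (HH n lam o (3 ^ s) h) hH (EE6 n N o b (3 ^ s)) q
    Finset.subset_union_left
    (by
      intro z hz hz0
      unfold EE6 at hz
      rw [Finset.mem_union] at hz
      rcases hz with hz | hz
      · unfold hatb at hz
        rw [Finset.mem_product, Finset.mem_singleton] at hz
        exact absurd hz.1 hz0
      · rw [Finset.mem_product] at hz
        exact HH_one hlam0 o hsn hh hz.2)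
    (by
      intro z hz
      have := Finset.disjoint_left.1 hdisj hz
      rw [hq]
      dsimp only
      rw [if_neg this])
    (by
      intro x
      rw [hq]
      dsimp only
      rw [if_neg]
      unfold GG6
      rw [Finset.mem_product, Finset.mem_filter]
      rintro ⟨⟨_, h0⟩, _⟩
      exact h0 rfl)
    (by
      intro z
      rw [hq]
      dsimp only
      split_ifs <;> positivity)
    hq1 (C / (β * ((3 ^ s : ℕ) : ℝ))) (by positivity) hR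
  rw [hq2] at hdual
  have hnum := lte_num hC hβ1 hβC hβs hh0 hh0s hε hε1
  have e3 : ((3 ^ s : ℕ) : ℝ) = (3 : ℝ) ^ s := by push_cast; rfl
  rw [e3] at hdual
  have e4 : 8 * (N : ℝ) / (β * h0) * (1 / ((N : ℝ) * ((3 : ℝ) ^ s) ^ 3)) =
      8 / (β * h0 * ((3 : ℝ) ^ s) ^ 3) := by
    field_simp
  rw [e4] at hdual
  refine lte_LBn_mono hnum.2 (LBn_of_RBn hnum.1 ?_ hdual)
  intro x hx
  rw [hq]
  dsimp only
  rw [if_neg hx]

end Vale.Agent.P361.LRO.Ind
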