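import Vale.Agent.P361.LRO.NetODE

/-!
Network lemma (6b): the test function `1` on the electrode, `min (2 u) 1` elsewhere.
-/

namespace P361.LRO

open Finset

variable {V : Type*}

/-- The test function of (6b). -/
noncomputable def netTest (E : Set V) (u : V → ℝ) : V → ℝ := by
  classical exact fun x => if x ∈ E then 1 else min (2 * u x) 1

theorem netTest_mem (E : Set V) (u : V → ℝ) {x : V} (hx : x ∈ E) : netTest E u x = 1 := by
  classical
  unfold netTest
  rw [if_pos hx]

theorem netTest_not_mem (E : Set V) (u : V → ℝ) {x : V} (hx : x ∉ E) :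
    netTest E u x = min (2 * u x) 1 := by
  classical
  unfold netTest
  rw [if_neg hx]

theorem netTest_zero (E : Set V) {u : V → ℝ} {x : V} (hx : x ∉ E) (h : u x = 0) :
    netTest E u x = 0 := by
  rw [netTest_not_mem E u hx, h]
  norm_num

theorem netTest_mem01 (E : Set V) {u : V → ℝ} (hu : ∀ x, 0 ≤ u x) (x : V) :
    0 ≤ netTest E u x ∧ netTest E u x ≤ 1 := by
  by_cases hx : x ∈ E
  · rw [netTest_mem E u hx]
    norm_num
  · rw [netTest_not_mem E u hx]
    exact ⟨le_min (by linarith [hu x]) (by norm_num), min_le_right _ _⟩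

/-- Where the test function is good. -/
theorem netTest_good (E : Set V) {u : V → ℝ} {x : V} (h : ¬ (x ∈ E ∧ u x < 1 / 2)) :
    netTest E u x = min (2 * u x) 1 := by
  by_cases hx : x ∈ E
  · rw [netTest_mem E u hx, min_eq_right]
    have : ¬ u x < 1 / 2 := fun h' => h ⟨hx, h'⟩
    linarith
  · exact netTest_not_mem E u hx

theorem min_two_lip (s t : ℝ) : (min (2 * s) 1 - min (2 * t) 1) ^ 2 ≤ 4 * (s - t) ^ 2 := by
  have h : |min (2 * s) 1 - min (2 * t) 1| ≤ |2 * s - 2 * t| := by
    have := abs_min_sub_min_le_max (2 * s) 1 (2 * t) 1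
    simpa using this
  have h2 : (min (2 * s) 1 - min (2 * t) 1) ^ 2 ≤ (2 * s - 2 * t) ^ 2 := sq_le_sq.2 h
  calc _ ≤ (2 * s - 2 * t) ^ 2 := h2
    _ = 4 * (s - t) ^ 2 := by ring

open Classical in
/-- The level set lemma. -/
theorem netK_test_le [Fintype V] {c : V → V → ℝ} (hc : ∀ x y, 0 ≤ c x y) (hs : ∀ x y, c x y = c y x)
    (E : Set V) {u : V → ℝ} (hu : ∀ x, 0 ≤ u x) :
    netK c (netTest E u) ≤
      4 * netK c u + ∑ x, if x ∈ E ∧ u x < 1 / 2 then netV c x else 0 := by
  set bad : V → ℝ := fun x => if x ∈ E ∧ u x < 1 / 2 then 1 else 0 with hbad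
  have hb0 : ∀ x, 0 ≤ bad x := fun x => by
    rw [hbad]
    dsimp only
    split_ifs <;> norm_num
  have hp : ∀ x y, (netTest E u x - netTest E u y) ^ 2 ≤
      4 * (u x - u y) ^ 2 + (bad x + bad y) := by
    intro x y
    have hx01 := netTest_mem01 E hu x
    have hy01 := netTest_mem01 E hu y
    have h1 : (netTest E u x - netTest E u y) ^ 2 ≤ 1 := by
      nlinarith [hx01.1, hx01.2, hy01.1, hy01.2]
    by_cases hx : x ∈ E ∧ u x < 1 / 2
    · have e1 : bad x = 1 := if_pos hx
      have := hb0 y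
      nlinarith [sq_nonneg (u x - u y)]
    · by_cases hy : y ∈ E ∧ u y < 1 / 2
      · have e1 : bad y = 1 := if_pos hy
        have := hb0 x
        nlinarith [sq_nonneg (u x - u y)]
      · rw [netTest_good E hx, netTest_good E hy]
        have h2 := min_two_lip (u x) (u y)
        have := hb0 x
        have := hb0 y
        linarith
  have h1 : netK c (netTest E u) ≤
      (1 / 2) * ∑ x, ∑ y, (4 * (c x y * (u x - u y) ^ 2) + (c x y * bad x + c x y * bad y)) := by
    unfold netK
    refine mul_le_mul_of_nonneg_left ?_ (by norm_num)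
    refine Finset.sum_le_sum fun x _ => Finset.sum_le_sum fun y _ => ?_
    have := mul_le_mul_of_nonneg_left (hp x y) (hc x y)
    calc _ ≤ c x y * (4 * (u x - u y) ^ 2 + (bad x + bad y)) := this
      _ = _ := by ring
  refine h1.trans (le_of_eq ?_)
  have h2 : ∑ x, ∑ y, c x y * bad x = ∑ x, if x ∈ E ∧ u x < 1 / 2 then netV c x else 0 := by
    refine Finset.sum_congr rfl fun x _ => ?_
    rw [← Finset.sum_mul]
    unfold netV
    by_cases hx : x ∈ E ∧ u x < 1 / 2
    · rw [if_pos hx, show bad x = 1 from if_pos hx, mul_one]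
    · rw [if_neg hx, show bad x = 0 from if_neg hx, mul_zero]
  have h3 : ∑ x, ∑ y, c x y * bad y = ∑ x, ∑ y, c x y * bad x := by
    rw [Finset.sum_comm]
    exact Finset.sum_congr rfl fun y _ => Finset.sum_congr rfl fun x _ => by rw [hs x y]
  simp only [Finset.sum_add_distrib, ← Finset.mul_sum]
  rw [h3, h2]
  unfold netK
  ring

end P361.LRO
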