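import Vale.Agent.P361.LRO.Ind.Defs

/-!
# P361 LRO, block (6), package C1: straight lines
-/

namespace Vale.Agent.P361.LRO.Ind

open Finset

namespace Lines

theorem sum4 (s T : ℕ) (g : ℕ → ℕ → ℕ → ℕ → ℝ) :
    ∑ x ∈ range s, ∑ y ∈ range s, ∑ z ∈ range s, ∑ w ∈ range T, g x y z w =
      ∑ p ∈ range s ×ˢ range s ×ˢ range s ×ˢ range T, g p.1 p.2.1 p.2.2.1 p.2.2.2 := by
  rw [sum_product]
  refine sum_congr rfl fun x _ => ?_
  rw [sum_product]
  refine sum_congr rfl fun y _ => ?_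
  rw [sum_product]

theorem line_le (s : ℕ) (f : ℕ → ℝ) {x : ℕ} (hx : x < s) :
    (f x - f (x + 4 * s)) ^ 2 ≤ 4 * s * ∑ i ∈ range (5 * s - 1), (f (i + 1) - f i) ^ 2 := by
  have h1 : ∑ i ∈ range (4 * s), (f (x + (i + 1)) - f (x + i)) = f (x + 4 * s) - f x :=
    sum_range_sub (fun i => f (x + i)) (4 * s)
  have h2 := sq_sum_le_card_mul_sum_sq (s := range (4 * s))
    (f := fun i => f (x + (i + 1)) - f (x + i))
  rw [h1, card_range] at h2
  have h3 : ∑ i ∈ range (4 * s), (f (x + (i + 1)) - f (x + i)) ^ 2 =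
      ∑ i ∈ Ico x (x + 4 * s), (f (i + 1) - f i) ^ 2 := by
    rw [sum_Ico_eq_sum_range, Nat.add_sub_cancel_left]
    refine sum_congr rfl fun i _ => ?_
    rw [add_assoc]
  have h4 : ∑ i ∈ Ico x (x + 4 * s), (f (i + 1) - f i) ^ 2 ≤
      ∑ i ∈ range (5 * s - 1), (f (i + 1) - f i) ^ 2 := by
    refine sum_le_sum_of_subset_of_nonneg (fun i hi => ?_) fun i _ _ => sq_nonneg _
    rw [mem_Ico] at hi
    rw [mem_range]
    omega
  have h5 : (f x - f (x + 4 * s)) ^ 2 = (f (x + 4 * s) - f x) ^ 2 := by ring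
  rw [h5]
  refine h2.trans ?_
  rw [h3]
  push_cast
  exact mul_le_mul_of_nonneg_left h4 (by positivity)

theorem esp_ge (s T : ℕ) (U : ℕ → ℕ → ℕ → ℕ → ℝ) :
    ∑ y ∈ range s, ∑ z ∈ range s, ∑ w ∈ range T,
      ∑ x ∈ range (5 * s - 1), (U (x + 1) y z w - U x y z w) ^ 2 ≤ E4 (5 * s) T U := by
  have hss : range s ⊆ range (5 * s) := range_subset_range.2 (by omega)
  have h0 : ∑ y ∈ range s, ∑ z ∈ range s, ∑ w ∈ range T,
      ∑ x ∈ range (5 * s - 1), (U (x + 1) y z w - U x y z w) ^ 2 =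
      ∑ x ∈ range (5 * s - 1), ∑ y ∈ range s, ∑ z ∈ range s, ∑ w ∈ range T,
        (U (x + 1) y z w - U x y z w) ^ 2 :=
    ((sum_congr rfl fun y _ => sum_congr rfl fun z _ => sum_comm).trans
      (sum_congr rfl fun y _ => sum_comm)).trans sum_comm
  have h1 : ∑ x ∈ range (5 * s - 1), ∑ y ∈ range s, ∑ z ∈ range s, ∑ w ∈ range T,
        (U (x + 1) y z w - U x y z w) ^ 2 ≤
      ∑ x ∈ range (5 * s - 1), ∑ y ∈ range (5 * s), ∑ z ∈ range (5 * s), ∑ w ∈ range T,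
        (U (x + 1) y z w - U x y z w) ^ 2 := by
    refine sum_le_sum fun x _ => ?_
    refine (sum_le_sum fun y _ => sum_le_sum_of_subset_of_nonneg hss fun z _ _ =>
      sum_nonneg fun w _ => sq_nonneg _).trans ?_
    exact sum_le_sum_of_subset_of_nonneg hss fun y _ _ =>
      sum_nonneg fun z _ => sum_nonneg fun w _ => sq_nonneg _
  rw [h0]
  refine h1.trans ?_
  unfold E4 Esp Eti
  have h2 : 0 ≤ ∑ x ∈ range (5 * s), ∑ y ∈ range (5 * s - 1), ∑ z ∈ range (5 * s),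
      ∑ w ∈ range T, (U x (y + 1) z w - U x y z w) ^ 2 :=
    sum_nonneg fun x _ => sum_nonneg fun y _ => sum_nonneg fun z _ => sum_nonneg fun w _ =>
      sq_nonneg _
  have h3 : 0 ≤ ∑ x ∈ range (5 * s), ∑ y ∈ range (5 * s), ∑ z ∈ range (5 * s - 1),
      ∑ w ∈ range T, (U x y (z + 1) w - U x y z w) ^ 2 :=
    sum_nonneg fun x _ => sum_nonneg fun y _ => sum_nonneg fun z _ => sum_nonneg fun w _ =>
      sq_nonneg _
  have h4 : 0 ≤ ∑ x ∈ range (5 * s), ∑ y ∈ range (5 * s), ∑ z ∈ range (5 * s),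
      ∑ w ∈ range (T - 1), (U x y z (w + 1) - U x y z w) ^ 2 :=
    sum_nonneg fun x _ => sum_nonneg fun y _ => sum_nonneg fun z _ => sum_nonneg fun w _ =>
      sq_nonneg _
  linarith

end Lines

/-- straight lines. -/
theorem lines (s T : ℕ) (hs : 0 < s) (hT : 0 < T) (U : ℕ → ℕ → ℕ → ℕ → ℝ)
    (hU : ∀ x < s, ∀ y < s, ∀ z < s, ∀ w < T, U x y z w = 1) :
    (1 - (1 / ((s : ℝ) ^ 3 * T)) * ∑ x ∈ range s, ∑ y ∈ range s, ∑ z ∈ range s, ∑ w ∈ range T,
      U (x + 4 * s) y z w) ^ 2 ≤ 4 / (s * T) * E4 (5 * s) T U := by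
  have hs' : (0 : ℝ) < s := by exact_mod_cast hs
  have hT' : (0 : ℝ) < T := by exact_mod_cast hT
  have hc : (0 : ℝ) < (s : ℝ) ^ 3 * T := by positivity
  -- the quadruple sum of the differences
  have h1 : (s : ℝ) ^ 3 * T - ∑ x ∈ range s, ∑ y ∈ range s, ∑ z ∈ range s, ∑ w ∈ range T,
      U (x + 4 * s) y z w = ∑ x ∈ range s, ∑ y ∈ range s, ∑ z ∈ range s, ∑ w ∈ range T,
      (U x y z w - U (x + 4 * s) y z w) := by
    simp only [sum_sub_distrib]
    have : ∑ x ∈ range s, ∑ y ∈ range s, ∑ z ∈ range s, ∑ w ∈ range T, U x y z w =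
        (s : ℝ) ^ 3 * T := by
      have e : ∑ x ∈ range s, ∑ y ∈ range s, ∑ z ∈ range s, ∑ w ∈ range T, U x y z w =
          ∑ x ∈ range s, ∑ y ∈ range s, ∑ z ∈ range s, ∑ w ∈ range T, (1 : ℝ) :=
        sum_congr rfl fun x hx => sum_congr rfl fun y hy => sum_congr rfl fun z hz =>
          sum_congr rfl fun w hw => hU x (mem_range.1 hx) y (mem_range.1 hy) z (mem_range.1 hz) w
            (mem_range.1 hw)
      rw [e]
      simp only [sum_const, card_range, nsmul_eq_mul]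
      ring
    rw [this]
  -- Cauchy-Schwarz
  have h2 : (∑ x ∈ range s, ∑ y ∈ range s, ∑ z ∈ range s, ∑ w ∈ range T,
      (U x y z w - U (x + 4 * s) y z w)) ^ 2 ≤ (s : ℝ) ^ 3 * T *
      ∑ x ∈ range s, ∑ y ∈ range s, ∑ z ∈ range s, ∑ w ∈ range T,
        (U x y z w - U (x + 4 * s) y z w) ^ 2 := by
    rw [Lines.sum4, Lines.sum4]
    have := sq_sum_le_card_mul_sum_sq (s := range s ×ˢ range s ×ˢ range s ×ˢ range T)
      (f := fun p : ℕ × ℕ × ℕ × ℕ => U p.1 p.2.1 p.2.2.1 p.2.2.2 -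
        U (p.1 + 4 * s) p.2.1 p.2.2.1 p.2.2.2)
    refine this.trans (le_of_eq ?_)
    congr 1
    simp only [card_product, card_range]
    push_cast
    ring
  -- the lines
  have h3 : ∑ x ∈ range s, ∑ y ∈ range s, ∑ z ∈ range s, ∑ w ∈ range T,
      (U x y z w - U (x + 4 * s) y z w) ^ 2 ≤ 4 * (s : ℝ) ^ 2 * E4 (5 * s) T U := by
    have e1 : ∑ x ∈ range s, ∑ y ∈ range s, ∑ z ∈ range s, ∑ w ∈ range T,
        (U x y z w - U (x + 4 * s) y z w) ^ 2 ≤
        ∑ x ∈ range s, 4 * (s : ℝ) * ∑ y ∈ range s, ∑ z ∈ range s, ∑ w ∈ range T,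
          ∑ i ∈ range (5 * s - 1), (U (i + 1) y z w - U i y z w) ^ 2 := by
      refine sum_le_sum fun x hx => ?_
      rw [mul_sum]
      refine sum_le_sum fun y _ => ?_
      rw [mul_sum]
      refine sum_le_sum fun z _ => ?_
      rw [mul_sum]
      refine sum_le_sum fun w _ => ?_
      exact Lines.line_le s (fun i => U i y z w) (mem_range.1 hx)
    rw [sum_const, card_range, nsmul_eq_mul] at e1
    have e2 := mul_le_mul_of_nonneg_left (Lines.esp_ge s T U)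
      (by positivity : (0 : ℝ) ≤ 4 * (s : ℝ) ^ 2)
    refine e1.trans (le_trans (le_of_eq ?_) e2)
    ring
  have h4 : 1 - (1 / ((s : ℝ) ^ 3 * T)) * ∑ x ∈ range s, ∑ y ∈ range s, ∑ z ∈ range s,
      ∑ w ∈ range T, U (x + 4 * s) y z w =
      (∑ x ∈ range s, ∑ y ∈ range s, ∑ z ∈ range s, ∑ w ∈ range T,
        (U x y z w - U (x + 4 * s) y z w)) / ((s : ℝ) ^ 3 * T) := by
    rw [← h1, sub_div, div_self hc.ne']
    ring
  rw [h4, div_pow, div_le_iff₀ (by positivity)]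
  refine h2.trans ((mul_le_mul_of_nonneg_left h3 hc.le).trans (le_of_eq ?_))
  field_simp

end Vale.Agent.P361.LRO.Ind
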