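import Vale.Agent.P361.LRO.Ind.Defs
import Vale.Agent.P361.LRO.Ind.GeoA
import Vale.Agent.P361.LRO.Ind.EnergyA
import Vale.Agent.P361.LRO.Ind.EnergyB
import Vale.Agent.P361.LRO.Ind.EnergyC
import Vale.Agent.P361.LRO.Ind.VolA
import Vale.Agent.P361.LRO.Ind.Test
import Vale.Agent.P361.LRO.Ind.Chain

/-!
# P361 LRO, block (6): the last step (6c), before lowering (helper535)
-/

namespace Vale.Agent.P361.LRO.Ind

open Finset Vale.Agent.P361.LRO _root_.P361.LRO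

lemma sl_E4_nonneg (S T : ℕ) (U : ℕ → ℕ → ℕ → ℕ → ℝ) : 0 ≤ E4 S T U := by
  unfold E4 Esp Eti
  have h : ∀ (s : Finset ℕ) (f : ℕ → ℝ), (∀ i, 0 ≤ f i) → 0 ≤ ∑ i ∈ s, f i := fun s f hf =>
    Finset.sum_nonneg fun i _ => hf i
  have h4 : ∀ (s1 s2 s3 s4 : Finset ℕ) (f : ℕ → ℕ → ℕ → ℕ → ℝ), (∀ x y z w, 0 ≤ f x y z w) →
      0 ≤ ∑ x ∈ s1, ∑ y ∈ s2, ∑ z ∈ s3, ∑ w ∈ s4, f x y z w := fun s1 s2 s3 s4 f hf =>
    h _ _ fun x => h _ _ fun y => h _ _ fun z => h _ _ fun w => hf x y z w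
  refine add_nonneg (add_nonneg (add_nonneg ?_ ?_) ?_) ?_ <;>
    exact h4 _ _ _ _ _ fun _ _ _ _ => sq_nonneg _

lemma sl_jensen (W : ℕ) (hW : 0 < W) (f : ℕ → ℝ) :
    (1 - (1 / (W : ℝ)) * ∑ j ∈ range W, f j) ^ 2 ≤ (1 / (W : ℝ)) * ∑ j ∈ range W, (1 - f j) ^ 2 := by
  have hW' : (0 : ℝ) < W := Nat.cast_pos.2 hW
  have h1 : 1 - (1 / (W : ℝ)) * ∑ j ∈ range W, f j = (1 / (W : ℝ)) * ∑ j ∈ range W, (1 - f j) := by
    rw [Finset.sum_sub_distrib, Finset.sum_const, Finset.card_range, nsmul_eq_mul, mul_one]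
    field_simp
  have h2 := sq_sum_le_card_mul_sum_sq (s := range W) (f := fun j => 1 - f j)
  rw [Finset.card_range] at h2
  rw [h1, mul_pow]
  calc (1 / (W : ℝ)) ^ 2 * (∑ j ∈ range W, (1 - f j)) ^ 2
      ≤ (1 / (W : ℝ)) ^ 2 * (W * ∑ j ∈ range W, (1 - f j) ^ 2) :=
        mul_le_mul_of_nonneg_left h2 (by positivity)
    _ = (1 / (W : ℝ)) * ∑ j ∈ range W, (1 - f j) ^ 2 := by
        field_simp

lemma sl_num {β K κ A P Q C : ℝ} (hβ : 0 < β) (hK : 0 < K) (hκ0 : 0 ≤ κ) (hκ : κ ≤ K)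
    (hP : 0 ≤ P) (hQ : 0 ≤ Q) (hC : 2 * P < C) (hC' : 2 * Q ≤ C) (h1 : C * β ^ 2 * K ≤ A)
    (h2 : C * K ^ 3 ≤ A * β ^ 2) (h3 : A ≤ P * (β ^ 2 * κ) + Q * (κ ^ 3 / β ^ 2)) : False := by
  have hb2 : 0 < β ^ 2 := by positivity
  have e1 : β ^ 2 * κ ≤ β ^ 2 * K := mul_le_mul_of_nonneg_left hκ hb2.le
  have e2 : κ ^ 3 / β ^ 2 ≤ K ^ 3 / β ^ 2 :=
    div_le_div_of_nonneg_right (pow_le_pow_left₀ hκ0 hκ 3) hb2.le
  have e3 : C * (K ^ 3 / β ^ 2) ≤ A := by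
    rw [← mul_div_assoc, div_le_iff₀ hb2]
    exact h2
  have e4 : 0 < β ^ 2 * K := by positivity
  have e5 : 0 ≤ K ^ 3 / β ^ 2 := by positivity
  have e6 : P * (β ^ 2 * κ) ≤ P * (β ^ 2 * K) := mul_le_mul_of_nonneg_left e1 hP
  have e7 : Q * (κ ^ 3 / β ^ 2) ≤ Q * (K ^ 3 / β ^ 2) := mul_le_mul_of_nonneg_left e2 hQ
  have e8 : 2 * P * (β ^ 2 * K) < C * (β ^ 2 * K) := mul_lt_mul_of_pos_right hC e4
  have e9 : 2 * Q * (K ^ 3 / β ^ 2) ≤ C * (K ^ 3 / β ^ 2) := mul_le_mul_of_nonneg_right hC' e5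
  have e10 : C * (β ^ 2 * K) ≤ A := by rw [← mul_assoc]; exact h1
  linarith

/-- the volume bound in numbers -/
lemma sl_vol {β κ A E D cn c1 Cc mR : ℝ} (hβ : 1 ≤ β) (hκ0 : 0 ≤ κ) (hc1 : 0 < c1) (hCc : 0 < Cc)
    (hm1 : 3 * β ≤ mR) (hm2 : mR ≤ 4 * β) (hE0 : 0 ≤ E) (hE : c1 * E ≤ 1600 * κ)
    (hD : c1 * D ≤ 4 * κ) (hcn : cn ≤ Cc * (mR ^ 2 * E + E ^ 3 / mR ^ 2))
    (hA : A ≤ 4 * κ + (32 * D + β / (2 * mR) * cn)) (hcn0 : 0 ≤ cn) :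
    A ≤ (4 + 128 / c1 + 5000 * Cc / c1) * (β ^ 2 * κ) + Cc * (1600 / c1) ^ 3 * (κ ^ 3 / β ^ 2) := by
  have hβ0 : 0 < β := by linarith
  have hm0 : 0 < mR := by linarith
  have hb2 : 1 ≤ β ^ 2 := one_le_pow₀ hβ
  have hE' : E ≤ 1600 / c1 * κ := by
    rw [div_mul_eq_mul_div, le_div_iff₀ hc1]
    linarith
  have hD' : D ≤ 4 / c1 * κ := by
    rw [div_mul_eq_mul_div, le_div_iff₀ hc1]
    linarith
  have hκb : κ ≤ β ^ 2 * κ := le_mul_of_one_le_left hκ0 hb2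
  have h1 : β / (2 * mR) ≤ 1 / 6 := by
    rw [div_le_iff₀ (by positivity)]
    linarith
  have h2 : β / (2 * mR) * cn ≤ 1 / 6 * cn := mul_le_mul_of_nonneg_right h1 hcn0
  have h3 : mR ^ 2 * E ≤ 16 * β ^ 2 * (1600 / c1 * κ) := by
    refine mul_le_mul ?_ hE' hE0 (by positivity)
    nlinarith
  have h4 : E ^ 3 / mR ^ 2 ≤ (1600 / c1 * κ) ^ 3 / β ^ 2 := by
    refine div_le_div₀ (by positivity) (pow_le_pow_left₀ hE0 hE' 3) (by positivity) ?_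
    nlinarith
  have h5 : cn ≤ Cc * (16 * β ^ 2 * (1600 / c1 * κ) + (1600 / c1 * κ) ^ 3 / β ^ 2) :=
    hcn.trans (mul_le_mul_of_nonneg_left (add_le_add h3 h4) hCc.le)
  have h6 : (1600 / c1 * κ) ^ 3 / β ^ 2 = (1600 / c1) ^ 3 * (κ ^ 3 / β ^ 2) := by
    rw [mul_pow, mul_div_assoc]
  rw [h6] at h5
  have h7 : 0 ≤ Cc * (1600 / c1) ^ 3 * (κ ^ 3 / β ^ 2) := by positivity
  have h8 : 0 ≤ Cc / c1 * (β ^ 2 * κ) := by positivity
  have h9 : 128 / c1 * κ ≤ 128 / c1 * (β ^ 2 * κ) := mul_le_mul_of_nonneg_left hκb (by positivity)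
  have h10 : 32 * D ≤ 128 / c1 * κ := by
    have : 128 / c1 * κ = 32 * (4 / c1 * κ) := by ring
    rw [this]
    linarith
  have h11 : Cc * (16 * β ^ 2 * (1600 / c1 * κ) + (1600 / c1) ^ 3 * (κ ^ 3 / β ^ 2)) =
      25600 * (Cc / c1 * (β ^ 2 * κ)) + Cc * (1600 / c1) ^ 3 * (κ ^ 3 / β ^ 2) := by ring
  rw [h11] at h5
  have h12 : (4 + 128 / c1 + 5000 * Cc / c1) * (β ^ 2 * κ) =
      4 * (β ^ 2 * κ) + 128 / c1 * (β ^ 2 * κ) + 5000 * (Cc / c1 * (β ^ 2 * κ)) := by ring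
  rw [h12]
  linarith


lemma sl_eq1 {c1 K β Dc t : ℝ} {N m W : ℝ} (hN : N = m * W) (hm : 0 < m) (hW : 0 < W) (ht : 0 < t) :
    c1 * K * (β / N) * (1 / t) * Dc = c1 * K * (Dc / W) * (β / m) / t := by
  rw [hN]
  field_simp

lemma sl_eq2 {β Dv cn : ℝ} {N m W : ℝ} (hN : N = m * W) (hm : 0 < m) (hW : 0 < W) :
    (64 * Dv + W * cn) * (β / (2 * N)) = 32 * (β / N * Dv) + β / (2 * m) * cn := by
  rw [hN]
  field_simp
  ring

lemma sl_st1 {Cs X Y c1 K κ C t : ℝ} (hCs : 0 < Cs) (hc1 : 0 < c1) (hK : 0 < K) (hκ0 : 0 ≤ κ) (ht : 0 < t)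
    (hκC : κ * C < K) (hX : X ≤ Y) (hY : c1 * K * Y ≤ 4 * κ * t) (hC : 6400 * Cs ≤ c1 * C) :
    Cs * X ≤ t := by
  have h1 : Cs * X ≤ Cs * Y := mul_le_mul_of_nonneg_left hX hCs.le
  have h2 : c1 * K * (Cs * Y) ≤ c1 * K * t := by
    have e1 : c1 * K * (Cs * Y) = Cs * (c1 * K * Y) := by ring
    have e2 : Cs * (c1 * K * Y) ≤ Cs * (4 * κ * t) := mul_le_mul_of_nonneg_left hY hCs.le
    have e3 : Cs * (4 * κ * t) = 4 * Cs * κ * t := by ring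
    have e4 : 4 * Cs * κ ≤ c1 * K := by
      have e5 : 4 * Cs * κ ≤ c1 * C * κ := mul_le_mul_of_nonneg_right (by linarith) hκ0
      have e6 : c1 * C * κ = c1 * (κ * C) := by ring
      have e7 : c1 * (κ * C) ≤ c1 * K := mul_le_mul_of_nonneg_left hκC.le hc1.le
      linarith
    have e5 : 4 * Cs * κ * t ≤ c1 * K * t := mul_le_mul_of_nonneg_right e4 ht.le
    linarith
  exact h1.trans (le_of_mul_le_mul_left h2 (by positivity))

lemma sl_st2 {Cs c1 K κ C t β m E : ℝ} (hCs : 0 < Cs) (hc1 : 0 < c1) (hκ0 : 0 ≤ κ) (hβ : 0 < β)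
    (hκC : κ * C < K) (hC : 6400 * Cs ≤ c1 * C) (hm : m ≤ 4 * β) (hm0 : 0 < m) (hE : c1 * E ≤ 1600 * κ)
    (hKβ : K * β ≤ t) : Cs * m * E ≤ t := by
  have e1 : c1 * (Cs * m * E) ≤ c1 * t := by
    have e2 : c1 * (Cs * m * E) = Cs * m * (c1 * E) := by ring
    have e3 : Cs * m * (c1 * E) ≤ Cs * m * (1600 * κ) := mul_le_mul_of_nonneg_left hE (by positivity)
    have e4 : Cs * m * (1600 * κ) ≤ Cs * (4 * β) * (1600 * κ) :=
      mul_le_mul_of_nonneg_right (mul_le_mul_of_nonneg_left hm hCs.le) (by positivity)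
    have e5 : Cs * (4 * β) * (1600 * κ) = 6400 * Cs * (β * κ) := by ring
    have e6 : 6400 * Cs * (β * κ) ≤ c1 * C * (β * κ) := mul_le_mul_of_nonneg_right hC (by positivity)
    have e7 : c1 * C * (β * κ) = c1 * β * (κ * C) := by ring
    have e8 : c1 * β * (κ * C) ≤ c1 * β * K := mul_le_mul_of_nonneg_left hκC.le (by positivity)
    have e9 : c1 * β * K = c1 * (K * β) := by ring
    have e10 : c1 * (K * β) ≤ c1 * t := mul_le_mul_of_nonneg_left hKβ hc1.le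
    linarith
  exact le_of_mul_le_mul_left e1 hc1

lemma sl_Km {K β m : ℝ} (a : ℕ) (hβ : 0 < β) (h3a : (3 : ℝ) ^ a ≤ β) (hKβ : K * β ≤ 27 ^ a)
    (hm : β ≤ m) : K ≤ m * 3 ^ a := by
  have e1 : (27 : ℝ) ^ a = (3 ^ a) ^ 3 := by
    rw [← pow_mul, mul_comm a 3, pow_mul]
    norm_num
  have e2 : (0 : ℝ) < 3 ^ a := by positivity
  have e3 : ((3 : ℝ) ^ a) ^ 3 ≤ 3 ^ a * β * β := by
    have e4 : (3 : ℝ) ^ a * 3 ^ a ≤ β * β := mul_le_mul h3a h3a e2.le hβ.le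
    calc ((3 : ℝ) ^ a) ^ 3 = 3 ^ a * (3 ^ a * 3 ^ a) := by ring
      _ ≤ 3 ^ a * (β * β) := mul_le_mul_of_nonneg_left e4 e2.le
      _ = 3 ^ a * β * β := by ring
  have e5 : K * β ≤ 3 ^ a * β * β := by rw [e1] at hKβ; exact hKβ.trans e3
  have e6 : K ≤ 3 ^ a * β := le_of_mul_le_mul_right e5 hβ
  have e7 : (3 : ℝ) ^ a * β ≤ m * 3 ^ a := by
    rw [mul_comm m]
    exact mul_le_mul_of_nonneg_left hm e2.le
  exact e6.trans e7

lemma sl_ch {Cc c1 K κ C E : ℝ} (hCc : 0 < Cc) (hc1 : 0 < c1) (hκ0 : 0 ≤ κ)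
    (hκC : κ * C < K) (hC : 1600 * Cc ≤ c1 * C) (hE : c1 * E ≤ 1600 * κ) : Cc * E ≤ K := by
  have e1 : c1 * (Cc * E) ≤ c1 * K := by
    have e2 : c1 * (Cc * E) = Cc * (c1 * E) := by ring
    have e3 : Cc * (c1 * E) ≤ Cc * (1600 * κ) := mul_le_mul_of_nonneg_left hE hCc.le
    have e4 : Cc * (1600 * κ) = 1600 * Cc * κ := by ring
    have e5 : 1600 * Cc * κ ≤ c1 * C * κ := mul_le_mul_of_nonneg_right hC hκ0
    have e6 : c1 * C * κ = c1 * (κ * C) := by ring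
    have e7 : c1 * (κ * C) ≤ c1 * K := mul_le_mul_of_nonneg_left hκC.le hc1.le
    linarith
  exact le_of_mul_le_mul_left e1 hc1

/-- the cost of the modified nodes -/
lemma sl_cost {n N W : ℕ} [NeZero n] {β K c1 : ℝ} {b' b : Finset (Tor n)} {h : Tor n → ℝ}
    {c : Nd n N → Nd n N → ℝ} (hloc : Local n N W β K c1 b' h c) (o : Tor n) (S : ℕ)
    (hh : ∀ x ∈ cube n o S, h x = 1) (u : Nd n N → ℝ) :
    ∑ z ∈ ((EE6 n N o b S) \ (hatb N b)).filter (fun z => u z < 1 / 2), ∑ v, c z v ≤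
      ((((univ.filter fun k => k ≠ 0) ×ˢ cube n o S : Finset (Nd n N)).filter
        fun z => u z < 1 / 2).card : ℝ) * (β / (2 * N)) := by
  have hsub : ((EE6 n N o b S) \ (hatb N b)).filter (fun z => u z < 1 / 2) ⊆
      (((univ.filter fun k => k ≠ 0) ×ˢ cube n o S : Finset (Nd n N)).filter
        fun z => u z < 1 / 2) := by
    intro z hz
    rw [Finset.mem_filter, Finset.mem_sdiff, EE6, Finset.mem_union] at hz
    rw [Finset.mem_filter]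
    exact ⟨hz.1.1.resolve_left hz.1.2, hz.2⟩
  have hnn : ∀ z : Nd n N, 0 ≤ ∑ v, c z v := fun z => Finset.sum_nonneg fun v _ => hloc.nonneg z v
  refine (Finset.sum_le_sum_of_subset_of_nonneg hsub fun z _ _ => hnn z).trans ?_
  rw [← nsmul_eq_mul]
  refine Finset.sum_le_card_nsmul _ _ _ fun z hz => ?_
  rw [Finset.mem_filter, Finset.mem_product, Finset.mem_filter] at hz
  have h1 := hloc.tot z.1 z.2 hz.1.1.2
  refine h1.trans ?_
  rw [hh z.2 hz.1.2, mul_one]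

lemma sl_cube_mono {n : ℕ} (o : Tor n) {r s : ℕ} (hrs : r ≤ s) : cube n o r ⊆ cube n o s := by
  intro x hx
  rw [cube, Finset.mem_image] at hx ⊢
  obtain ⟨y, -, rfl⟩ := hx
  exact ⟨fun i => ⟨(y i : ℕ), lt_of_lt_of_le (y i).2 hrs⟩, Finset.mem_univ _, rfl⟩

/-- mean square on the window 0 -/
lemma sl_win {n N W : ℕ} [NeZero n] (hW : 0 < W) (o : Tor n) (r : ℕ) (hr : r ≤ n) (u : Nd n N → ℝ) :
    ∑ x ∈ range r, ∑ y ∈ range r, ∑ z ∈ range r, (1 - UU n N W o u x y z 0) ^ 2 ≤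
      (∑ x ∈ cube n o r, ∑ j ∈ range W, (1 - u (lay N W 0 j, x)) ^ 2) / (W : ℝ) := by
  have h1 : (∑ x ∈ cube n o r, ∑ j ∈ range W, (1 - u (lay N W 0 j, x)) ^ 2) / (W : ℝ) =
      ∑ x ∈ range r, ∑ y ∈ range r, ∑ z ∈ range r,
      (1 / (W : ℝ)) * ∑ j ∈ range W, (1 - u (lay N W 0 j, pt n o x y z)) ^ 2 := by
    rw [sum_cube o r hr fun x => ∑ j ∈ range W, (1 - u (lay N W 0 j, x)) ^ 2,
      div_eq_inv_mul, Finset.mul_sum]
    refine Finset.sum_congr rfl fun x _ => ?_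
    rw [Finset.mul_sum]
    refine Finset.sum_congr rfl fun y _ => ?_
    rw [Finset.mul_sum]
    refine Finset.sum_congr rfl fun z _ => ?_
    rw [one_div]
  rw [h1]
  refine Finset.sum_le_sum fun x _ => Finset.sum_le_sum fun y _ => Finset.sum_le_sum fun z _ => ?_
  exact sl_jensen W hW fun j => u (lay N W 0 j, pt n o x y z)

/-- (6c), before lowering. -/
theorem step_last (c1 : ℝ) (hc1 : 0 < c1) : ∃ C : ℝ, 0 < C ∧ ∀ (n N W m : ℕ) [NeZero n]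
    (β K : ℝ) (o : Tor n) (a : ℕ) (h : Tor n → ℝ) (c : Nd n N → Nd n N → ℝ)
    (s : ℕ) (G : Finset (Nd n N)) (A : ℝ),
    10 ≤ β → 0 < W → N = m * W → Win β m → a ≤ s → 3 ^ s < n → (3 : ℝ) ^ a ≤ β →
    0 < K → K * β ≤ 27 ^ a →
    (∀ x, h x ≤ 1) → (∀ x ∈ cube n o (3 ^ s), h x = 1) →
    Local n N W β K c1 (cube n o (3 ^ a)) h c →
    Disjoint (EE6 n N o (cube n o (3 ^ a)) (3 ^ s)) G →
    LBn c (EE6 n N o (cube n o (3 ^ a)) (3 ^ s)) G A →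
    C * β ^ 2 * K ≤ A → C * K ^ 3 ≤ A * β ^ 2 →
    LBn c (hatb N (cube n o (3 ^ a))) G (K / C) := by
  obtain ⟨Cs, hCs, hstart⟩ := start3
  obtain ⟨Cc, hCc, hchain⟩ := chain3
  obtain ⟨P, hP⟩ : ∃ P : ℝ, P = 4 + 128 / c1 + 5000 * Cc / c1 := ⟨_, rfl⟩
  obtain ⟨Q, hQ⟩ : ∃ Q : ℝ, Q = Cc * (1600 / c1) ^ 3 := ⟨_, rfl⟩
  have hP0 : 0 < P := by rw [hP]; positivity
  have hQ0 : 0 < Q := by rw [hQ]; positivity
  obtain ⟨C, hC⟩ : ∃ C : ℝ, C = 1 + 2 * P + 2 * Q + 6400 * Cs / c1 + 1600 * Cc / c1 := ⟨_, rfl⟩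
  have q1 : 0 < 6400 * Cs / c1 := by positivity
  have q2 : 0 < 1600 * Cc / c1 := by positivity
  have hC1 : 1 ≤ C := by rw [hC]; linarith
  have hCP : 2 * P < C := by rw [hC]; linarith
  have hCQ : 2 * Q ≤ C := by rw [hC]; linarith
  have hCs' : 6400 * Cs ≤ c1 * C := by
    have : 6400 * Cs / c1 ≤ C := by rw [hC]; linarith
    rw [div_le_iff₀ hc1] at this
    linarith
  have hCc' : 1600 * Cc ≤ c1 * C := by
    have : 1600 * Cc / c1 ≤ C := by rw [hC]; linarith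
    rw [div_le_iff₀ hc1] at this
    linarith
  have hC0 : 0 < C := by linarith
  refine ⟨C, hC0, ?_⟩
  intro n N W m _ β K o a h c s G A hβ hW hN hwin has hsn h3a hK hKβ hh1 hh hloc hdis hLB hA1 hA2
  refine LBn_of_trunc hloc.nonneg fun u hu huE huG => ?_
  by_contra hcon
  rw [not_le] at hcon
  obtain ⟨κ, hκ⟩ : ∃ κ : ℝ, κ = netK c u := ⟨_, rfl⟩
  rw [← hκ] at hcon
  have hκ0 : 0 ≤ κ := by rw [hκ]; exact netK_nonneg hloc.nonneg u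
  have hκC : κ * C < K := by rwa [lt_div_iff₀ hC0] at hcon
  have hκK : κ ≤ K := (le_mul_of_one_le_right hκ0 hC1).trans hκC.le
  have hβ0 : 0 < β := by linarith
  have hm0 : (0 : ℝ) < m := Nat.cast_pos.2 hwin.pos
  have hm1 : 3 * β ≤ m := by
    have := hwin.hi
    rw [div_le_iff₀ hm0] at this
    linarith
  have hm2 : (m : ℝ) ≤ 4 * β := by
    have := hwin.lo
    rw [le_div_iff₀ hm0] at this
    linarith
  have hm4 : 4 ≤ m := by
    have : (4 : ℝ) ≤ m := by linarith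
    exact_mod_cast this
  have hW0 : (0 : ℝ) < W := Nat.cast_pos.2 hW
  have hNR : (N : ℝ) = m * W := by rw [hN]; push_cast; ring
  have hN0 : (0 : ℝ) < N := by rw [hNR]; positivity
  have h3sn : 3 ^ a ≤ n := (Nat.pow_le_pow_right (by norm_num) has).trans hsn.le
  -- the cube `b`
  have hbs : ∀ x ∈ cube n o (3 ^ a), h x = 1 := fun x hx =>
    hh x (sl_cube_mono o (Nat.pow_le_pow_right (by norm_num) has) hx)
  have hcb : (cube n o (3 ^ a)).card = 27 ^ a := by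
    rw [card_cube o _ h3sn, ← pow_mul, mul_comm a 3, pow_mul]
    norm_num
  have hcbR : ((cube n o (3 ^ a)).card : ℝ) = 27 ^ a := by rw [hcb]; push_cast; ring
  have h27 : (0 : ℝ) < 27 ^ a := by positivity
  have hbne : (cube n o (3 ^ a)).Nonempty := by
    rw [← Finset.card_pos, hcb]
    positivity
  -- energy
  obtain ⟨E, hEdef⟩ : ∃ E : ℝ, E = E4 (3 ^ s) m (UU n N W o u) := ⟨_, rfl⟩
  have hE0 : 0 ≤ E := by rw [hEdef]; exact sl_E4_nonneg _ _ _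
  have hE : c1 * E ≤ 1600 * κ := by
    have h1 := E4_le hW hm4 hN hβ0 hc1 hloc o (3 ^ s) hsn hh u
    rw [← hEdef, ← hκ] at h1
    have h2 : (1 / 16 : ℝ) ≤ (β / m) ^ 2 := by
      have := hwin.lo
      nlinarith
    have h3 : c1 * (1 / 16) * E ≤ c1 * (β / m) ^ 2 * E :=
      mul_le_mul_of_nonneg_right (mul_le_mul_of_nonneg_left h2 hc1.le) hE0
    linarith
  -- contact
  have huE' : ∀ x ∈ cube n o (3 ^ a), u (0, x) = 1 := by
    intro x hx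
    refine huE _ ?_
    rw [hatb, Finset.mem_product]
    exact ⟨Finset.mem_singleton_self _, hx⟩
  have hcont := contact_le hW hm4 hN hβ0 hK hc1 hloc hbne hbs u huE'
  rw [← hκ, hcbR] at hcont
  obtain ⟨Dc, hDc⟩ : ∃ Dc : ℝ, Dc = ∑ x ∈ cube n o (3 ^ a), ∑ j ∈ range W,
    (1 - u (lay N W 0 j, x)) ^ 2 := ⟨_, rfl⟩
  have hsg := sl_win (N := N) hW o (3 ^ a) h3sn u
  rw [← hDc] at hcont hsg
  have hDc0 : 0 ≤ Dc := by
    rw [hDc]
    exact Finset.sum_nonneg fun x _ => Finset.sum_nonneg fun j _ => sq_nonneg _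
  have hcont2 : c1 * K * (Dc / W) ≤ 4 * κ * 27 ^ a := by
    rw [sl_eq1 hNR hm0 hW0 h27, div_le_iff₀ h27] at hcont
    have h2 : c1 * K * (Dc / W) * (1 / 4) ≤ c1 * K * (Dc / W) * (β / m) :=
      mul_le_mul_of_nonneg_left hwin.lo (by positivity)
    linarith
  have hst1 := sl_st1 hCs hc1 hK hκ0 h27 hκC hsg hcont2 hCs'
  have hst2 := sl_st2 hCs hc1 hκ0 hβ0 hκC hCs' hm2 hm0 hE hKβ
  rw [hEdef] at hst2
  have hmean := hstart a s m hwin.pos has _ hst1 hst2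
  have hch1 := (sl_ch hCc hc1 hκ0 hκC hCc' hE).trans (sl_Km a hβ0 h3a hKβ (by linarith : β ≤ m))
  rw [hEdef] at hch1
  have hcnt := hchain a s m hwin.pos has _ hmean hch1
  rw [← hEdef] at hcnt
  -- deviation
  obtain ⟨Dv, hDv⟩ : ∃ Dv : ℝ, Dv = ∑ x ∈ range (3 ^ s), ∑ y ∈ range (3 ^ s), ∑ z ∈ range (3 ^ s),
      ∑ w ∈ range m, ∑ j ∈ range W, (u (lay N W w j, pt n o x y z) - UU n N W o u x y z w) ^ 2 :=
    ⟨_, rfl⟩
  have hDv0 : 0 ≤ Dv := by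
    rw [hDv]
    exact Finset.sum_nonneg fun x _ => Finset.sum_nonneg fun y _ => Finset.sum_nonneg fun z _ =>
      Finset.sum_nonneg fun w _ => Finset.sum_nonneg fun j _ => sq_nonneg _
  have hdev := dev_le hW hm4 hN hβ0 hc1 hloc o (3 ^ s) hsn hh u
  have hlow := card_low_le hW hwin.pos hN o (3 ^ s) hsn.le u
  rw [← hDv] at hdev hlow
  rw [← hκ] at hdev
  have hdev2 : c1 * (β / N * Dv) ≤ 4 * κ := by
    have h1 : c1 * (1 / 4) * (β / N) * Dv ≤ c1 * (β / m) * (β / N) * Dv := by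
      refine mul_le_mul_of_nonneg_right ?_ hDv0
      refine mul_le_mul_of_nonneg_right ?_ (by positivity)
      exact mul_le_mul_of_nonneg_left hwin.lo hc1.le
    linarith
  obtain ⟨cn, hcn⟩ : ∃ cn : ℝ, cn = cnt (3 ^ s) m (5 / 8) (UU n N W o u) := ⟨_, rfl⟩
  rw [← hcn] at hcnt hlow
  have hcnt0 : 0 ≤ cn := by
    rw [hcn]
    unfold cnt
    exact Finset.sum_nonneg fun x _ => Finset.sum_nonneg fun y _ => Finset.sum_nonneg fun z _ =>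
      Finset.sum_nonneg fun w _ => by split_ifs <;> norm_num
  -- test function
  have htest := test_le hloc.symm hloc.nonneg hLB hdis (fun x => (hu x).1) huE huG
  rw [← hκ] at htest
  have hsum := sl_cost (b := cube n o (3 ^ a)) hloc o (3 ^ s) hh u
  obtain ⟨M, hM⟩ : ∃ M : ℝ, M = ((((univ.filter fun k => k ≠ 0) ×ˢ cube n o (3 ^ s) :
    Finset (Nd n N)).filter fun z => u z < 1 / 2).card : ℝ) := ⟨_, rfl⟩
  rw [← hM] at hlow hsum
  have hfin : A ≤ 4 * κ + (32 * (β / N * Dv) + β / (2 * m) * cn) := by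
    have e1 := htest.trans (add_le_add_right hsum (4 * κ))
    have e2 : M * (β / (2 * N)) ≤ (64 * Dv + W * cn) * (β / (2 * N)) :=
      mul_le_mul_of_nonneg_right hlow (by positivity)
    rw [sl_eq2 hNR hm0 hW0] at e2
    linarith
  have hvol := sl_vol (by linarith : (1 : ℝ) ≤ β) hκ0 hc1 hCc hm1 hm2 hE0 hE hdev2 hcnt hfin hcnt0
  rw [← hP, ← hQ] at hvol
  exact sl_num hβ0 hK hκ0 hκK hP0.le hQ0.le hCP hCQ hA1 hA2 hvol

end Vale.Agent.P361.LRO.Ind
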