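import Mathlib
import Vale.Agent.P361.LRO.Ind.Defs
import Vale.Agent.P361.LRO.Ind.GeoA
import Vale.Agent.P361.LRO.Ind.EnergyA
import Vale.Agent.P361.LRO.Ind.EnergyB
import Vale.Agent.P361.LRO.Ind.VolA
import Vale.Agent.P361.LRO.Ind.Test
import Vale.Agent.P361.LRO.Ind.Chain

/-!
P361 LRO, block (6), leaf S2: one step of the induction over scales, before lowering.
-/

namespace Vale.Agent.P361.LRO.Ind

open Finset Vale.Agent.P361.LRO _root_.P361.LRO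

theorem sm_lay_ne_zero {N W m w j : ℕ} (hN : N = m * W) (hw : w < m) (hj : j < W) :
    lay N W w j ≠ 0 := by
  have h : 1 + w * W + j < N + 1 := by
    have h1 : (w + 1) * W ≤ m * W := Nat.mul_le_mul_right W hw
    have h2 : (w + 1) * W = w * W + W := by ring
    omega
  unfold lay
  rw [dif_pos h]
  intro h0
  have h1 := congrArg Fin.val h0
  simp only [Fin.val_zero] at h1
  omega

theorem sm_mem_EE6 {n N : ℕ} [NeZero n] {o : Tor n} {b : Finset (Tor n)} {r : ℕ}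
    {k : Fin (N + 1)} {x : Tor n} (hk : k ≠ 0) (hx : x ∈ cube n o r) :
    (k, x) ∈ EE6 n N o b r := by
  unfold EE6
  refine Finset.mem_union_right _ ?_
  simp [hk, hx]

theorem sm_UU_one {n N W m : ℕ} [NeZero n] (hW : 0 < W) (hN : N = m * W) {o : Tor n}
    {b : Finset (Tor n)} {r : ℕ} {a : Nd n N → ℝ} (ha : ∀ z ∈ EE6 n N o b r, a z = 1)
    {x y z w : ℕ} (hx : x < r) (hy : y < r) (hz : z < r) (hw : w < m) :
    UU n N W o a x y z w = 1 := by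
  unfold UU
  have h1 : ∀ j ∈ range W, a (lay N W w j, pt n o x y z) = 1 := by
    intro j hj
    refine ha _ (sm_mem_EE6 (sm_lay_ne_zero hN hw (mem_range.1 hj)) ?_)
    exact (mem_cube_iff o _ r).2 ⟨x, hx, y, hy, z, hz, rfl⟩
  rw [Finset.sum_congr rfl h1]
  simp only [Finset.sum_const, Finset.card_range, nsmul_eq_mul, mul_one]
  have : (W : ℝ) ≠ 0 := by exact_mod_cast hW.ne'
  field_simp

theorem sm_E4_nonneg (S T : ℕ) (U : ℕ → ℕ → ℕ → ℕ → ℝ) : 0 ≤ E4 S T U := by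
  unfold E4 Esp Eti
  have h : ∀ (A B C D : Finset ℕ) (f : ℕ → ℕ → ℕ → ℕ → ℝ),
      0 ≤ ∑ x ∈ A, ∑ y ∈ B, ∑ z ∈ C, ∑ w ∈ D, (f x y z w) ^ 2 := fun A B C D f =>
    Finset.sum_nonneg fun _ _ => Finset.sum_nonneg fun _ _ => Finset.sum_nonneg fun _ _ =>
      Finset.sum_nonneg fun _ _ => sq_nonneg _
  exact add_nonneg (add_nonneg (add_nonneg
    (h _ _ _ _ fun x y z w => U (x + 1) y z w - U x y z w)
    (h _ _ _ _ fun x y z w => U x (y + 1) z w - U x y z w))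
    (h _ _ _ _ fun x y z w => U x y (z + 1) w - U x y z w))
    (h _ _ _ _ fun x y z w => U x y z (w + 1) - U x y z w)

theorem sm_energy {c1 D β m k E : ℝ} (hc1 : 0 < c1)
    (hD : D = 1600 / c1) (hlo : 1 / 4 ≤ β / m) (hE0 : 0 ≤ E)
    (h1 : c1 * (β / m) ^ 2 * E ≤ 100 * k) : E ≤ D * k := by
  have h7 : (1 / 4 : ℝ) ^ 2 ≤ (β / m) ^ 2 := pow_le_pow_left₀ (by norm_num) hlo 2
  have h8 : c1 * (1 / 4 : ℝ) ^ 2 * E ≤ 100 * k :=
    le_trans (mul_le_mul_of_nonneg_right (mul_le_mul_of_nonneg_left h7 hc1.le) hE0) h1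
  rw [hD, div_mul_eq_mul_div, le_div_iff₀ hc1]
  linarith

theorem sm_dev {c1 D β m N k dev : ℝ} (hc1 : 0 < c1)
    (hD : D = 1600 / c1) (hβ : 0 < β) (hN : 0 < N) (hlo : 1 / 4 ≤ β / m) (hdev0 : 0 ≤ dev)
    (h2 : c1 * (β / m) * (β / N) * dev ≤ k) : (β / N) * dev ≤ D * k / 400 := by
  have hX0 : 0 ≤ (β / N) * dev := by positivity
  have h8 : c1 * (1 / 4) ≤ c1 * (β / m) := mul_le_mul_of_nonneg_left hlo hc1.le
  have h7 : c1 * (1 / 4) * ((β / N) * dev) ≤ k := by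
    have h9 := mul_le_mul_of_nonneg_right h8 hX0
    have h10 : c1 * (β / m) * ((β / N) * dev) = c1 * (β / m) * (β / N) * dev := by ring
    linarith
  have h11 : D * k / 400 = 4 * k / c1 := by rw [hD]; ring
  rw [h11, le_div_iff₀ hc1]
  linarith

theorem sm_count {C' D β m k E cn : ℝ} (hC' : 0 < C') (hD0 : 0 < D)
    (hβ : 0 < β) (hm : 0 < m) (hm1 : 3 * β ≤ m) (hm2 : m ≤ 4 * β) (hE0 : 0 ≤ E) (hk0 : 0 ≤ k)
    (hE : E ≤ D * k) (h3 : cn ≤ C' * (m ^ 2 * E + E ^ 3 / m ^ 2)) :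
    cn ≤ C' * (16 * β ^ 2 * (D * k) + (D * k) ^ 3 / (9 * β ^ 2)) := by
  refine h3.trans (mul_le_mul_of_nonneg_left ?_ hC'.le)
  refine add_le_add ?_ ?_
  · have h7 : m ^ 2 ≤ (4 * β) ^ 2 := pow_le_pow_left₀ hm.le hm2 2
    have h7' : m ^ 2 ≤ 16 * β ^ 2 := by
      have e : (4 * β) ^ 2 = 16 * β ^ 2 := by ring
      rw [← e]; exact h7
    exact mul_le_mul h7' hE hE0 (by positivity)
  · have h7 : (3 * β) ^ 2 ≤ m ^ 2 := pow_le_pow_left₀ (by positivity) hm1 2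
    have h7' : 9 * β ^ 2 ≤ m ^ 2 := by
      have e : (3 * β) ^ 2 = 9 * β ^ 2 := by ring
      rw [← e]; exact h7
    have h8 : E ^ 3 ≤ (D * k) ^ 3 := pow_le_pow_left₀ hE0 hE 3
    exact div_le_div₀ (by positivity) h8 (by positivity) h7'

theorem sm_sum {D β m N W k dev cn crd S Y : ℝ}
    (hβ : 0 < β) (hm : 0 < m) (hhi : β / m ≤ 1 / 3)
    (hW : 0 < W) (hN : N = m * W)
    (h4 : crd ≤ 64 * dev + W * cn) (h6 : S ≤ crd * (β / (2 * N))) (hY0 : 0 ≤ Y)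
    (hX2 : (β / N) * dev ≤ D * k / 400) (hcn0 : cn ≤ Y) :
    S ≤ 32 * (D * k / 400) + Y / 6 := by
  have hN0 : 0 < N := by rw [hN]; positivity
  have h7 : crd * (β / (2 * N)) ≤ (64 * dev + W * cn) * (β / (2 * N)) :=
    mul_le_mul_of_nonneg_right h4 (by positivity)
  have h8 : (64 * dev + W * cn) * (β / (2 * N)) = 32 * ((β / N) * dev) + (β / m) / 2 * cn := by
    rw [hN]; field_simp; ring
  have h9 : (β / m) / 2 * cn ≤ (β / m) / 2 * Y := mul_le_mul_of_nonneg_left hcn0 (by positivity)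
  have h10 : (β / m) / 2 * Y ≤ (1 / 6) * Y := mul_le_mul_of_nonneg_right (by linarith) hY0
  linarith

theorem sm_collect {C' D β k A S : ℝ} (hC' : 0 < C') (hD0 : 0 < D) (hβ : 10 ≤ β) (hk0 : 0 ≤ k)
    (h5 : A ≤ 4 * k + S)
    (hS : S ≤ 32 * (D * k / 400) + C' * (16 * β ^ 2 * (D * k) + (D * k) ^ 3 / (9 * β ^ 2)) / 6) :
    A ≤ (4 + D + 3 * C' * D) * β ^ 2 * k + C' * D ^ 3 * (k ^ 3 / β ^ 2) := by
  have hβ0 : 0 < β := by linarith
  have hβ2 : 1 ≤ β ^ 2 := one_le_pow₀ (by linarith)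
  have e1 : (D * k) ^ 3 / (9 * β ^ 2) = D ^ 3 * (k ^ 3 / β ^ 2) / 9 := by
    field_simp
  rw [e1] at hS
  have e3 : 0 ≤ C' * (D ^ 3 * (k ^ 3 / β ^ 2)) := by positivity
  have e4 : (4 + D) * k * 1 ≤ (4 + D) * k * β ^ 2 :=
    mul_le_mul_of_nonneg_left hβ2 (by positivity)
  have e5 : 0 ≤ C' * D * β ^ 2 * k := by positivity
  have e6 : 0 ≤ D * k := by positivity
  have e7 : (4 + D + 3 * C' * D) * β ^ 2 * k + C' * D ^ 3 * (k ^ 3 / β ^ 2) =
      (4 + D) * k * β ^ 2 + 3 * (C' * D * β ^ 2 * k) + C' * (D ^ 3 * (k ^ 3 / β ^ 2)) := by ring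
  have e8 : C' * (16 * β ^ 2 * (D * k) + D ^ 3 * (k ^ 3 / β ^ 2) / 9) / 6 =
      (16 / 6) * (C' * D * β ^ 2 * k) + (1 / 54) * (C' * (D ^ 3 * (k ^ 3 / β ^ 2))) := by ring
  rw [e7]
  rw [e8] at hS
  linarith

theorem sm_last {C' D β k A B : ℝ} (hC' : 0 < C') (hD0 : 0 < D) (hβ : 10 ≤ β) (hk0 : 0 ≤ k)
    (hfin : A ≤ (4 + D + 3 * C' * D) * β ^ 2 * k + C' * D ^ 3 * (k ^ 3 / β ^ 2))
    (hA1 : 2 * (4 + D + 3 * C' * D) * β ^ 2 * B ≤ A)
    (hA2 : 2 * (C' * D ^ 3) * B ^ 3 ≤ A * β ^ 2) : B ≤ k := by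
  by_contra hlt
  have hlt' : k < B := not_le.1 hlt
  have hβ0 : 0 < β := by linarith
  have hβ2' : 0 < β ^ 2 := by positivity
  have e1 : 0 < (4 + D + 3 * C' * D) * β ^ 2 := by positivity
  have e2 : k ^ 3 / β ^ 2 ≤ B ^ 3 / β ^ 2 :=
    div_le_div_of_nonneg_right (pow_le_pow_left₀ hk0 hlt'.le 3) hβ2'.le
  have e3 := mul_lt_mul_of_pos_left hlt' e1
  have e4 := mul_le_mul_of_nonneg_left e2 (show 0 ≤ C' * D ^ 3 by positivity)
  have hA2' : 2 * (C' * D ^ 3) * (B ^ 3 / β ^ 2) ≤ A := by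
    rw [← mul_div_assoc, div_le_iff₀ hβ2']
    exact hA2
  linarith

/-- The numerical part of the step. -/
theorem sm_arith {c1 C' D β m N W k A B E dev cn crd S : ℝ} (hc1 : 0 < c1) (hC' : 0 < C')
    (hD : D = 1600 / c1) (hβ : 10 ≤ β) (hm : 0 < m) (hlo : 1 / 4 ≤ β / m) (hhi : β / m ≤ 1 / 3)
    (hW : 0 < W) (hN : N = m * W) (hE0 : 0 ≤ E) (hdev0 : 0 ≤ dev) (hk0 : 0 ≤ k)
    (h1 : c1 * (β / m) ^ 2 * E ≤ 100 * k) (h2 : c1 * (β / m) * (β / N) * dev ≤ k)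
    (h3 : cn ≤ C' * (m ^ 2 * E + E ^ 3 / m ^ 2)) (h4 : crd ≤ 64 * dev + W * cn)
    (h5 : A ≤ 4 * k + S) (h6 : S ≤ crd * (β / (2 * N)))
    (hA1 : 2 * (4 + D + 3 * C' * D) * β ^ 2 * B ≤ A)
    (hA2 : 2 * (C' * D ^ 3) * B ^ 3 ≤ A * β ^ 2) : B ≤ k := by
  have hβ0 : 0 < β := by linarith
  have hD0 : 0 < D := by rw [hD]; positivity
  have hN0 : 0 < N := by rw [hN]; positivity
  have hm1 : 3 * β ≤ m := by
    have h := (div_le_iff₀ hm).1 hhi
    linarith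
  have hm2 : m ≤ 4 * β := by
    have h := (le_div_iff₀ hm).1 hlo
    linarith
  have hE := sm_energy hc1 hD hlo hE0 h1
  have hX := sm_dev hc1 hD hβ0 hN0 hlo hdev0 h2
  have hcn := sm_count hC' hD0 hβ0 hm hm1 hm2 hE0 hk0 hE h3
  have hS := sm_sum hβ0 hm hhi hW hN h4 h6 (by positivity) hX hcn
  exact sm_last hC' hD0 hβ hk0 (sm_collect hC' hD0 hβ hk0 h5 hS) hA1 hA2

theorem sm_total {n N W : ℕ} [NeZero n] {β K c1 : ℝ} {o : Tor n} {b : Finset (Tor n)}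
    {h : Tor n → ℝ} {c : Nd n N → Nd n N → ℝ} {s : ℕ} (hloc : Local n N W β K c1 b h c)
    (hh1 : ∀ x ∈ cube n o s, h x = 1) (a : Nd n N → ℝ) (F : Finset (Nd n N))
    (hF : hatb N b ⊆ F) :
    (∑ z ∈ (EE6 n N o b s \ F).filter (fun z => a z < 1 / 2), ∑ v, c z v) ≤
      ((((univ.filter fun k => k ≠ 0) ×ˢ cube n o s : Finset (Nd n N)).filter
        fun z => a z < 1 / 2).card : ℝ) * (β / (2 * N)) := by
  have hsub : (EE6 n N o b s \ F).filter (fun z => a z < 1 / 2) ⊆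
      (((univ.filter fun k => k ≠ 0) ×ˢ cube n o s : Finset (Nd n N)).filter
      fun z => a z < 1 / 2) := by
    intro z hz
    rw [Finset.mem_filter, Finset.mem_sdiff] at hz
    rw [Finset.mem_filter]
    refine ⟨?_, hz.2⟩
    obtain ⟨⟨hz1, hz2⟩, _⟩ := hz
    unfold EE6 at hz1
    rw [Finset.mem_union] at hz1
    rcases hz1 with hz1 | hz1
    · exact absurd (hF hz1) hz2
    · exact hz1
  have hterm : ∀ z ∈ (((univ.filter fun k => k ≠ 0) ×ˢ cube n o s :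
      Finset (Nd n N)).filter fun z => a z < 1 / 2), ∑ v, c z v ≤ β / (2 * N) := by
    intro z hz
    rw [Finset.mem_filter, Finset.mem_product, Finset.mem_filter] at hz
    have h1 := hloc.tot z.1 z.2 hz.1.1.2
    rw [hh1 z.2 hz.1.2, mul_one] at h1
    exact h1
  refine (Finset.sum_le_sum_of_subset_of_nonneg hsub
    (fun z _ _ => Finset.sum_nonneg fun v _ => hloc.nonneg _ _)).trans ?_
  refine (Finset.sum_le_sum hterm).trans (le_of_eq ?_)
  rw [Finset.sum_const, nsmul_eq_mul]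

theorem sm_netK_nonneg {X : Type} [Fintype X] {c : X → X → ℝ} (hc : ∀ u v, 0 ≤ c u v)
    (a : X → ℝ) : 0 ≤ netK c a := by
  unfold netK
  refine mul_nonneg (by norm_num) (Finset.sum_nonneg fun x _ => Finset.sum_nonneg fun y _ => ?_)
  exact mul_nonneg (hc _ _) (sq_nonneg _)

theorem sm_start {n N W m r : ℕ} [NeZero n] (hm : 0 < m) (hW : 0 < W) (hN : N = m * W)
    {o : Tor n} {b : Finset (Tor n)} {a : Nd n N → ℝ}
    (haE : ∀ z ∈ EE6 n N o b (3 ^ r), a z = 1) :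
    (∑ x ∈ range (3 ^ r), ∑ y ∈ range (3 ^ r), ∑ z ∈ range (3 ^ r),
      (1 - (1 / (m : ℝ)) * ∑ w ∈ range m, UU n N W o a x y z w)) ≤ (27 : ℝ) ^ r / 16 := by
  have hm0 : (m : ℝ) ≠ 0 := by exact_mod_cast hm.ne'
  have hz : ∀ x ∈ range (3 ^ r), ∀ y ∈ range (3 ^ r), ∀ z ∈ range (3 ^ r),
      (1 - (1 / (m : ℝ)) * ∑ w ∈ range m, UU n N W o a x y z w) = 0 := by
    intro x hx y hy z hz
    have h1 : ∀ w ∈ range m, UU n N W o a x y z w = 1 := fun w hw =>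
      sm_UU_one hW hN haE (mem_range.1 hx) (mem_range.1 hy) (mem_range.1 hz) (mem_range.1 hw)
    rw [Finset.sum_congr rfl h1]
    simp only [Finset.sum_const, Finset.card_range, nsmul_eq_mul, mul_one]
    rw [one_div, inv_mul_cancel₀ hm0, sub_self]
  rw [Finset.sum_eq_zero fun x hx => Finset.sum_eq_zero fun y hy =>
    Finset.sum_eq_zero fun z hz' => hz x hx y hy z hz']
  positivity

/-- (6b), before lowering: small radius `3 ^ r`, large radius `3 ^ s`. -/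
theorem step_mid (c1 : ℝ) (hc1 : 0 < c1) : ∃ C : ℝ, 0 < C ∧ ∀ (n N W m : ℕ) [NeZero n]
    (β K : ℝ) (o : Tor n) (b : Finset (Tor n)) (h : Tor n → ℝ) (c : Nd n N → Nd n N → ℝ)
    (r s : ℕ) (G : Finset (Nd n N)) (A B : ℝ),
    10 ≤ β → 0 < W → N = m * W → Win β m → r ≤ s → 3 ^ s < n →
    (∀ x, h x ≤ 1) → (∀ x ∈ cube n o (3 ^ s), h x = 1) →
    Local n N W β K c1 b h c → Disjoint (EE6 n N o b (3 ^ s)) G →
    LBn c (EE6 n N o b (3 ^ s)) G A →
    0 ≤ B → C * B ≤ β * 3 ^ r → C * β ^ 2 * B ≤ A → C * B ^ 3 ≤ A * β ^ 2 →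
    LBn c (EE6 n N o b (3 ^ r)) G B := by
  obtain ⟨C', hC'0, hC'⟩ := chain3
  set D : ℝ := 1600 / c1 with hD
  have hD0 : 0 < D := by positivity
  refine ⟨2 * (4 + D + 3 * C' * D) + 2 * (C' * D ^ 3) + C' * D, by positivity, ?_⟩
  intro n N W m _ β K o b h c r s G A B hβ hW hN hwin hrs hsn hh hh1 hloc hdisj hA hB0 hB1 hB2 hB3
  have hβ0 : 0 < β := by linarith
  have hm0 : 0 < (m : ℝ) := by exact_mod_cast hwin.pos
  have hm3 : 3 * β ≤ m := by
    have h := (div_le_iff₀ hm0).1 hwin.hi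
    linarith
  have hm4 : 4 ≤ m := by
    have : (4 : ℝ) ≤ m := by linarith
    exact_mod_cast this
  have hW0 : (0 : ℝ) < W := by exact_mod_cast hW
  have hNR : (N : ℝ) = m * W := by rw [hN]; push_cast; ring
  refine LBn_of_trunc hloc.nonneg ?_
  intro a ha01 haE haG
  by_contra hlt
  have hlt' : netK c a < B := not_le.1 hlt
  apply hlt
  have hk0 : 0 ≤ netK c a := sm_netK_nonneg hloc.nonneg a
  have hE := E4_le hW hm4 hN hβ0 hc1 hloc o (3 ^ s) hsn hh1 a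
  have hdev := dev_le hW hm4 hN hβ0 hc1 hloc o (3 ^ s) hsn hh1 a
  have hcard := card_low_le hW hwin.pos hN o (3 ^ s) hsn.le a
  have hE0 : 0 ≤ E4 (3 ^ s) m (UU n N W o a) := sm_E4_nonneg _ _ _
  have hdev0 : 0 ≤ ∑ x ∈ range (3 ^ s), ∑ y ∈ range (3 ^ s), ∑ z ∈ range (3 ^ s),
      ∑ w ∈ range m, ∑ j ∈ range W,
        (a (lay N W w j, pt n o x y z) - UU n N W o a x y z w) ^ 2 :=
    Finset.sum_nonneg fun _ _ => Finset.sum_nonneg fun _ _ => Finset.sum_nonneg fun _ _ =>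
      Finset.sum_nonneg fun _ _ => Finset.sum_nonneg fun _ _ => sq_nonneg _
  have hED := sm_energy hc1 hD hwin.lo hE0 hE
  -- the chaining hypothesis
  have hch := hC' r s m hwin.pos hrs (UU n N W o a) (sm_start hwin.pos hW hN haE) ?_
  · have htest := test_le (E := EE6 n N o b (3 ^ r)) hloc.symm hloc.nonneg hA hdisj
      (fun x => (ha01 x).1) haE haG
    have hS := sm_total hloc hh1 a (EE6 n N o b (3 ^ r)) Finset.subset_union_left
    refine sm_arith hc1 hC'0 hD hβ hm0 hwin.lo hwin.hi hW0 hNR hE0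
      hdev0 hk0 hE hdev hch hcard htest hS ?_ ?_
    · refine le_trans ?_ hB2
      have h1 : 2 * (4 + D + 3 * C' * D) ≤
          2 * (4 + D + 3 * C' * D) + 2 * (C' * D ^ 3) + C' * D := by
        have : 0 ≤ 2 * (C' * D ^ 3) + C' * D := by positivity
        linarith
      exact mul_le_mul_of_nonneg_right (mul_le_mul_of_nonneg_right h1 (by positivity)) hB0
    · refine le_trans ?_ hB3
      have h1 : 2 * (C' * D ^ 3) ≤
          2 * (4 + D + 3 * C' * D) + 2 * (C' * D ^ 3) + C' * D := by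
        have : 0 ≤ 2 * (4 + D + 3 * C' * D) + C' * D := by positivity
        linarith
      exact mul_le_mul_of_nonneg_right h1 (by positivity)
  · have h1 : C' * E4 (3 ^ s) m (UU n N W o a) ≤ C' * (D * netK c a) :=
      mul_le_mul_of_nonneg_left hED hC'0.le
    have h2 := mul_le_mul_of_nonneg_left hlt'.le (show 0 ≤ C' * D by positivity)
    have h3 : C' * D * B ≤ (2 * (4 + D + 3 * C' * D) + 2 * (C' * D ^ 3) + C' * D) * B := by
      refine mul_le_mul_of_nonneg_right ?_ hB0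
      have : 0 ≤ 2 * (4 + D + 3 * C' * D) + 2 * (C' * D ^ 3) := by positivity
      linarith
    have h4 : β * 3 ^ r ≤ m * 3 ^ r := by
      refine mul_le_mul_of_nonneg_right (by linarith) (by positivity)
    linarith

end Vale.Agent.P361.LRO.Ind
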