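import Vale.Agent.P361.LRO.Ind.GeoA
import Vale.Agent.P361.LRO.Ind.EnergyA
import Vale.Agent.P361.LRO.Ind.Lines

/-!
# P361 LRO, block (6), S1: the top step (6a) (helper531)
-/

namespace Vale.Agent.P361.LRO.Ind

open Finset Vale.Agent.P361.LRO _root_.P361.LRO

/-- a sum over `range (m * W)`, block by block -/
theorem st_blocks (m W : ℕ) (g : ℕ → ℝ) :
    ∑ i ∈ range (m * W), g i = ∑ w ∈ range m, ∑ j ∈ range W, g (w * W + j) := by
  induction m with
  | zero => simp
  | succ m ih => rw [Nat.succ_mul, Finset.sum_range_add, ih, Finset.sum_range_succ]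

/-- sum over the physical layers, window by window -/
theorem st_layers {N W m : ℕ} (hN : N = m * W) (f : Fin (N + 1) → ℝ) :
    ∑ k ∈ univ.filter (fun k => k ≠ 0), f k = ∑ w ∈ range m, ∑ j ∈ range W, f (lay N W w j) := by
  have h1 : ∑ k ∈ univ.filter (fun k => k ≠ 0), f k = ∑ i : Fin N, f i.succ := by
    rw [Finset.sum_filter, Fin.sum_univ_succ]
    simp [Fin.succ_ne_zero]
  have h2 : ∑ i : Fin N, f i.succ =
      ∑ i ∈ range N, f (if h : 1 + i < N + 1 then ⟨1 + i, h⟩ else 0) := by
    rw [← Fin.sum_univ_eq_sum_range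
      (fun i => f (if h : 1 + i < N + 1 then ⟨1 + i, h⟩ else 0)) N]
    refine Finset.sum_congr rfl fun i _ => ?_
    have hi : 1 + (i : ℕ) < N + 1 := by have := i.isLt; omega
    rw [dif_pos hi]
    congr 1
    refine Fin.ext ?_
    simp [Fin.val_succ, add_comm]
  rw [h1, h2]
  have h3 := st_blocks m W (fun i => f (if h : 1 + i < N + 1 then ⟨1 + i, h⟩ else 0))
  rw [← hN] at h3
  rw [h3]
  refine Finset.sum_congr rfl fun w _ => Finset.sum_congr rfl fun j _ => ?_
  unfold lay
  simp only [add_assoc]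

/-- layers of windows are physical -/
theorem st_lay_ne {N W m : ℕ} (hN : N = m * W) {w j : ℕ} (hw : w < m) (hj : j < W) :
    (lay N W w j : Fin (N + 1)) ≠ 0 := by
  have h1 : (w + 1) * W ≤ m * W := Nat.mul_le_mul_right W hw
  rw [Nat.succ_mul] at h1
  have h2 : 1 + w * W + j < N + 1 := by omega
  unfold lay
  rw [dif_pos h2]
  intro h
  have := congrArg Fin.val h
  simp at this

/-- (6a) top: resistance to the uniform charge on the ground cube in the field `1`. -/
theorem step_top (c1 : ℝ) (hc1 : 0 < c1) : ∃ C : ℝ, 0 < C ∧ ∀ (n N W m : ℕ) [NeZero n]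
    (β K : ℝ) (o : Tor n) (b : Finset (Tor n)) (c : Nd n N → Nd n N → ℝ) (s : ℕ),
    10 ≤ β → 0 < W → N = m * W → Win β m → 0 < s → 8 * s < n →
    Local n N W β K c1 b (fun _ => 1) c →
    RBn c (EE6 n N o b s) (fun z => if z ∈ GG6 n N o s then 1 / ((N : ℝ) * s ^ 3) else 0)
      (C / (β * s)) := by
  refine ⟨3200 / c1, by positivity, ?_⟩
  intro n N W m _ β K o b c s hβ hW hN hwin hs hn hc a ha
  have hm0 : 0 < m := hwin.pos
  have hmR : (0 : ℝ) < m := by exact_mod_cast hm0
  have hWR : (0 : ℝ) < W := by exact_mod_cast hW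
  have hsR : (0 : ℝ) < s := by exact_mod_cast hs
  have hm3 : 3 * β ≤ m := by
    have := hwin.hi
    rw [div_le_iff₀ hmR] at this
    linarith
  have hm4 : 4 ≤ m := by
    have : (4 : ℝ) ≤ m := by linarith
    exact_mod_cast this
  have hNR : (N : ℝ) = m * W := by rw [hN]; push_cast; ring
  have hE := E4_le (h := fun _ => (1 : ℝ)) hW hm4 hN (by linarith) hc1 hc o (5 * s) (by omega)
    (fun _ _ => rfl) a
  have hL := lines s m hs hm0 (UU n N W o a) ?_
  · have hq : ∑ z, (if z ∈ GG6 n N o s then 1 / ((N : ℝ) * s ^ 3) else 0) * a z =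
        (1 / ((s : ℝ) ^ 3 * m)) * ∑ x ∈ range s, ∑ y ∈ range s, ∑ z ∈ range s, ∑ w ∈ range m,
          UU n N W o a (x + 4 * s) y z w := by
      have e1 : ∑ z, (if z ∈ GG6 n N o s then 1 / ((N : ℝ) * s ^ 3) else 0) * a z =
          1 / ((N : ℝ) * s ^ 3) * ∑ z ∈ GG6 n N o s, a z := by
        rw [Finset.mul_sum, ← Finset.sum_filter_add_sum_filter_not univ (fun z => z ∈ GG6 n N o s)]
        rw [Finset.sum_eq_zero (s := univ.filter fun z => ¬ z ∈ GG6 n N o s), add_zero]
        · rw [Finset.filter_mem_eq_inter, Finset.univ_inter]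
          exact Finset.sum_congr rfl fun z hz => by rw [if_pos hz]
        · intro z hz
          rw [if_neg (Finset.mem_filter.1 hz).2, zero_mul]
      have e2 : ∑ z ∈ GG6 n N o s, a z = ∑ x ∈ range s, ∑ y ∈ range s, ∑ z ∈ range s,
          ∑ w ∈ range m, ∑ j ∈ range W, a (lay N W w j, pt n o (x + 4 * s) y z) := by
        unfold GG6
        rw [Finset.sum_product_right, sum_cube _ s (by omega)]
        refine Finset.sum_congr rfl fun x _ => Finset.sum_congr rfl fun y _ =>
          Finset.sum_congr rfl fun z _ => ?_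
        rw [st_layers hN (fun k => a (k, pt n (pt n o (4 * s) 0 0) x y z)), pt_pt]
        simp only [zero_add, add_comm (4 * s) x]
      rw [e1, e2, hNR]
      unfold UU
      simp only [← Finset.mul_sum]
      field_simp
    rw [hq]
    refine hL.trans ?_
    have hK0 : 0 ≤ netK c a := by
      unfold netK
      refine mul_nonneg (by norm_num) (Finset.sum_nonneg fun u _ => Finset.sum_nonneg fun v _ =>
        mul_nonneg (hc.nonneg u v) (sq_nonneg _))
    have hlo := hwin.lo
    have hE0 : 0 ≤ E4 (5 * s) m (UU n N W o a) := by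
      unfold E4 Esp Eti
      refine add_nonneg (add_nonneg (add_nonneg ?_ ?_) ?_) ?_ <;>
      · refine Finset.sum_nonneg fun _ _ => Finset.sum_nonneg fun _ _ => Finset.sum_nonneg fun _ _ =>
          Finset.sum_nonneg fun _ _ => sq_nonneg _
    have hsq : (1 / 16 : ℝ) ≤ (β / m) ^ 2 := by nlinarith
    have hE' : E4 (5 * s) m (UU n N W o a) ≤ 1600 / c1 * netK c a := by
      have h1 : c1 * (1 / 16) * E4 (5 * s) m (UU n N W o a) ≤ 100 * netK c a := by
        refine le_trans ?_ hE
        exact mul_le_mul_of_nonneg_right (mul_le_mul_of_nonneg_left hsq hc1.le) hE0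
      rw [div_mul_eq_mul_div, le_div_iff₀ hc1]
      linarith
    have h4 : 4 / ((s : ℝ) * m) ≤ 2 / (β * s) := by
      have hβ0 : 0 < β := by linarith
      rw [div_le_div_iff₀ (by positivity) (by positivity)]
      nlinarith
    have hβ0 : 0 < β := by linarith
    calc 4 / ((s : ℝ) * m) * E4 (5 * s) m (UU n N W o a)
        ≤ 2 / (β * s) * (1600 / c1 * netK c a) :=
          mul_le_mul h4 hE' hE0 (by positivity)
      _ = 3200 / c1 / (β * s) * netK c a := by
          field_simp
          ring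
  · intro x hx y hy z hz w hw
    unfold UU
    rw [Finset.sum_congr rfl (g := fun _ => (1 : ℝ))]
    · rw [Finset.sum_const, Finset.card_range, nsmul_eq_mul, mul_one]
      field_simp
    · intro j hj
      refine ha _ ?_
      unfold EE6
      rw [Finset.mem_union]
      right
      rw [Finset.mem_product]
      refine ⟨?_, ?_⟩
      · rw [Finset.mem_filter]
        exact ⟨Finset.mem_univ _, st_lay_ne hN hw (Finset.mem_range.1 hj)⟩
      · exact (mem_cube_iff o _ s).2 ⟨x, hx, y, hy, z, hz, rfl⟩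

end Vale.Agent.P361.LRO.Ind
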