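import Vale.Agent.P361.LRO.Ind.Defs
import Vale.Agent.P361.LRO.Geo5

/-!
# P361 LRO, block (6): time means and the volume lemma on window averages

`U x y z w` = window averages, `ub` = mean over the `T` windows.
-/

namespace Vale.Agent.P361.LRO.Ind

open Finset Vale.Agent.P361.LRO Vale.Agent.P361.LRO.Geo

/-- time mean over `T` windows -/
noncomputable def ub (T : ℕ) (U : ℕ → ℕ → ℕ → ℕ → ℝ) (x y z : ℕ) : ℝ :=
  (1 / T : ℝ) * ∑ w ∈ range T, U x y z w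

lemma sum_if_lt (S : ℕ) (g : ℕ → ℝ) :
    ∑ x ∈ range S, (if x + 1 < S then g x else 0) = ∑ x ∈ range (S - 1), g x := by
  rcases S with _ | S
  · simp
  · rw [Finset.sum_range_succ]
    simp only [Nat.add_lt_add_iff_right, lt_self_iff_false, if_false, add_zero,
      Nat.add_sub_cancel]
    refine Finset.sum_congr rfl fun x hx => ?_
    rw [Finset.mem_range] at hx
    rw [if_pos hx]

lemma E3_eq (S : ℕ) (f : ℕ → ℕ → ℕ → ℝ) :
    E3 S f =
      (∑ x ∈ range (S - 1), ∑ y ∈ range S, ∑ z ∈ range S, (f (x + 1) y z - f x y z) ^ 2) +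
      (∑ x ∈ range S, ∑ y ∈ range (S - 1), ∑ z ∈ range S, (f x (y + 1) z - f x y z) ^ 2) +
      (∑ x ∈ range S, ∑ y ∈ range S, ∑ z ∈ range (S - 1), (f x y (z + 1) - f x y z) ^ 2) := by
  unfold E3
  simp only [Finset.sum_add_distrib]
  congr 1
  · congr 1
    · rw [← sum_if_lt S fun x => ∑ y ∈ range S, ∑ z ∈ range S, (f (x + 1) y z - f x y z) ^ 2]
      refine Finset.sum_congr rfl fun x _ => ?_
      by_cases h : x + 1 < S
      · simp only [if_pos h]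
      · simp only [if_neg h, Finset.sum_const_zero]
    · refine Finset.sum_congr rfl fun x _ => ?_
      rw [← sum_if_lt S fun y => ∑ z ∈ range S, (f x (y + 1) z - f x y z) ^ 2]
      refine Finset.sum_congr rfl fun y _ => ?_
      by_cases h : y + 1 < S
      · simp only [if_pos h]
      · simp only [if_neg h, Finset.sum_const_zero]
  · refine Finset.sum_congr rfl fun x _ => Finset.sum_congr rfl fun y _ => ?_
    rw [← sum_if_lt S fun z => (f x y (z + 1) - f x y z) ^ 2]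

lemma avg_sq (T : ℕ) (g : ℕ → ℝ) :
    ((1 / T : ℝ) * ∑ w ∈ range T, g w) ^ 2 ≤ (1 / T : ℝ) * ∑ w ∈ range T, g w ^ 2 := by
  rcases Nat.eq_zero_or_pos T with h | h
  · subst h; simp
  · have hT : (0 : ℝ) < T := by exact_mod_cast h
    have h1 := sq_sum_le_card_mul_sum_sq (s := range T) (f := g)
    rw [Finset.card_range] at h1
    rw [mul_pow, one_div, inv_pow, ← one_div, ← one_div, div_mul_eq_mul_div, one_mul,
      div_mul_eq_mul_div, one_mul, div_le_div_iff₀ (by positivity) hT]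
    nlinarith

lemma ub_sub_sq (T : ℕ) (U : ℕ → ℕ → ℕ → ℕ → ℝ) (x y z x' y' z' : ℕ) :
    (ub T U x y z - ub T U x' y' z') ^ 2 ≤
      (1 / T : ℝ) * ∑ w ∈ range T, (U x y z w - U x' y' z' w) ^ 2 := by
  unfold ub
  rw [← mul_sub, ← Finset.sum_sub_distrib]
  exact avg_sq T _

/-- (T1) -/
theorem E3_ub_le (S T : ℕ) (U : ℕ → ℕ → ℕ → ℕ → ℝ) : E3 S (ub T U) ≤ Esp S T U / T := by
  rw [E3_eq, div_eq_mul_one_div, mul_comm]
  unfold Esp
  rw [mul_add, mul_add]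
  simp only [Finset.mul_sum (a := (1 / T : ℝ))]
  refine add_le_add (add_le_add ?_ ?_) ?_
  · refine Finset.sum_le_sum fun x _ => Finset.sum_le_sum fun y _ => Finset.sum_le_sum fun z _ => ?_
    rw [← Finset.mul_sum]
    exact ub_sub_sq T U _ _ _ _ _ _
  · refine Finset.sum_le_sum fun x _ => Finset.sum_le_sum fun y _ => Finset.sum_le_sum fun z _ => ?_
    rw [← Finset.mul_sum]
    exact ub_sub_sq T U _ _ _ _ _ _
  · refine Finset.sum_le_sum fun x _ => Finset.sum_le_sum fun y _ => Finset.sum_le_sum fun z _ => ?_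
    rw [← Finset.mul_sum]
    exact ub_sub_sq T U _ _ _ _ _ _

lemma pav_full (T : ℕ) (g : ℕ → ℝ) {a : ℕ} (ha : a < T) :
    pav T g a = (1 / T : ℝ) * ∑ w ∈ range T, g w := by
  unfold pav
  rw [Nat.div_eq_of_lt ha]
  simp only [mul_zero, zero_add]
  ring

lemma len_eq (T : ℕ) (g : ℕ → ℝ) : len T g = ∑ w ∈ range (T - 1), (g (w + 1) - g w) ^ 2 := by
  unfold len
  exact sum_if_lt T fun w => (g (w + 1) - g w) ^ 2

lemma time_poincare (T : ℕ) (g : ℕ → ℝ) :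
    ∑ w ∈ range T, (g w - (1 / T : ℝ) * ∑ v ∈ range T, g v) ^ 2 ≤
      (T : ℝ) ^ 2 * ∑ w ∈ range (T - 1), (g (w + 1) - g w) ^ 2 := by
  rcases Nat.eq_zero_or_pos T with h | h
  · subst h; simp
  · have h1 := pav_sub_sum h 1 g
    rw [mul_one, len_eq] at h1
    refine le_trans (le_of_eq ?_) h1
    refine Finset.sum_congr rfl fun w hw => ?_
    rw [Finset.mem_range] at hw
    rw [pav_full T g hw, ← neg_sq, neg_sub]

lemma time_poincare_zero {T : ℕ} (hT : 0 < T) (g : ℕ → ℝ) :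
    (g 0 - (1 / T : ℝ) * ∑ v ∈ range T, g v) ^ 2 ≤
      (T : ℝ) * ∑ w ∈ range (T - 1), (g (w + 1) - g w) ^ 2 := by
  have h1 := pav_sub_pt hT g 0
  rw [pav_full T g hT, Nat.zero_div, mul_zero] at h1
  simp only [zero_add] at h1
  rw [sum_if_lt T fun w => (g (w + 1) - g w) ^ 2] at h1
  rw [← neg_sq, neg_sub]
  exact h1

/-- (T2) -/
theorem sum_sub_ub_sq (S T : ℕ) (U : ℕ → ℕ → ℕ → ℕ → ℝ) :
    ∑ x ∈ range S, ∑ y ∈ range S, ∑ z ∈ range S, ∑ w ∈ range T,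
      (U x y z w - ub T U x y z) ^ 2 ≤ (T : ℝ) ^ 2 * Eti S T U := by
  unfold Eti
  simp only [Finset.mul_sum (a := (T : ℝ) ^ 2)]
  refine Finset.sum_le_sum fun x _ => Finset.sum_le_sum fun y _ => Finset.sum_le_sum fun z _ => ?_
  rw [← Finset.mul_sum]
  exact time_poincare T (U x y z)

/-- (T3) -/
theorem sum_zero_sub_ub_sq (S : ℕ) {T : ℕ} (hT : 0 < T) (U : ℕ → ℕ → ℕ → ℕ → ℝ) :
    ∑ x ∈ range S, ∑ y ∈ range S, ∑ z ∈ range S,
      (U x y z 0 - ub T U x y z) ^ 2 ≤ (T : ℝ) * Eti S T U := by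
  unfold Eti
  simp only [Finset.mul_sum (a := (T : ℝ))]
  refine Finset.sum_le_sum fun x _ => Finset.sum_le_sum fun y _ => Finset.sum_le_sum fun z _ => ?_
  rw [← Finset.mul_sum]
  exact time_poincare_zero hT (U x y z)

lemma Esp_nonneg (S T : ℕ) (U : ℕ → ℕ → ℕ → ℕ → ℝ) : 0 ≤ Esp S T U := by
  unfold Esp
  positivity

lemma Eti_nonneg (S T : ℕ) (U : ℕ → ℕ → ℕ → ℕ → ℝ) : 0 ≤ Eti S T U := by
  unfold Eti
  positivity

lemma Eti_mono {S S' : ℕ} (h : S ≤ S') (T : ℕ) (U : ℕ → ℕ → ℕ → ℕ → ℝ) :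
    Eti S T U ≤ Eti S' T U := by
  unfold Eti
  have hs : range S ⊆ range S' := Finset.range_mono h
  refine (Finset.sum_le_sum_of_subset_of_nonneg hs fun _ _ _ => by positivity).trans ?_
  refine Finset.sum_le_sum fun x _ => ?_
  refine (Finset.sum_le_sum_of_subset_of_nonneg hs fun _ _ _ => by positivity).trans ?_
  refine Finset.sum_le_sum fun y _ => ?_
  exact Finset.sum_le_sum_of_subset_of_nonneg hs fun _ _ _ => by positivity

lemma E3_one_sub (S : ℕ) (f : ℕ → ℕ → ℕ → ℝ) :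
    E3 S (fun x y z => 1 - f x y z) = E3 S f := by
  unfold E3
  refine Finset.sum_congr rfl fun x _ => Finset.sum_congr rfl fun y _ =>
    Finset.sum_congr rfl fun z _ => ?_
  have e : ∀ a b : ℝ, (1 - a - (1 - b)) ^ 2 = (a - b) ^ 2 := fun a b => by ring
  rw [e, e, e]

lemma sum_ite_card (S : ℕ) (p : ℕ → ℕ → ℕ → Prop) [∀ x y z, Decidable (p x y z)] :
    ∑ x ∈ range S, ∑ y ∈ range S, ∑ z ∈ range S, (if p x y z then (1 : ℝ) else 0) =
      (((range S ×ˢ range S ×ˢ range S).filter fun q => p q.1 q.2.1 q.2.2).card : ℝ) := by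
  rw [Finset.card_filter]
  push_cast
  rw [Finset.sum_product]
  refine Finset.sum_congr rfl fun x _ => ?_
  rw [Finset.sum_product]

/-- (T4) the volume lemma on window averages -/
theorem cnt_le (M m : ℕ) (hm : m ≤ M) {T : ℕ} (hT : 0 < T) (U : ℕ → ℕ → ℕ → ℕ → ℝ)
    (a b c : ℕ) (ha : 3 ^ m * a < 3 ^ M) (hb : 3 ^ m * b < 3 ^ M) (hc : 3 ^ m * c < 3 ^ M)
    (hmean : mean3 m (fun x y z => 1 - ub T U x y z) a b c ≤ 1 / 16)
    (hE : 57600 * (Esp (3 ^ M) T U / T) ≤ 3 ^ m) :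
    cnt (3 ^ M) T (5 / 8) U ≤
      1024 * Esp (3 ^ M) T U * (1 + 9 * (57600 * (Esp (3 ^ M) T U / T)) ^ 2) +
        64 * ((T : ℝ) ^ 2 * Eti (3 ^ M) T U) := by
  have hT' : (0 : ℝ) < T := by exact_mod_cast hT
  set e := Esp (3 ^ M) T U / T with he
  have he0 : 0 ≤ e := div_nonneg (Esp_nonneg _ _ _) hT'.le
  have hE3 : E3 (3 ^ M) (fun x y z => 1 - ub T U x y z) ≤ e := by
    rw [E3_one_sub]
    exact E3_ub_le _ _ _
  have hE30 : 0 ≤ E3 (3 ^ M) (fun x y z => 1 - ub T U x y z) := E3_nonneg _ _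
  have hvol := vol3 M m hm (fun x y z => 1 - ub T U x y z) a b c ha hb hc hmean
    ((mul_le_mul_of_nonneg_left hE3 (by norm_num)).trans hE)
  set F := E3 (3 ^ M) (fun x y z => 1 - ub T U x y z) with hF
  have hvol' : (((range (3 ^ M) ×ˢ range (3 ^ M) ×ˢ range (3 ^ M)).filter
        fun p => 1 / 4 ≤ 1 - ub T U p.1 p.2.1 p.2.2).card : ℝ) ≤
      1024 * e * (1 + 9 * (57600 * e) ^ 2) := by
    refine hvol.trans ?_
    gcongr
  have hpt : ∀ x y z w : ℕ, (if U x y z w < 5 / 8 then (1 : ℝ) else 0) ≤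
      (if 1 / 4 ≤ 1 - ub T U x y z then (1 : ℝ) else 0) + 64 * (U x y z w - ub T U x y z) ^ 2 := by
    intro x y z w
    by_cases h1 : U x y z w < 5 / 8
    · rw [if_pos h1]
      by_cases h2 : 1 / 4 ≤ 1 - ub T U x y z
      · rw [if_pos h2]
        nlinarith [sq_nonneg (U x y z w - ub T U x y z)]
      · rw [if_neg h2]
        have h3 : 1 / 8 ≤ ub T U x y z - U x y z w := by linarith
        nlinarith
    · rw [if_neg h1]
      have : 0 ≤ (if 1 / 4 ≤ 1 - ub T U x y z then (1 : ℝ) else 0) := by split_ifs <;> norm_num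
      positivity
  unfold cnt
  calc ∑ x ∈ range (3 ^ M), ∑ y ∈ range (3 ^ M), ∑ z ∈ range (3 ^ M), ∑ w ∈ range T,
        (if U x y z w < 5 / 8 then (1 : ℝ) else 0)
      ≤ ∑ x ∈ range (3 ^ M), ∑ y ∈ range (3 ^ M), ∑ z ∈ range (3 ^ M), ∑ w ∈ range T,
        ((if 1 / 4 ≤ 1 - ub T U x y z then (1 : ℝ) else 0)
          + 64 * (U x y z w - ub T U x y z) ^ 2) :=
        Finset.sum_le_sum fun x _ => Finset.sum_le_sum fun y _ => Finset.sum_le_sum fun z _ =>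
          Finset.sum_le_sum fun w _ => hpt x y z w
    _ = (T : ℝ) * (∑ x ∈ range (3 ^ M), ∑ y ∈ range (3 ^ M), ∑ z ∈ range (3 ^ M),
          (if 1 / 4 ≤ 1 - ub T U x y z then (1 : ℝ) else 0)) +
        64 * ∑ x ∈ range (3 ^ M), ∑ y ∈ range (3 ^ M), ∑ z ∈ range (3 ^ M), ∑ w ∈ range T,
          (U x y z w - ub T U x y z) ^ 2 := by
        simp only [Finset.sum_add_distrib, Finset.sum_const, Finset.card_range, nsmul_eq_mul,
          Finset.mul_sum]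
    _ ≤ (T : ℝ) * (1024 * e * (1 + 9 * (57600 * e) ^ 2)) +
        64 * ((T : ℝ) ^ 2 * Eti (3 ^ M) T U) := by
        refine add_le_add (mul_le_mul_of_nonneg_left ?_ hT'.le)
          (mul_le_mul_of_nonneg_left (sum_sub_ub_sq _ _ _) (by norm_num))
        rw [sum_ite_card (3 ^ M) fun x y z => 1 / 4 ≤ 1 - ub T U x y z]
        exact hvol'
    _ = 1024 * Esp (3 ^ M) T U * (1 + 9 * (57600 * e) ^ 2) +
        64 * ((T : ℝ) ^ 2 * Eti (3 ^ M) T U) := by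
        have : (T : ℝ) * e = Esp (3 ^ M) T U := by
          rw [he]; field_simp
        rw [← this]; ring

/-- the mean of `1 - ub` over a cube is small if the time mean is close to `U` in window `0` and
`U` is close to `1` there -/
lemma mean3_one_sub_ub (m : ℕ) {T : ℕ} (hT : 0 < T) (U : ℕ → ℕ → ℕ → ℕ → ℝ)
    (h0 : ∑ x ∈ range (3 ^ m), ∑ y ∈ range (3 ^ m), ∑ z ∈ range (3 ^ m),
      (1 - U x y z 0) ^ 2 ≤ 27 ^ m / 1024)
    (h1 : (T : ℝ) * Eti (3 ^ m) T U ≤ 27 ^ m / 1024) :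
    mean3 m (fun x y z => 1 - ub T U x y z) 0 0 0 ≤ 1 / 16 := by
  have h27 : (0 : ℝ) < 27 ^ m := by positivity
  have h2 := mean3_sq_le m (fun x y z => 1 - ub T U x y z) 0 0 0
  have h3 : mean3 m (fun x y z => (1 - ub T U x y z) ^ 2) 0 0 0 ≤ 1 / 256 := by
    unfold mean3
    simp only [mul_zero, zero_add]
    rw [div_le_iff₀ h27]
    have h4 := sum_zero_sub_ub_sq (3 ^ m) hT U
    calc ∑ x ∈ range (3 ^ m), ∑ y ∈ range (3 ^ m), ∑ z ∈ range (3 ^ m),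
          (1 - ub T U x y z) ^ 2
        ≤ ∑ x ∈ range (3 ^ m), ∑ y ∈ range (3 ^ m), ∑ z ∈ range (3 ^ m),
          (2 * (1 - U x y z 0) ^ 2 + 2 * (U x y z 0 - ub T U x y z) ^ 2) := by
          refine Finset.sum_le_sum fun x _ => Finset.sum_le_sum fun y _ =>
            Finset.sum_le_sum fun z _ => ?_
          nlinarith [sq_nonneg ((1 - U x y z 0) - (U x y z 0 - ub T U x y z))]
      _ = 2 * (∑ x ∈ range (3 ^ m), ∑ y ∈ range (3 ^ m), ∑ z ∈ range (3 ^ m),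
            (1 - U x y z 0) ^ 2) +
          2 * ∑ x ∈ range (3 ^ m), ∑ y ∈ range (3 ^ m), ∑ z ∈ range (3 ^ m),
            (U x y z 0 - ub T U x y z) ^ 2 := by
          simp only [Finset.sum_add_distrib, Finset.mul_sum]
      _ ≤ 1 / 256 * 27 ^ m := by linarith
  have h5 : (mean3 m (fun x y z => 1 - ub T U x y z) 0 0 0) ^ 2 ≤ (1 / 16) ^ 2 := by
    refine h2.trans (h3.trans (by norm_num))
  exact le_trans (le_abs_self _) (abs_le_of_sq_le_sq h5 (by norm_num))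

/-- (T5) volume lemma, start from the window `0` on a cube -/
theorem cnt_le_start (M m : ℕ) (hm : m ≤ M) {T : ℕ} (hT : 0 < T) (U : ℕ → ℕ → ℕ → ℕ → ℝ)
    (h0 : ∑ x ∈ range (3 ^ m), ∑ y ∈ range (3 ^ m), ∑ z ∈ range (3 ^ m),
      (1 - U x y z 0) ^ 2 ≤ 27 ^ m / 1024)
    (h1 : (T : ℝ) * Eti (3 ^ M) T U ≤ 27 ^ m / 1024)
    (hE : 57600 * (Esp (3 ^ M) T U / T) ≤ 3 ^ m) :
    cnt (3 ^ M) T (5 / 8) U ≤
      1024 * Esp (3 ^ M) T U * (1 + 9 * (57600 * (Esp (3 ^ M) T U / T)) ^ 2) +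
        64 * ((T : ℝ) ^ 2 * Eti (3 ^ M) T U) := by
  have hS : 3 ^ m ≤ 3 ^ M := Nat.pow_le_pow_right (by norm_num) hm
  have h3 : 3 ^ m * 0 < 3 ^ M := by rw [mul_zero]; positivity
  refine cnt_le M m hm hT U 0 0 0 h3 h3 h3 (mean3_one_sub_ub m hT U h0 ?_) hE
  refine le_trans (mul_le_mul_of_nonneg_left (Eti_mono hS T U) (Nat.cast_nonneg _)) h1

/-- (T4') volume lemma, start from a cube where `U = 1` in all windows -/
theorem cnt_le_one (M m : ℕ) (hm : m ≤ M) {T : ℕ} (hT : 0 < T) (U : ℕ → ℕ → ℕ → ℕ → ℝ)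
    (h0 : ∀ x < 3 ^ m, ∀ y < 3 ^ m, ∀ z < 3 ^ m, ∀ w < T, U x y z w = 1)
    (hE : 57600 * (Esp (3 ^ M) T U / T) ≤ 3 ^ m) :
    cnt (3 ^ M) T (5 / 8) U ≤
      1024 * Esp (3 ^ M) T U * (1 + 9 * (57600 * (Esp (3 ^ M) T U / T)) ^ 2) +
        64 * ((T : ℝ) ^ 2 * Eti (3 ^ M) T U) := by
  have h3 : 3 ^ m * 0 < 3 ^ M := by rw [mul_zero]; positivity
  have hT' : (T : ℝ) ≠ 0 := by exact_mod_cast hT.ne'
  refine cnt_le M m hm hT U 0 0 0 h3 h3 h3 (le_of_eq_of_le ?_ (by norm_num : (0 : ℝ) ≤ 1 / 16)) hE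
  unfold mean3
  simp only [mul_zero, zero_add]
  rw [div_eq_zero_iff]
  left
  refine Finset.sum_eq_zero fun x hx => Finset.sum_eq_zero fun y hy =>
    Finset.sum_eq_zero fun z hz => ?_
  rw [Finset.mem_range] at hx hy hz
  unfold ub
  rw [Finset.sum_congr rfl fun w hw => h0 x hx y hy z hz w (Finset.mem_range.1 hw)]
  simp [hT']

/-- (T6) time means over two subcubes of side `3 ^ m` -/
theorem mean3_ub_sub (M m : ℕ) (hm : m ≤ M) {T : ℕ} (hT : 0 < T) (U : ℕ → ℕ → ℕ → ℕ → ℝ)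
    (a b c a' b' c' : ℕ)
    (ha : 3 ^ m * a < 3 ^ M) (hb : 3 ^ m * b < 3 ^ M) (hc : 3 ^ m * c < 3 ^ M)
    (ha' : 3 ^ m * a' < 3 ^ M) (hb' : 3 ^ m * b' < 3 ^ M) (hc' : 3 ^ m * c' < 3 ^ M) :
    |mean3 m (ub T U) a b c - mean3 m (ub T U) a' b' c'| ≤
      30 * √(Esp (3 ^ M) T U / (T * 3 ^ m)) := by
  refine (mean3_sub M m hm (ub T U) a b c a' b' c' ha hb hc ha' hb' hc').trans ?_
  have h3 : (0 : ℝ) < 3 ^ m := by positivity
  refine mul_le_mul_of_nonneg_left (Real.sqrt_le_sqrt ?_) (by norm_num)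
  rw [← div_div]
  exact div_le_div_of_nonneg_right (E3_ub_le _ _ _) h3.le

end Vale.Agent.P361.LRO.Ind
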